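import Vale.Agent.Lib.P154Q4.Pack

/-!
The packed control points of a cell; clipping and discarding of cells; the tree recursion.
-/

namespace Vale.Agent.Lib.P154Q4

/-- the packed control points of a cell, computed by few multiplications -/
def pk (X U L H l h : Nat) (f : Bool) : V :=
  let X2 := Nat.mul X X
  let X4 := Nat.mul X2 X2
  let X6 := Nat.mul X4 X2
  let X8 := Nat.mul X4 X4
  let X16 := Nat.mul X8 X8
  let U2 := Nat.mul U U
  let U3 := Nat.mul U2 U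
  let LH := Nat.mul L H
  let LL := Nat.mul L L
  let HH := Nat.mul H H
  let ll := Nat.mul l l
  let lh := Nat.mul l h
  let hh := Nat.mul h h
  let UC := Nat.mul U (Nat.add L H)
  let S0 := Nat.mul (Nat.mul 2 U2) (Nat.add 1 (Nat.add X8 X16))
  let S1 := Nat.add (Nat.mul 2 (Nat.mul U L)) (Nat.add (Nat.mul UC X8) (Nat.mul (Nat.mul 2 (Nat.mul U H)) X16))
  let S2 := Nat.add (Nat.mul 2 LL) (Nat.add (Nat.mul (Nat.mul 2 LH) X8) (Nat.mul (Nat.mul 2 HH) X16))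
  let N0 := Nat.mul (Nat.mul 3 U3) (Nat.add 1 (Nat.add X2 (Nat.add X4 X6)))
  let N1 := Nat.mul U2 (Nat.add (Nat.mul 3 l) (Nat.add (Nat.mul (Nat.add (Nat.mul 2 l) h) X2)
    (Nat.add (Nat.mul (Nat.add l (Nat.mul 2 h)) X4) (Nat.mul (Nat.mul 3 h) X6))))
  let N2 := Nat.mul U (Nat.add (Nat.mul 3 ll) (Nat.add (Nat.mul (Nat.add ll (Nat.mul 2 lh)) X2)
    (Nat.add (Nat.mul (Nat.add (Nat.mul 2 lh) hh) X4) (Nat.mul (Nat.mul 3 hh) X6))))
  let N3 := Nat.mul 3 (Nat.add (Nat.mul ll l) (Nat.add (Nat.mul (Nat.mul ll h) X2)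
    (Nat.add (Nat.mul (Nat.mul l hh) X4) (Nat.mul (Nat.mul hh h) X6))))
  let p0 := Nat.mul S0 N0
  let p1 := Nat.mul S0 N1
  let p2 := Nat.mul S1 N0
  let p4 := Nat.mul S1 N1
  let p5 := Nat.mul S2 N0
  let p6 := Nat.mul S1 N2
  let p8 := Nat.mul S2 N1
  let lo3 := Nat.add (Nat.mul 3 p2) (Nat.mul S0 (Nat.add (Nat.mul 12 N2) (Nat.mul 52 N0)))
  let lo7 := Nat.add (Nat.mul 3 p5) (Nat.mul S1 (Nat.add (Nat.mul 12 N2) (Nat.mul 52 N0)))
  let lo9 := Nat.add (Nat.mul 3 p8) (Nat.mul S1 (Nat.add (Nat.mul 12 N3) (Nat.mul 52 N1)))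
  cond f
    (let W := Nat.mul 48 U2
     let B1 := Nat.add (Nat.mul 2 (Nat.mul U H)) (Nat.add (Nat.mul UC X8) (Nat.mul (Nat.mul 2 (Nat.mul U L)) X16))
     let B2 := Nat.add (Nat.mul 2 LH) (Nat.add (Nat.mul (Nat.add LL HH) X8) (Nat.mul (Nat.mul 2 LH) X16))
     let Y := Nat.add 1 (Nat.mul X LH)
     ⟨Nat.mul Y p0, Nat.mul Y p1, Nat.mul Y p2,
      Nat.add lo3 (Nat.mul X (Nat.add (Nat.mul W (Nat.mul B1 N0)) (Nat.mul LH (Nat.add (Nat.mul 40 p1) (Nat.mul 6 p2))))),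
      Nat.mul Y p4, Nat.mul Y p5, Nat.mul Y p6,
      Nat.add lo7 (Nat.mul X (Nat.add (Nat.mul W (Nat.mul B2 N0)) (Nat.mul LH (Nat.add (Nat.mul 40 p4) (Nat.mul 6 p5))))),
      Nat.mul Y p8,
      Nat.add lo9 (Nat.mul X (Nat.add (Nat.mul W (Nat.mul B2 N1)) (Nat.mul LH (Nat.add (Nat.mul 40 p6) (Nat.mul 6 p8)))))⟩)
    (let Y := Nat.add 1 X
     let H3 := Nat.add (Nat.mul 3 N2) (Nat.add (Nat.mul 18 N1) (Nat.mul 43 N0))
     ⟨Nat.mul Y p0, Nat.mul Y p1, Nat.mul Y p2,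
      Nat.add lo3 (Nat.mul X (Nat.add (Nat.mul 6 p2) (Nat.mul S0 H3))),
      Nat.mul Y p4, Nat.mul Y p5, Nat.mul Y p6,
      Nat.add lo7 (Nat.mul X (Nat.add (Nat.mul 6 p5) (Nat.mul S1 H3))),
      Nat.mul Y p8,
      Nat.add lo9 (Nat.mul X (Nat.add (Nat.mul 6 p8) (Nat.mul S1 (Nat.add (Nat.mul 3 N3) (Nat.add (Nat.mul 18 N2) (Nat.mul 43 N1))))))⟩)

theorem pk_false (X U L H l h : Nat) : pk X U L H l h false = packV X (cellV U L H l h false) := by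
  simp only [pk, cond_false, cellV, listLo, listHi, zipAlt, packV, Nat.mul_eq, Nat.add_eq]
  ext <;> simp only [V.add, V.smul, V.zero, vLo, vHi] <;> ring

theorem pk_true (X U L H l h : Nat) : pk X U L H l h true = packV X (cellV U L H l h true) := by
  simp only [pk, cond_true, cellV, listLo, listCh, zipAlt, packV, Nat.mul_eq, Nat.add_eq]
  ext <;> simp only [V.add, V.smul, V.zero, vLo, vCh] <;> ring

theorem pk_eq (X U L H l h : Nat) (f : Bool) : pk X U L H l h f = packV X (cellV U L H l h f) := by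
  cases f
  · exact pk_false _ _ _ _ _ _
  · exact pk_true _ _ _ _ _ _

end Vale.Agent.Lib.P154Q4
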