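import Vale.Agent.Lib.P154Q4.CkADefs

namespace Vale.Agent.Lib.P154Q4

set_option maxRecDepth 100000
set_option exponentiation.threshold 1000

open Tr

theorem okA0 : CKA ⟨0, 8193, 0, 4096⟩ ⟨0, 49152, 0, 4096⟩ :=
  ckA_sound (c (a (c (b (d z0 (c (b z0 z0) (b z0 (d z0 (b z0 z0))))) (d (a (b z0 (d z0 z0)) (b (d z0 z0) (d z0 z0))) (a (c (b z0 (d z0 z0)) z0) (c (b z0 (d z0 z0)) z0)))) (b (d (b z0 (d z0 z0)) (b z0 (d (c z0 (b z0 z1)) (c (b z0 z0) (b z0 z0))))) (d (a (b (d z0 z0) (d z0 z0)) (b (d z0 z0) (d z0 z0))) z0))) (c (b (d (b z0 (d z0 z0)) (c (b z0 z0) (b z0 z0))) (d (b (d z0 (a z0 (b (d z0 z2) (d z0 z2)))) (d z0 (a (b (d z0 z0) (d z0 z0)) (b (d z0 z0) (d z0 z0))))) (c (b (d z0 z0) (d z0 z0)) z0))) (b (d (b z0 (d z0 (a z0 z2))) (b z0 (d (a z0 (c z2 (b z0 (d z3 (b z0 (d z3 (a z3 z0)))))))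 (a (c (b z0 z0) (b (d z0 (b z0 z0)) z0)) (c (b z0 z2) (b z0 z2)))))) (d (b (d z0 (a z0 (c z2 (b z3 (d z0 (b z3 (d z0 (a z1 z3)))))))) (d z0 (a z0 (c (b z0 (d z0 z0)) z1)))) (b (d (a z0 (c (b z2 (d z2 (c z2 (b z2 (d (a z0 z2) (a z0 z2)))))) (b (d z3 (b (d z3 (a z3 z0)) (d z3 (a z3 (c z2 z3))))) (d (b z3 (d (a z1 z3) (a z1 z3))) (b (d z3 (a z3 (c z2 z3))) (d (a z1 z3) (a z1 (c z2 z3)))))))) (a z0 (c (b z2 (d (c z2 (b z2 (d (a z0 z2) (a z0 z2)))) (c (b z2 (d (a z0 z2) (a z0 z2))) (b z2 (d (a z0 z2) (a z0 z2)))))) (b z2 (d (b z2 (d (a z0 z2) (a z0 z2))) (b (d z2 (a (c z2 (b z2 z0)) z2)) (d (a z0 z2) (a z0 z2)))))))) z0))))) (a (b (d z0 (b z0 (d (c (b z0 z1) z0) (c (b z0 z1) (b z0 z1))))) (d z0 z1)) (b (d z0 (b z0 (d (c (a (b (d z0 (c (b z0 z1) z0)) z1) z3) z0) (c (a (b (d (c (b z0 z1)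 (b z0 z1)) (c (b z0 z1) (b z0 z1))) z1) (b z0 z3)) (a (b (d z0 (c (b z0 z1) (b z0 z1))) z1) (b z0 z3)))))) (d z0 (b (d (c z1 z0) (c (a z1 (b z3 (d (c (b (d (a (c (b z3 z1) (b z3 z1)) z3) (a (c (b z3 z1) (b z3 z1)) z3)) (d (a z1 z3) (a z1 z3))) (b (d z0 (a (c (b z3 z1) z0) z3)) (d z0 (a z1 z3)))) (c (b (d (a (c (b z3 z1) (b z3 z1)) z3) (a (c (b z3 z1) (b z3 z1)) z3)) (d (a z1 z3) (a z1 z3))) (b (d (a (c (b z3 z1) (b (d (a z1 z3) (a z1 z3)) z1)) z3) (a (c (b z3 z1) (b (d (a z1 z3) (a z1 z3)) z1)) z3)) (d (a z1 z3) (a z1 z3))))))) z1)) z1))))) _ _ (by decide +kernel)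

theorem okA1 : CKA ⟨8193, 49152, 0, 4096⟩ ⟨0, 49152, 0, 4096⟩ :=
  ckA_sound (c (c (b z0 (d (b (d z0 (a (b z0 (d z0 z2)) z0)) (d z0 (a (b (d z0 z2) (d z0 z2)) (b z0 (d z0 (a z2 (b z0 (d z2 z2)))))))) (c (b (d (a (b z0 (d z2 z2)) z0) z2) (d (a (b (d z2 z2) (d z2 z2)) (b z0 (d z2 z2))) z2)) z2))) (b z0 (d (b (d z0 (a (c (b z0 (d (a z2 z0) z2)) (b z0 z3)) z0)) (d z0 (a (c (b (d (a (b (d z0 z2) (d z0 z2)) (b z0 (d z0 z2))) z2) (d (a (b (d z0 z2) (d z0 z2)) (b (d z0 z2) (d z0 z2))) z2)) z3) (c (b z0 (d (a (b z0 (d z0 z2)) (b z0 (d z0 (c (b z0 (d z2 z2)) (b z0 (d z3 (a z3 (c (b z0 z3) z0)))))))) z2)) (b z0 (d z0 z3)))))) (b (d (a z2 z0) (a (c z2 (b z0 z2)) z0)) (d (a z2 (c z2 (b z0 (d (a (b z0 z3) (b z0 (d z3 (c (b z0 (d z3 (a z3 (c z2 z3)))) z3)))) (a (b z0 (d (c (a (b (d (c z2 z3) z2)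 (d (c z2 z3) z2)) (b (d (c z2 z3) z2) (d (c z2 z3) z2))) z3) (c z2 z3))) (b z0 (d (c (b z0 (d (a (c z2 z3) (c z2 z3)) z2)) z3) (c z2 z3)))))))) z2))))) (b z0 (d z0 (b (d z3 (c (a (b z0 z3) z0) z3)) z3)))) _ _ (by decide +kernel)

theorem okA2 : CKA ⟨0, 4097, 0, 4096⟩ ⟨0, 6144, 4096, 8192⟩ :=
  ckA_sound (b (d (c (b z0 (d (c z0 (b z0 z0)) z0)) (b z0 (d (b z0 z0) (b z0 z0)))) (b z0 z0)) (d (c (a (b (d z0 z0) (d (c (a (b z0 (d (c (a (b z0 (d (c (a (b z0 (d (c (a (b z0 (d (c (a (b (d (c (a n z0) z0) (c (a n z0) z0)) (d (c (a n z0) z0) (c (a n z0) z0))) z0) z0) z0)) z0) z0) z0)) z0) z0) z0)) z0) z0) z0)) z0) z0) z0)) (b (d z0 z0) (d z0 (b (d z0 z0) (d z0 z0))))) z0) (a (b z0 (d z0 z0)) (b (d z0 z0) (d z0 z0))))) _ _ (by decide +kernel)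

theorem okA3 : CKA ⟨4097, 8193, 0, 2048⟩ ⟨0, 6144, 4096, 8192⟩ :=
  ckA_sound (d (c (b z0 (d (c z0 (a z0 z2)) (a (b z0 (d z0 z0)) (b z0 (d z2 (b z0 (d z2 z2))))))) (b z0 (d (a (b (d (c z0 (b z0 z0)) (c z0 (b z0 z0))) z0) (b z0 z2)) (a (b (d (c z0 (b z0 z0)) (c (b z0 z0) (b z0 z0))) z0) (b z0 (d z2 (c (b z0 z2) (b z0 z2)))))))) (b z0 (d (a (b (d (c (b z0 (d z0 (a z0 (b (d z2 (a z2 z0)) z2)))) (b z0 (d (c z0 (a z0 z2)) (c (a z0 (b (d z2 (c (a z2 z0) (a z2 z0))) z2)) (a z0 (b (d z2 (c (a z2 z0) (a z2 z0))) z2)))))) (b z0 (d (a z0 (c (b (d (c (a z2 z0) (a z2 z0)) (a z2 z0)) (d z2 z2)) (b (d (c (a z2 z0) (a z2 z0)) (c (a z2 z0) (a z2 z0))) z2))) (a z0 (b (d (a (b z0 z2) z0) z0) (d (a z2 z0) z0)))))) (d (c (a z0 (b (d z0 z0) z0)) z0) (a z0 (b (d (c (b (d z0 (a z0 z2)) (d z0 z0)) (b (d z0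 (a z0 z2)) z0)) (b (d (a z0 z2) z0) (d (a z0 z2) z0))) (d z0 (b (d z0 z0) z0)))))) (b z0 (d (c (b z0 (d (c (a z2 z0) z2) (a (b (d z2 z2) z2) z0))) (b z0 (d z2 (a z2 z0)))) (b z0 (d (a (c (b (d z2 z2) (d z2 z2)) z2) z0) (a (b (d (a z2 z0) z0) (d z2 z0)) z0)))))) z0))) _ _ (by decide +kernel)

theorem okA4 : CKA ⟨4097, 8193, 2048, 4096⟩ ⟨0, 6144, 4096, 8192⟩ :=
  ckA_sound (d (c (b (d z0 (a (b (d z0 z0) (d z0 z0)) (b (d z2 (b (d z2 z2) z2)) (d z2 z2)))) (d z0 (a (b (d z0 z0) (d z0 z0)) (b (d z0 z0) (d z0 z0))))) (b (d (a z0 (b z2 (d (c (b z2 (d (c z2 (a z0 z2)) (c z2 (a z0 z2)))) (b z2 (d (a z0 z2) (a z0 z2)))) (c (b z2 (d (c z2 (a z0 z2)) (c z2 (a z0 z2)))) (b z2 (d (a z0 z2) (a z0 z2))))))) (a z0 (b z2 (d (c (b z2 (d (c (a z0 z2) (a z0 z2)) (c (a z0 z2) (a z0 z2)))) (b z2 (d (a z0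 z2) (a z0 z2)))) (c (b z2 (d (c (a z0 z2) (a z0 z2)) (c (a z0 z2) (a z0 z2)))) (b z2 (d (a z0 z2) (a z0 z2)))))))) z0)) (b (d (a (b (d z0 (a z0 (b (d z0 z0) z0))) (d z0 z0)) (b (d (c (b (d z2 (a z2 z0)) (d z2 z2)) z2) (b (d (a z2 z0) (a z2 z0)) (d (a z2 (c (b (d z2 z2) z2) z2)) (a z2 (b (d z2 z0) (d z2 z0)))))) (d (c (b (d z2 z2) (d (c (a z0 z2) (a z0 z2)) (a z0 z2))) (b z2 (d (a z0 z2) (a z0 z2)))) (b (d z2 (a (b z2 (d z0 z0)) z2)) (d (a z0 z2) (a (b (d z0 z0) z0) z2)))))) z0) (d (a (b (d z0 z0) (d z0 z0)) (b (d (c (b (d (c (a z0 z2) z0) (a z0 z2)) (d z0 (a z0 z2))) (b (d z0 (a z0 z2)) z0)) (b (d (a z0 z2) (a z0 z2)) (d (a z0 z2) (a z0 z2)))) (d (c (b (d z0 z0) (d z0 z0)) z0) (b (d (a z0 (c (b z2 z0) z0)) (a z0 (b z2 (d z0 z0)))) (d z0 z0))))) z0))) _ _ (by decide +kernel)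

theorem okA5 : CKA ⟨0, 4097, 0, 4096⟩ ⟨6144, 12288, 4096, 8192⟩ :=
  ckA_sound (b (d (b z0 (d (c (b z0 z0) (b z0 z1)) (c (b z0 z0) (b z0 z0)))) (b z0 (d (c (b z0 z0) (b z0 z0)) (b z0 z0)))) z0) _ _ (by decide +kernel)

theorem okA6 : CKA ⟨4097, 8193, 0, 2048⟩ ⟨6144, 12288, 4096, 6144⟩ :=
  ckA_sound (b z0 (d (c (a (b (d (c (b z0 z0) (b z0 z0)) (c (b z0 z0) (b z0 z0))) z0) (b z0 (d z2 (c z2 (b z0 z2))))) (a (b (d (b z0 z1) (b z0 z1)) z1) (b z0 (d z3 (b z0 (d z3 (c (a z3 z0) z3))))))) (c (a (b (d (c (b z0 z0) (b z0 z0)) (c (b z0 z0) (b z0 (d z0 (a z0 z2))))) z0) (b z0 (d (c (b z0 z2) (b z0 z2)) (c (b z0 z2) (b z0 z2))))) (a (b (d (b z0 (d z1 (c (a z0 z2) z1))) (b z0 (d (c (a z0 z2) (a z1 (b (d z3 (c (a z3 z0) z3)) z3))) (c (a z0 (b (d z2 (c z2 (a z2 z0))) z2)) (a z1 (b (d (c (a z2 z0)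 (a z3 z0)) (c (a z2 z0) (a z3 z0))) z3)))))) z0) (b z0 (d (b z0 (d (c z2 z3) (c z2 z3))) (b z0 (d (c z2 (a z3 z0)) (c (a z2 z0) (a z3 z0)))))))))) _ _ (by decide +kernel)

theorem okA7 : CKA ⟨4097, 8193, 0, 1024⟩ ⟨6144, 12288, 6144, 8192⟩ :=
  ckA_sound z0 _ _ (by decide +kernel)

theorem okA8 : CKA ⟨4097, 8193, 1024, 2048⟩ ⟨6144, 9216, 6144, 7168⟩ :=
  ckA_sound (a (b (d (c (b z0 (d (a z0 z2) (a z0 (c (b (d z2 (c (a z2 z0) (a z2 z0))) z2) (b (d (a z2 z0) (a z2 z0)) z2))))) (b z0 (d (a z0 (c (b (d z2 (a z2 z0)) z2) (b (d z2 (a z2 z0)) z2))) (a z0 (c (b (d (a z2 z0) (a z2 z0)) z2) (b (d (a z2 z0) (a z2 z0)) z2)))))) (c (b z0 (d (a z0 (c (b (d (c (a z2 z0) (a z2 z0)) (c (a z2 z0) (a z2 z0))) z2) (b (d (a z2 z0) (a z2 z0)) z2))) (a z0 (c (b (d (c (a z2 z0) (a z2 z0)) (a (b z0 z2) z0))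 (d z2 (a z2 z0))) (b (d (a z2 z0) (a (c (b z0 z2) (b z0 z2)) z0)) (d z2 (a z2 z0))))))) (b z0 (d (a z0 (c (b (d (a z2 z0) (a z2 z0)) z2) (b (d (a z2 z0) (a z2 z0)) z2))) (a z0 (c (b (d (a z2 z0) (a (c (b z0 z2) (b z0 z2)) z0)) (d z2 (a z2 z0))) (b (d (a z2 z0) (a (b z0 z2) z0)) (d z2 (a z2 z0))))))))) (d z0 (c (a z0 (b (d (c (b (d z0 (a z0 z2)) z0) (b (d z0 (a z0 z2)) z0)) (c (b (d (a z0 z2) (a z0 z2)) (d z0 (a z0 z2))) (b (d (a z0 z2) (a z0 z2)) (d z0 (a z0 z2))))) z0)) (a z0 (b (d (c (b (d z0 (a z0 z2)) z0) (b (d (a z0 z2) (a z0 z2)) z0)) (c (b (d (a z0 z2) (a z0 z2)) z0) (b (d (a z0 z2) (a z0 z2)) z0))) z0))))) (b z0 (d (c (b z0 (d (a z2 z0) (a z2 z0))) (b z0 (d (a z2 z0) (a z2 z0)))) (c (b z0 (d (a z2 z0) (a (c (b (d z2 (a z2 z0)) (d z2 z2)) z2) z0))) (b z0 (d (a z2 z0) (a z2 z0)))))))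 _ _ (by decide +kernel)

theorem okA9 : CKA ⟨4097, 8193, 1024, 2048⟩ ⟨9216, 12288, 6144, 7168⟩ :=
  ckA_sound (a (b (d (b z0 (d (c (a z0 (b (d (c (a z2 z0) (a z2 z0)) (c (a z2 z0) (a z2 z0))) z2)) (a z0 (b (d (c (a z2 z0) (a z3 z0)) (c (a z2 z0) (a z2 z0))) z2))) (c (a z0 (b (d (c (a z2 z0) (a z2 z0)) (c (a z2 z0) (a z2 z0))) z2)) (a z0 (b (d (c (a z2 z0) (a z2 z0)) (c (a z2 z0) (a z2 z0))) z2))))) (b z0 (d (c (a z0 (b (d (c (a z2 z0) (a z2 z0)) (c (a z2 z0) (a z2 z0))) z2)) (a z0 (b (d (c (a z2 z0) (a z2 z0)) (c (a (b z0 z2) z0) (a (b z0 z2) z0))) z2))) (c (a z0 (b (d (c (a (b z0 z2) z0) (a (b z0 z2) z0)) (c (a (b z0 z2) z0) (a (b z0 z2) z0))) (d z2 (c (a z2 z0) (a z2 z0))))) (a z0 (b (d (c (a (b z0 z2) z0) (a (b z0 z2) z0)) (c (a (b z0 z2) z0) (a (b z0 z2) z0))) (d z2 (c (a z2 z0)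 (a z2 z0))))))))) (d (a z0 (b (d (c z0 (b (d z0 (a z0 z2)) z0)) (c (b (d z0 (c z0 (a z0 z2))) z0) (b (d (a z0 z2) (a z0 z2)) z0))) z0)) (a z0 (b (d (c (b (d (c (a z0 z2) (a z0 z2)) (c (a z0 z2) (a z0 z2))) z0) (b (d (a z0 z2) (a z0 z2)) z0)) (c (b (d (c (a z0 z2) (a z0 z2)) (c (a z0 z2) (a z0 z2))) (d z0 (c z0 (a z0 z2)))) (b (d (a z0 z2) (a z0 z2)) (d z0 (a z0 z2))))) z0)))) (b z0 (d (b z0 (d (c (a z2 z0) (a z2 z0)) (c (a z2 z0) (a z2 z0)))) (b z0 (d (c (a z2 z0) (a z2 z0)) (c (a z2 z0) (a z2 z0))))))) _ _ (by decide +kernel)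

theorem okA10 : CKA ⟨4097, 6145, 1024, 1536⟩ ⟨6144, 12288, 7168, 7680⟩ :=
  ckA_sound (c (b z0 (d (c (a z0 (b (d (c (a (b z0 z2) z0) (a (b z0 z2) z0)) (a (c (b z0 (d z2 (a z2 z0))) (b z0 z2)) z0)) (d (c (a z2 z0) (a z2 z0)) (a z2 z0)))) (a z0 (b (d (c (a (b z0 z2) z0) (a (b z0 z2) z0)) (c (a (b z0 z2) z0) (a (b z0 z2) z0))) (d (c (a z2 z0) (a z2 z0)) (c (a z2 z0) (a z2 z0)))))) (a z0 (b (d (c (a (b z0 (d (c (a z2 z0) z2) (a z2 z0))) z0) (a (b z0 (d z2 (c (a z2 z0) (a z2 z0)))) z0)) (a (c (b z0 (d (a z2 z0) (a z2 z0))) (b z0 (d (a z2 z0) (a z2 z0)))) z0)) (d (c (a z2 z0) (a z2 z0)) (a z2 z0)))))) (b z0 (d (c (a z0 (b (d (c (a (b z0 z2) z0) (a (b z0 z2) z0)) (c (a (b z0 z2) z0) (a (b z0 z2) z0))) (d (c (a z2 z0) (a z2 z0)) (c (a z2 z0) (a z2 z0))))) (a z0 (b (d (c (a (b z0 z2) z0) (a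 (b z0 z2) z0)) (c (a (b z0 z2) z0) (a (b z0 z2) z0))) (d (c (a z2 z0) (a z2 z0)) (c (a z2 z0) (a z2 z0)))))) (c (a z0 (b (d (c (a (b z0 (d z2 (c (a z2 z0) z2))) z0) (a (b z0 z2) z0)) (c (a (b z0 (d (c (a z2 z0) (a z2 z0)) (c (a z2 z0) (a z2 z0)))) z0) (a (b z0 (d (c (a z2 z0) (a z2 z0)) (c (a z2 z0) (a z2 z0)))) z0))) (d (c (a z2 z0) (a z2 z0)) (c (a z2 z0) (a z2 z0))))) (a z0 (b (d (c (a (b z0 z2) z0) (a (b z0 z2) z0)) (c (a (b z0 (d (c (a z2 z0) (a z2 z0)) (c (a z2 z0) (a z2 z0)))) z0) (a (b z0 (d (c (a z2 z0) (a z2 z0)) (c (a z2 z0) (a z2 z0)))) z0))) (d (c (a z2 z0) (a z2 z0)) (c (a z2 z0) (a z2 z0))))))))) _ _ (by decide +kernel)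

theorem okA11 : CKA ⟨4097, 6145, 1024, 1536⟩ ⟨6144, 12288, 7680, 8192⟩ :=
  ckA_sound (b z0 (d (c (a z0 (b (d (c (a (b z0 (d (c (a z2 z0) (a z2 z0)) (a z2 z0))) z0) (a (b z0 (d (c (a z2 z0) (a z2 z0)) (c (a z2 z0) (a z2 z0)))) z0)) (a (b z0 (d (c (a z2 z0) (a z2 z0)) (a z2 z0))) z0)) (d (c (a z2 z0) (a z2 z0)) (a z2 z0)))) (a z0 (b (d (c (a (b z0 (d (c (a z2 z0) (a z2 z0)) (c (a z2 z0) (a z2 z0)))) z0) (a (b z0 (d (c (a z2 z0) (a z2 z0)) (c (a z2 z0) (a z2 z0)))) z0)) (c (a (b z0 (d (c (a z2 z0) (a z2 z0)) (c (a z2 z0) (a z2 z0)))) z0) (a (b z0 (d (c (a z2 z0) (a z2 z0)) (c (a z2 z0) (a z2 z0)))) z0))) (d (c (a z2 z0) (a z2 z0)) (c (a z2 z0) (a z2 z0)))))) (a z0 (b (d (c (a (b z0 (d (c (a z2 z0) (a z2 z0)) (a z2 z0))) z0) (a (b z0 (d (c (a z2 z0) (a z2 z0)) (c (a z2 z0) (a z2 z0))))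 z0)) (a (b z0 (d (c (a z2 z0) (a z2 z0)) (a z2 z0))) z0)) (d (c (a (b (d z2 z2) z2) z0) (a z2 z0)) (a (b (d z2 z2) z2) z0)))))) _ _ (by decide +kernel)

theorem okA12 : CKA ⟨4097, 6145, 1536, 2048⟩ ⟨6144, 12288, 7168, 8192⟩ :=
  ckA_sound (d (c (a z0 (b (d (c (b (d (c (a z0 z2) (a z0 z2)) (a z0 z2)) (d (c (a z0 z2) (a z0 z2)) (a z0 z2))) (b (d (a z0 z2) (a z0 z2)) (d (a z0 z2) (a z0 z2)))) (b (d (c (a z0 z2) (a z0 z2)) (a z0 (c (b (d z2 z2) z2) z2))) (d (c (a z0 z2) (a z0 z2)) (a z0 z2)))) (d (c (b (d z0 (a z0 z2)) z0) z0) (b (d (c (a z0 z2) z0) (a z0 z2)) (d z0 z0))))) (a z0 (b (d (c (b (d (a z0 z2) (a z0 z2)) (d (a z0 z2) (a z0 z2))) (b (d (a z0 z2) (a z0 z2)) (d (a z0 z2) (a z0 z2)))) (c (b (d (a z0 z2) (a z0 z2)) (d (a z0 z2) (a z0 z2))) (b (d (a z0 z2) (a z0 z2)) (d (a z0 z2)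 (a z0 z2))))) z0))) (a z0 (b (d (c (b (d (a z0 (c (b (d z2 z2) z2) z2)) (a z0 (b (d z2 (a z2 z0)) z2))) (d (a z0 z2) (a z0 z2))) (b (d (a z0 z2) (a z0 z2)) (d (a z0 z2) (a z0 z2)))) (b (d (a z0 (c (b (d (a z2 z0) (a z2 z0)) z2) z2)) (a z0 (b (d (a z2 z0) (a z2 z0)) z2))) (d (a z0 z2) (a z0 z2)))) (d (c (b (d (a z0 z2) (a z0 z2)) (d z0 z0)) (b (d (a z0 z2) (a z0 z2)) z0)) (b (d (a z0 z2) (a z0 z2)) (d z0 z0)))))) _ _ (by decide +kernel)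

theorem okA13 : CKA ⟨6145, 8193, 1024, 2048⟩ ⟨6144, 12288, 7168, 8192⟩ :=
  ckA_sound (b z0 (d (c (b z0 (d (c (a (b (d (c (a z2 z0) z2) (a z2 z0)) (d z2 (a z2 z0))) z0) (a (b (d z2 (c (a z2 z0) (a z2 z0))) z2) z0)) (a (b (d (c (a z2 z0) (a z2 z0)) (a z2 z0)) (d (c (a z2 z0) z2) (a z2 z0))) z0))) (b z0 (d (a z2 z0) (a (c (b (d (a z2 z0) (a z2 z0)) z2) (b (d (a z2 z0) (a z2 z0)) z2)) z0)))) (b z0 (d (c (a (b (d (c (a z2 z0) (a z2 z0)) (a z2 z0)) (d (c (a z2 z0) z2) (a z2 z0))) z0) (a (b (d (a z2 z0) (a z2 z0)) z2) z0)) (a (b (d (a (c (b (d z2 z2) z2) z2) z0) (a (b (d z2 z2) z2) z0)) (d (a z2 z0) (a z2 z0))) z0))))) _ _ (by decide +kernel)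

theorem okA14 : CKA ⟨4097, 8193, 2048, 4096⟩ ⟨6144, 12288, 4096, 6144⟩ :=
  ckA_sound (b (d (c (a z0 (b z2 (d (c (b z2 (d (a z0 z2) (a z0 z2))) (b (d (a (c (b z2 z0) (b z3 z1)) z3) (a (c (b z2 z0) (b z3 z1)) z2)) (d (a z1 z3) (a z0 z2)))) (c (b (d z2 (a (c z2 (b z2 z0)) z2)) (d (a z0 z2) (a z0 z2))) (b (d (a (c (b z2 z0) (b z2 z0)) z2) (a (c (b z2 z0) (b z2 z0)) z2)) (d (a z0 z2) (a z0 z2))))))) (a z1 (b z3 (d (b (d (c (a (b z3 z1) z3) (a (b (d (c (a z1 z3) (a z1 z3)) (c (a z1 z3) (a z1 z3))) z1) z3)) (c (a (b z3 z1) z3) (a (b (d (c (a z1 z3) (a z1 z3)) (c (a z1 z3) (a z1 z3))) z1) z3))) (d (c (a z1 z3) (a z1 z3)) (c (a z1 z3) (a z1 z3)))) (b (d (c (a (b z3 z1) z3) (a (b (d (c (a z1 z3) (a z1 z3)) (c (a z1 z3) (a z1 z3))) z1) z3)) (c (a (b z3 z1) z3) (a (b (d (c (a z1 z3) (a z1 z3))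 (c (a z1 z3) (a z1 z3))) z1) z3))) (d (c (a z1 z3) (a z1 z3)) (c (a z1 z3) (a z1 z3)))))))) (c (a z0 (b z2 (d (c (b (d (a (c z2 (b z2 z0)) z2) (a (c z2 (b z2 z0)) z2)) (d (a z0 z2) (a z0 z2))) (b (d (a (c (b z2 z0) (b z2 z0)) z2) (a (c (b z2 z0) (b z2 z0)) z2)) (d (a z0 z2) (a z0 z2)))) (c (b (d (a (c z2 (b z2 z0)) z2) (a (c z2 (b z2 z0)) z2)) (d (a z0 z2) (a z0 z2))) (b (d (a (c (b z2 z0) (b z2 z0)) z2) (a (c (b z2 z0) (b z2 z0)) z2)) (d (a z0 z2) (a z0 z2))))))) (a z0 (b z2 (d (b (d (c (a (b z2 z0) z2) (a (b (d (c (a z1 z3) (a z1 z3)) (c (a z1 z3) (a z1 z3))) z1) z3)) (c (a (b z2 z0) z2) (a (b (d (c (a z1 z3) (a z1 z3)) (c (a z1 z3) (a z1 z3))) z1) z3))) (d (c (a z0 z2) (a z1 z3)) (c (a z0 z2) (a z1 z3)))) (b (d (c (a (b z2 z0) z2) (a (b (d (c (a z1 z3) (a z1 z3)) (c (a z1 z3) (a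 z1 z3))) z1) z3)) (c (a (b z2 z0) z2) (a (b (d (c (a z0 z2) (a z1 z3)) (c (a z0 z2) (a z1 z3))) (d z1 z0)) z3))) (d (c (a z0 z2) (a z1 z3)) (c (a z0 z2) (a z1 z3))))))))) (d (c z0 (a z1 (b (d z1 (b (d z1 (c (a z1 z3) z1)) (d z1 (c (a z1 z3) z1)))) z1))) (c (a z0 (b (d z0 (c z0 (b (d z0 (a z0 z2)) z0))) z0)) (a z0 (b (d (b (d (c (a z0 z2) z1) (c (a z0 z2) (a z1 z3))) (d (c z0 z1) (c z0 z1))) (b (d (c (a z0 z2) (a z1 z3)) (c (a z0 z2) (a z1 z3))) (d (c z0 (a z1 z3)) (c z0 (a z1 z3))))) z0))))) _ _ (by decide +kernel)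

end Vale.Agent.Lib.P154Q4
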