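import Vale.Agent.Lib.P154Q4.CkADefs

namespace Vale.Agent.Lib.P154Q4

set_option maxRecDepth 100000
set_option exponentiation.threshold 1000

open Tr

theorem okA15 : CKA ⟨4097, 8193, 2048, 3072⟩ ⟨6144, 12288, 6144, 8192⟩ :=
  ckA_sound (d (c (a z0 (b (d z2 (c (b (d z2 (a z2 z0)) z2) z2)) (d (c (b (d (a (c (b z2 z0) (b z2 z0)) z2) (a (c (b z2 z0) (b z2 z0)) z2)) (d (a z0 z2) (a z0 z2))) (b (d (a (c (b z2 z0) (b z2 z0)) z2) (a (c (b z2 z0) (b z2 z0)) z2)) (d (a z0 z2) (a z0 z2)))) (c (b (d (a (c (b z2 z0) (b z2 z0)) z2) (a (c (b z2 (d z0 (a z0 z2))) (b z2 z0)) z2)) (d (a z0 z2) (a z0 z2))) (b (d (a (c (b z2 z0) (b z2 z0)) z2) (a (c (b z2 z0) (b z2 z0)) z2)) (d (a z0 z2) (a z0 z2))))))) (a z0 (b z2 (d (b (d (c (a (b z2 z0) z2) (a (b (d (c (a z0 z2) (a z1 z3)) (c (a z0 z2) (a z0 z2))) z0)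 z2)) (c (a (b z2 z0) z2) (a (b (d (c (a z0 z2) (a z0 z2)) (c z2 (a z0 z2))) z0) z2))) (d (c (a z0 z2) (a z0 z2)) (c (a z0 z2) (a z0 z2)))) (b (d (c (a (b z2 z0) z2) (a (b (d (c z2 (a z0 z2)) (c z2 (a z0 z2))) z0) z2)) (c (a (b z2 z0) z2) (a (b z2 z0) z2))) (d (c (a z0 z2) (a z0 z2)) (c (a z0 z2) (a z0 z2)))))))) (a (b (d (c (a z0 (b (d z0 z0) z0)) z0) (a z0 (b (d z0 z0) z0))) (d z0 z0)) (b (d (c (b (d (c (a (b (d z2 z2) z2) z0) (a z2 z0)) (a (b (d z2 z2) z2) z0)) (d (c (a z2 (b (d z2 z2) (d z2 z2))) z2) (a z2 (b (d z2 (a z2 z0)) (d z2 z2))))) (b (d (a z2 z0) (a z2 z0)) z2)) (b (d (c (a (b (d z2 z2) z2) z0) (a z2 z0)) (a (b (d z2 z2) z2) z0)) (d (c (a z2 (b (d (c (a z2 z0) z2) (a z2 z0)) (d z2 z2))) z2) (a z2 (b (d (c (a z2 z0) z2) (a z2 z0)) (d z2 z2)))))) (d (c (b (d (c (a (b z2 (d (c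 (a z0 z2) z0) (a z0 z2))) z2) (a (b z2 z0) z2)) (a (b z2 (d (c (a z0 z2) z0) (a z0 z2))) z2)) (d (c (a (b (d z0 z0) (d z0 z0)) z2) (a z0 z2)) (a (b (d z0 (a z0 z2)) (d z0 z0)) z2))) (b (d (a (c (b z2 z0) (b z2 z0)) z2) (a (c (b z2 z0) (b z2 z0)) z2)) (d (a z0 z2) (a z0 z2)))) (b (d (c (a (b z2 (d (c (a z0 z2) (a z0 z2)) (a z0 z2))) z2) (a (b z2 (d z0 (a z0 z2))) z2)) (a (b z2 (d (a z0 z2) (a z0 z2))) z2)) (d (c (a (b (d (c (a z0 z2) z0) (a z0 z2)) (d z0 z0)) z2) (a z0 z2)) (a (b (d (a z0 z2) (a z0 z2)) (d z0 z0)) z2))))))) _ _ (by decide +kernel)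

theorem okA16 : CKA ⟨4097, 8193, 3072, 4096⟩ ⟨6144, 12288, 6144, 8192⟩ :=
  ckA_sound (d (c (a z0 (b (d (c (b (d z0 (a z0 z2)) z0) (b (d (a z0 z2) (a z0 z2)) z0)) (c (b (d (a z0 z2) (a z0 z2)) (d z0 (a z0 z2))) (b (d (a z0 z2) (a z0 z2)) z0))) z0)) (a z0 (b (d (b (d (c (a z0 z2) (a z0 z2)) (c (a z0 z2) (a z0 z2))) (d (c z0 (a z0 z2)) (c z0 (a z0 z2)))) (b (d (c (a z0 z2) (a z0 z2)) (c (a z0 z2) (a z0 z2))) (d (c z0 (a z0 z2)) (c z0 (a z0 z2))))) z0))) (a (b (d z0 z0) (d z0 z0)) (b (d (c (b (d (c (a z0 z2) (a z0 z2)) (a z0 z2)) (d (c (a z0 z2) (a z0 z2)) (a z0 z2))) (b (d (a z0 z2) (a z0 z2)) (d (a z0 z2) (a z0 z2)))) (b (d (c (a z0 z2) (a z0 z2)) (a z0 z2)) (d (c (a z0 z2) (a z0 z2)) (a z0 z2)))) (d (c (b (d (c (a z0 (b z2 (d z0 z0))) z0) (a z0 (b z2 (d z0 z0)))) (d z0 z0)) z0) (b (d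 (c (a z0 (b z2 (d z0 z0))) z0) (a z0 (b z2 (d z0 z0)))) (d z0 z0)))))) _ _ (by decide +kernel)

theorem okA17 : CKA ⟨0, 8193, 0, 4096⟩ ⟨0, 12288, 8192, 12288⟩ :=
  ckA_sound (a (b (d (b z0 z0) z0) (d (a z0 (b z0 (d z0 z0))) z0)) (b (d (b z0 (d (a (b (d (b z0 (d (a z0 (b (d (a (b z0 (d (a z2 z0) z0)) z0) z0) (d (a (b (d z2 z0) z2) z0) z0))) z0)) z0) (d (a z0 (b (d (b (d (a z0 (b (d (a z2 z0) z0) z2)) z0) (d (a z0 z2) z0)) z0) (d (b (d (a z0 z2) z0) (d z0 z0)) z0))) z0)) (b z0 (d (b z0 (d (a (b (d (a (b (d z2 z0) z2) z0) z0) (d (a z2 z0) z0)) z0) z0)) z0))) z0)) z0) (d (b (d (a (b (d (a z0 (b (d z0 z0) z0)) z0) (d z0 z0)) (b (d (b (d (a (b (d z2 z0) z2) z0) z0) (d (a z2 (b (d (a z2 z0) z0) (d z2 z0))) z0)) z0) (d (b (d z2 z0) (d (a (b (d z0 z0) z0) z2) z0)) z0))) z0) (d (a z0 (b (d (b (d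 (a z0 z2) z0) (d (a z0 z2) z0)) z0) (d (b (d (a z0 (b z2 z0)) z0) (d z0 z0)) z0))) z0)) z0))) _ _ (by decide +kernel)

theorem okA18 : CKA ⟨8193, 49152, 0, 4096⟩ ⟨0, 6144, 4096, 8192⟩ :=
  ckA_sound (b z0 (d (c (b (d z2 (a (b z0 (d z2 (a (b z0 (d z2 z2)) z0))) z0)) (d z2 (a (b (d z2 (a z2 (b z0 (d z2 z2)))) (d z2 z2)) (b z0 (d z2 (a (b z0 z2) (b z0 z2))))))) (b (d (a z2 z0) (a (b z0 z2) z0)) z2)) (b (d (a (b z0 (d (c (a (b z0 (d z2 z2)) z0) (a z2 z0)) (a (b z0 (d (c (a z2 z0) z2) (a z2 z0))) z0))) z0) z0) (d (a (b (d (c (a (b (d z2 z2) (d z2 z2)) (b z0 (d z2 z2))) z2) (a (b (d z2 z2) (d z2 z2)) (b z0 (d (c (a z2 z0) z2) (a z2 z0))))) (d (c (a (b (d z2 z2) (d z2 z2)) (b (d z2 z2) (d z2 z2))) z2) (a (b (d z2 z2) (d z2 z2)) (b (d z2 z2) (d z2 z2))))) (b z0 (d (c (a (b z0 (d z2 z2)) (b z0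 (d z2 z2))) z2) (a (b z0 (d z2 z2)) (b z0 (d (c (b z0 z2) z2) (b z0 (d z2 z0)))))))) z0)))) _ _ (by decide +kernel)

theorem okA19 : CKA ⟨8193, 49152, 0, 4096⟩ ⟨6144, 12288, 4096, 8192⟩ :=
  ckA_sound (b z0 (d (b (d (c (a (b z0 z2) z0) (a (b z0 (d z3 (a z3 z0))) z0)) (c (a (b z0 z2) z0) (a (b z0 (d (a (b z0 (d z3 (c z2 z3))) z0) (a z2 z0))) z0))) (d (a z2 (c (b z0 z2) (b z0 (d z3 (a z3 (b z0 z3)))))) (a z2 (c (b z0 z2) (b z0 z2))))) (b (d (c (a (b z0 (d (c (a z2 z0) (a z2 z0)) (c (a (b z0 z2) z0) (a z2 z0)))) z0) (a (b z0 (d (a z2 z0) (a z2 z0))) z0)) (a (b z0 (d (c (a (b z0 (d (c (a z2 z0) z2) (a (b (d z2 z2) z2) z0))) z0) (a (b z0 z2) z0)) (a (b z0 (d (c (a (b (d z2 z2) z2) z0) z2) (a (b (d z2 z2) z2) z0))) z0))) z0)) (d (a (c (b (d z2 (a z2 (c (b z0 z2) z2))) z2) z2) (c (b z0 (d z2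 (c (a (b z0 z2) (b z0 (d z2 (c (b z0 z2) z2)))) z2))) (b z0 z2))) (a (b (d (c (a (b (d (c (a z2 (b (d z2 z2) z2)) z2) (a z2 (b (d z2 z2) z2))) (d z2 z2)) (b z0 (d (c (a (b z0 z2) z0) z2) (a (b z0 z2) z0)))) z2) (a (b (d (c (a z2 (b (d z2 z2) z2)) z2) (a z2 (b (d z2 z2) z2))) (d z2 z2)) (b z0 (d (c (a (b z0 z2) z0) z2) (a (b z0 z2) z0))))) (d (c (a (b (d z2 z2) (d z2 z2)) (b (d z2 (a z2 (b (d z2 z2) z2))) (d z2 z2))) z2) (a (b (d z2 z2) (d z2 z2)) (b (d (c (a z2 (b (d z2 z2) z2)) z2) (a z2 (b (d z2 z2) z2))) (d z2 z2))))) (b z0 (d (c (a (b z0 (d (c (a z2 (b (d z2 z2) z2)) z2) (a z2 (b (d z2 z2) z2)))) (b z0 (d (c (b z0 (d z2 z2)) z2) (b z0 (d z2 z2))))) (a z2 (b z0 z2))) (a (b z0 (d (c (a z2 (b (d z2 z2) (d z2 z2))) z2) (a z2 (b (d z2 z2) (d z2 z2))))) (b z0 (d (c (b z0 (d z2 z2)) z2) (b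 z0 (d (a z2 (c (b z0 z2) z2)) (a z2 (b z0 z2)))))))))))))) _ _ (by decide +kernel)

theorem okA20 : CKA ⟨8193, 49152, 0, 4096⟩ ⟨0, 12288, 8192, 12288⟩ :=
  ckA_sound (b z0 (d (b (d (a (b z0 (d (a (b z0 (d (a (b (d z2 z0) z2) z0) z0)) z0) z0)) z0) z0) (d (a (b (d (a (b (d (a z2 (b (d z2 z0) z2)) z0) (d z2 z0)) (b z0 (d (a (b z0 z2) z0) z0))) z0) (d (a (b (d z2 z0) (d z2 z0)) (b (d (a z2 (b (d z2 z0) z2)) z0) (d z2 z0))) z0)) (b z0 (d (a (b z0 (d (a z2 (b (d z2 z0) (d z2 z0))) z0)) (b z0 (d (b z0 (d (a z2 (b z0 z2)) z0)) z0))) z0))) z0)) z0)) _ _ (by decide +kernel)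

theorem okA21 : CKA ⟨0, 4097, 0, 4096⟩ ⟨12288, 24576, 4096, 8192⟩ :=
  ckA_sound (b (d (b z0 (d (b z0 z1) (b z0 z1))) (b z0 (d (c (b z0 z1) (b z0 z1)) (c (b z0 z0) (b z0 z1))))) z1) _ _ (by decide +kernel)

theorem okA22 : CKA ⟨4097, 8193, 0, 2048⟩ ⟨12288, 24576, 4096, 6144⟩ :=
  ckA_sound (b z0 (d (a (b (d (c (b z0 z1) (b z0 z1)) (c (b z0 z1) (b z0 (d z1 (a z1 z3))))) z1) (b z0 z3)) (a (b (d (c (b z0 (d z1 (c (a z1 z3) (a z1 z3)))) (b z0 (d (a z1 z3) (c (a z1 z3) (a z1 z3))))) (c (b z0 (d (c (a z1 z3) (a z1 z3)) (c (a z1 (b (d (c (a z3 z0) z3) (c (a z3 z0) (a z3 z0))) z3)) (a z1 (b (d (c z3 (a z3 z0)) (c (a z3 z0) (a z3 z0))) z3))))) (b z0 (d (c (a z1 (b (d z3 (c z3 (a z3 z0))) z3)) (a z1 (b (d (a z3 z0) (c (a z3 z0) (a z3 z0))) z3))) (c (a z1 (b (d (c (a z3 z0) (a z3 z0)) (c (a z3 z0)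 (a z3 z0))) z3)) (a z1 (b (d (c (a z3 z0) (a z3 z0)) (c (a z3 z0) (a (b z0 z3) z0))) (d (c z3 (a (b z3 (d z3 (c z3 (a z1 z3)))) z0)) (c z3 (a (b z3 (d (a z1 z3) (c z3 (a z1 z3)))) z0)))))))))) z1) (b z0 (d z3 (c (b z0 z3) (b z0 z3))))))) _ _ (by decide +kernel)

theorem okA23 : CKA ⟨4097, 8193, 0, 1024⟩ ⟨12288, 24576, 6144, 8192⟩ :=
  ckA_sound z0 _ _ (by decide +kernel)

theorem okA24 : CKA ⟨4097, 8193, 1024, 2048⟩ ⟨12288, 17067, 6144, 7168⟩ :=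
  ckA_sound (a (b (d (c (b z0 (d (a z1 (c (b (d (c (a z3 z0) (a z3 z0)) (c (a z3 z0) (a z3 z0))) z3) (b (d (a z3 z0) (a z3 z0)) z3))) (a z1 (c (b (d (c (a z3 z0) (a z3 z0)) (c (a z2 z0) (a z3 z0))) z3) (b (d (a z3 z0) (a z3 z0)) z3))))) (b z0 (d (a z1 (c (b (d (a z3 z0) (a z3 z0)) z3) (b (d (a z3 z0) (a z3 z0)) z3))) (a z1 (c (b (d (a z3 z0) (a (c (b z0 z3) (b z0 z3)) z0)) z3) (b (d (a (b z0 z3) z0) (a (b z0 z3) z0)) z3)))))) (c (b z0 (d (a z1 (c (b (d (c (a (b z0 z2) z0) (a (b z0 z3) z0)) (c (a (b z0 z2) z0) (a (b z0 z2) z0))) z2) (b (d (a (c (b z0 z3) (b z0 z3)) z0) (a (c (b z0 z3) (b z0 z3)) z0)) (d z3 (a z3 z0))))) (a z0 (c (b (d (c (a (b z0 z2) z0) (a (b z0 z2) z0)) (c (a (b z0 z2) z0) (a (b z0 z2) z0))) (d (c (a z2 z0) (a z2 z0)) (c (a z2 z0) (a z2 z0)))) (b (d (a (c (b z0 z2) (b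 z0 z3)) z0) (a (c (b z0 z2) (b z0 z3)) z0)) (d (a z3 z0) (a z2 z0))))))) (b z0 (d (a z1 (c (b (d (a (c (b z0 z3) (b z0 z3)) z0) (a (c (b z0 z3) (b z0 z3)) z0)) z3) (b (d (a (b z0 z3) z0) (a (b z0 z3) z0)) z3))) (a z1 (c (b (d (a (c (b z0 z3) (b z0 z3)) z0) (a (c (b z0 z3) (b z0 z3)) z0)) (d z3 (a z3 z0))) (b (d (a (b z0 z3) z0) (a (b z0 z3) z0)) z3))))))) (d (c (a z1 (b (d (c (b (d z1 (a z1 z3)) z1) z1) (c (b (d (a z1 z3) (a z1 z3)) z1) (b (d (a z1 z3) (a z1 z3)) z1))) z1)) (a z1 (b (d z1 (c (b (d (a z1 z3) (a z1 z3)) z1) (b (d (a z1 z3) (a z1 z3)) z1))) z1))) (c (a z0 (b (d (c (b (d (a z0 z2) (a z0 z2)) (d z0 (a z0 z2))) (b (d (a z1 z3) (a z1 z3)) (d z1 (a z1 z3)))) (c (b (d (a z0 z2) (a z0 z2)) (d (a z0 z2) (a z0 z2))) (b (d (a z1 z3) (a z0 z2)) (d (a z1 z3) (a z0 z2))))) z0)) (a z1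 (b (d (c (b (d (a z1 z3) (a z1 z3)) z1) (b (d (a z1 z3) (a z1 z3)) z1)) (c (b (d (a z1 z3) (a z1 z3)) (d (a z1 z3) (a z1 z3))) (b (d (a z1 z3) (a z1 z3)) (d z1 (a z1 z3))))) z1))))) (b z0 (d (c (b z0 (d (a z3 z0) (a z3 z0))) (b z0 z3)) (c (b z0 (d (a (c z2 z3) z0) (a z2 z0))) (b z0 (d (a z3 z0) (a z3 z0))))))) _ _ (by decide +kernel)

theorem okA25 : CKA ⟨4097, 6145, 1024, 1536⟩ ⟨17067, 24576, 6144, 7168⟩ :=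
  ckA_sound (d (b z0 (d (a z1 (c (b (d (c (a z3 z0) (a (b z0 z3) z0)) (c (a (b z0 z3) z0) (a (b z0 z3) z0))) z3) (b (d (a (b z0 z3) z0) (a (c (b z0 z3) (b z0 z3)) z0)) (d (a (b z3 (d (c (a z1 z3) (a z1 z3)) (c (a z1 z3) (a z1 z3)))) z0) (a (c (b z3 (d (a z1 z3) (a z1 z3))) (b z3 (d (a z1 z3) (a z1 z3)))) z0))))) (c (a z1 (b (d (c (a (b z0 z3) z0) (a (b z0 z3) z0)) (c (a (b z0 z3) z0) (a (b z0 z3) z0))) (d z3 (c z3 (a (b z3 (d z3 (c z3 (a z1 z3)))) z0))))) (a z1 (b (d (a (c (b z0 z3) (b z0 z3)) z0) (c (a (b z0 z3) z0) (a (b z0 z3) z0))) (d (a (c (b z3 (d (a z1 z3) (a z1 z3))) (b z3 (d (a z1 z3) (a z1 z3)))) z0) (c (a (b z3 (d (c (a z1 z3) (a z1 z3)) (c (a z1 z3) (a z1 z3)))) z0) (a (b z3 (d (a z1 z3) (c (a z1 z3) (a z1 z3)))) z0)))))))) (b z0 (d (c (a z1 (b (d (c (a (b z0 z3) z0) (a (b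 z0 z3) z0)) (c (a (b z0 z3) z0) (a (b z0 z3) z0))) (d (c z3 (a (b z3 (d (c z3 (a z1 z3)) (c z3 (a z1 z3)))) z0)) (c z3 (a (b z3 (d (c z3 (a z1 z3)) (c z3 (a z1 z3)))) z0))))) (a (b (d (c z1 (b z0 z1)) (c z1 (b z0 z1))) z1) (b (d (c (a (b z0 z3) z0) (a (b z0 z3) z0)) (c (a (b z0 z3) z0) (a (b z0 z3) z0))) (d (c (a (b z3 (d (c (a z1 z3) (a z1 z3)) (c (a z1 z3) (a z1 z3)))) z0) (a (b z3 (d (a z1 z3) (c (a z1 z3) (a z1 z3)))) z0)) (c (a (b z3 (d (c (a z1 z3) (a z1 z3)) (c (a z1 z3) (a z1 z3)))) z0) (a (b z3 (d (c (a z1 z3) (a z1 z3)) (c (a z1 z3) (a z1 z3)))) z0)))))) (c (a z1 (b (d (c (a (b z0 z3) z0) (a (b z0 z3) z0)) (c (a (b z0 z3) z0) (a (b z0 z3) z0))) (d (c z3 (a (b z3 (d (c z3 (a z1 z3)) (c z3 (a z1 z3)))) z0)) (c z3 (a (b z3 (d (c z3 (a z1 z3)) (c z3 (a z1 z3)))) z0))))) (a (b (d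 (c (b z0 z1) (b z0 z1)) (c (b z0 z1) (b z0 z1))) z1) (b (d (c (a (b z0 z3) z0) (a (b z0 z3) z0)) (c (a (b z0 z3) z0) (a (b z0 z3) z0))) (d (c (a (b z3 (d (c (a z1 z3) (a z1 z3)) (c (a z1 z3) (a z1 z3)))) z0) (a (b z3 (d (c (a z1 z3) (a z1 z3)) (c (a z1 z3) (a z1 z3)))) z0)) (c (a (b z3 (d (c (a z1 z3) (a z1 z3)) (c (a z1 z3) (a z1 z3)))) z0) (a (b z3 (d (c (a z1 z3) (a z1 z3)) (c (a z1 z3) (a z1 z3)))) z0))))))))) _ _ (by decide +kernel)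

theorem okA26 : CKA ⟨4097, 6145, 1536, 2048⟩ ⟨17067, 24576, 6144, 7168⟩ :=
  ckA_sound (d (a z1 (b (d (c (b (d z1 (a z1 z3)) z1) (b (d (a z1 z3) (a z1 z3)) z1)) (c (b (d (a z1 z3) (a z1 z3)) z1) (b (d (a z1 z3) (a z1 z3)) z1))) z1)) (a z1 (b (d (c (b (d (a z1 z3) (a z1 z3)) z1) (b (d (a z1 z3) (a z1 z3)) z1)) (c (b (d (c (a z1 z3) (a z1 z3)) (c (a z1 z3) (a z1 z3))) z1) (b (d (a z1 z3) (a z1 z3)) (d (a z1 z3) (a z1 z3))))) z1))) _ _ (by decide +kernel)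

theorem okA27 : CKA ⟨6145, 8193, 1024, 2048⟩ ⟨17067, 24576, 6144, 7168⟩ :=
  ckA_sound (b z0 (d (b z0 z3) (b z0 (d z3 (c (a z3 z0) z3))))) _ _ (by decide +kernel)

theorem okA28 : CKA ⟨4097, 6145, 1024, 1536⟩ ⟨12288, 18432, 7168, 7680⟩ :=
  ckA_sound (c (b z0 (d (c (a z0 (b (d (c (a (b z0 z2) z0) (a (b z0 z2) z0)) (c (a (b z0 z2) z0) (a (b z0 z2) z0))) (d (c (a z2 z0) (a z2 z0)) (c (a z2 z0) (a z2 z0))))) (a z0 (b (d (c (a (b z0 z2) z0) (a (b z0 z3) z0)) (c (a (b z0 z2) z0) (a (b z0 (d z3 z2)) z0))) (d (c (a z2 z0) (a z3 z0)) (c (a z2 z0) (a z3 z0)))))) (c (a z0 (b (d (c (a (b z0 z2) z0) (a (b z0 z2) z0)) (c (a (b z0 (d (c (a z2 z0) (a z2 z0)) (c (a z2 z0) (a z2 z0)))) z0) (a (b z0 (d (c (a z2 z0) (a z2 z0)) (c (a z2 z0) (a z2 z0)))) z0))) (d (c (a z2 z0) (a z2 z0)) (c (a z2 z0) (a z2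 z0))))) (a z0 (b (d (c (a (b z0 (d z2 (c (a z2 z0) (a z2 z0)))) z0) (a (b z0 (d (c z2 (a z2 z0)) (c (a z2 z0) (a z2 z0)))) z0)) (c (a (b z0 (d (c (a z2 z0) (a z2 z0)) (c (a z2 z0) (a z2 z0)))) z0) (a (b z0 (d (c (a z2 z0) (a z2 z0)) (c (a z2 z0) (a z2 z0)))) z0))) (d (c (a z2 z0) (a z2 z0)) (c (a z2 z0) (a z2 z0)))))))) (b z0 (d (c (a z1 (b (d (c (a (b z0 z3) z0) (a (b z0 z3) z0)) (c (a (b z0 z3) z0) (a (b z0 z3) z0))) (d (c (a z3 z0) (a z3 z0)) (c (a z3 z0) (a z3 z0))))) (a z1 (b (d (c (a (b z0 z3) z0) (a (b z0 z3) z0)) (c (a (b z0 z3) z0) (a (b z0 z3) z0))) (d (c (a z3 z0) z3) (c (a z3 z0) (a z3 z0)))))) (c (a z1 (b (d (c (a (b z0 (d (c (a z3 z0) z3) (c (a z3 z0) (a z3 z0)))) z0) (a (b z0 (d z3 (c (a z3 z0) (a z3 z0)))) z0)) (c (a (b z0 (d (c (a z2 z0) (a z3 z0)) (c (a z2 z0) (a z3 z0))))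 z0) (a (b z0 (d (c (a z3 z0) (a z3 z0)) (c (a z3 z0) (a z3 z0)))) z0))) (d (c (a z3 z0) (a z3 z0)) (c (a z2 z0) (a z3 z0))))) (a z1 (b (d (c (a (b z0 (d z3 (c (a z3 z0) z3))) z0) (a (b z0 z3) z0)) (c (a (b z0 (d (c (a z3 z0) (a z3 z0)) (c (a z3 z0) (a z3 z0)))) z0) (a (b z0 (d (c (a z3 z0) (a z3 z0)) (c (a z3 z0) (a z3 z0)))) z0))) (d (c (a z3 z0) (a z3 z0)) (c (a z3 z0) (a z3 z0))))))))) _ _ (by decide +kernel)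

theorem okA29 : CKA ⟨4097, 6145, 1024, 1536⟩ ⟨12288, 15360, 7680, 8192⟩ :=
  ckA_sound (b z0 (d (c (a z0 (b (d (c (a (b z0 (d (c (a z2 z0) (a z2 z0)) (c (a z2 z0) (a z2 z0)))) z0) (a (b z0 (d (c (a z2 z0) (a z2 z0)) (c (a z2 z0) (a z2 z0)))) z0)) (c (a (b z0 (d (c (a z2 z0) (a z2 z0)) (c (a z2 z0) (a z2 z0)))) z0) (a (b z0 (d (c (a z2 z0) (a z2 z0)) (c (a z2 z0) (a z2 z0)))) z0))) (d (c (a z2 z0) (a z2 z0)) (c (a z2 z0) (a z2 z0))))) (a z0 (b (d (c (a (b z0 (d (c (a z2 z0) (a z2 z0)) (c (a z2 z0) (a z2 z0)))) z0) (a (b z0 (d (c (a z2 z0) (a z2 z0)) (c (a z2 z0) (a z2 z0)))) z0)) (c (a (b z0 (d (c (a z2 z0) (a z2 z0)) (c (a z2 z0) (a z2 z0)))) z0) (a (b z0 (d (c (a z2 z0) (a z2 z0)) (c (a z2 z0) (a z2 z0)))) z0))) (d (c (a z2 z0) (a z2 z0)) (c (a z2 z0) (a z2 z0)))))) (c (a z0 (b (d (c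 (a (b z0 (d (c (a z2 z0) (a z2 z0)) (c (a z2 z0) (a z2 z0)))) z0) (a (b z0 (d (c (a z2 z0) (a z2 z0)) (c (a z2 z0) (a z2 z0)))) z0)) (c (a (b z0 (d (c (a z2 z0) (a z2 z0)) (c (a z2 z0) (a z2 z0)))) z0) (a (b z0 (d (c (a z2 z0) (a z2 z0)) (c (a z2 z0) (a z2 z0)))) z0))) (d (c (a z2 z0) (a z2 z0)) (c (a z2 z0) (a z2 z0))))) (a z0 (b (d (c (a (b z0 (d (c (a z2 z0) (a z2 z0)) (c (a z2 z0) (a z2 z0)))) z0) (a (b z0 (d (c (a z2 z0) (a z2 z0)) (c (a z2 z0) (a z2 z0)))) z0)) (c (a (b z0 (d (c (a z2 z0) (a z2 z0)) (c (a z2 z0) (a z2 z0)))) z0) (a (b z0 (d (c (a z2 z0) (a z2 z0)) (c (a z2 z0) (a z2 z0)))) z0))) (d (c (a z2 z0) (a z2 z0)) (c (a z2 z0) (a z2 z0)))))))) _ _ (by decide +kernel)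

end Vale.Agent.Lib.P154Q4
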