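import Vale.Agent.Lib.P154Q4.CkADefs

namespace Vale.Agent.Lib.P154Q4

set_option maxRecDepth 100000
set_option exponentiation.threshold 1000

open Tr

theorem okA30 : CKA ⟨4097, 6145, 1024, 1536⟩ ⟨15360, 18432, 7680, 8192⟩ :=
  ckA_sound (b z0 (d (c (a z0 (b (d (c (a (b z0 (d (c (a z2 z0) (a z2 z0)) (c (a z2 z0) (a z2 z0)))) z0) (a (b z0 (d (c (a z3 z0) (a z3 z0)) (c (a z2 z0) (a z3 z0)))) z0)) (c (a (b z0 (d (c (a z2 z0) (a z2 z0)) (c (a z2 z0) (a z2 z0)))) z0) (a (b z0 (d (c (a z2 z0) (a z3 z0)) (c (a z2 z0) (a z2 z0)))) z0))) (d (c (a z2 z0) (a z3 z0)) (c (a z2 z0) (a z2 z0))))) (a z1 (b (d (c (a (b z0 (d (c (a z3 z0) (a z3 z0)) (c (a z3 z0) (a z3 z0)))) z0) (a (b z0 (d (c (a z3 z0) (a z3 z0)) (c (a z3 z0) (a z3 z0)))) z0)) (c (a (b z0 (d (c (a z3 z0) (a z3 z0)) (c (a z3 z0) (a z3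 z0)))) z0) (a (b z0 (d (c (a z3 z0) (a z3 z0)) (c (a z3 z0) (a z3 z0)))) z0))) (d (c (a z3 z0) (a z3 z0)) (c (a z3 z0) (a z3 z0)))))) (c (a z0 (b (d (c (a (b z0 (d (c (a z2 z0) (a z2 z0)) (c (a z2 z0) (a z2 z0)))) z0) (a (b z0 (d (c (a z2 z0) (a z2 z0)) (c (a z2 z0) (a z2 z0)))) z0)) (c (a (b z0 (d (c (a z2 z0) (a z2 z0)) (c (a z2 z0) (a z2 z0)))) z0) (a (b z0 (d (c (a z2 z0) (a z2 z0)) (c (a z2 z0) (a z2 z0)))) z0))) (d (c (a z2 z0) (a z2 z0)) (c (a z2 z0) (a z2 z0))))) (a z1 (b (d (c (a (b z0 (d (c (a z3 z0) (a z3 z0)) (c (a z2 z0) (a z3 z0)))) z0) (a (b z0 (d (c (a z3 z0) (a z3 z0)) (c (a z3 z0) (a z3 z0)))) z0)) (c (a (b z0 (d (c (a z2 z0) (a z2 z0)) (c (a z2 z0) (a z2 z0)))) z0) (a (b z0 (d (c (a z3 z0) (a z3 z0)) (c (a z3 z0) (a z3 z0)))) z0))) (d (c (a z3 z0) (a z3 z0)) (c (a z2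 z0) (a z3 z0)))))))) _ _ (by decide +kernel)

theorem okA31 : CKA ⟨4097, 6145, 1536, 2048⟩ ⟨12288, 18432, 7168, 8192⟩ :=
  ckA_sound (d (c (a z0 (b (d (c (b (d (a z0 z2) (a z0 z2)) (d (a z0 z2) (a z0 z2))) (b (d (a z0 z2) (a z0 z2)) (d (a z0 z2) (a z0 z2)))) (c (b (d (a z0 z2) (a z0 z2)) (d (a z0 z2) (a z0 z2))) (b (d (a z0 z2) (a z0 z2)) (d (a z0 z2) (a z0 z2))))) z0)) (a z1 (b (d (c (b (d (a z1 z3) (a z1 z3)) (d (a z1 z3) (a z1 z3))) (b (d (a z1 z3) (a z1 z3)) (d (a z1 z3) (a z1 z3)))) (c (b (d (a z1 z3) (a z1 z3)) (d (a z1 z3) (a z1 z3))) (b (d (a z1 z3) (a z1 z3)) (d (a z1 z3) (a z1 z3))))) (d z1 (c (b (d z1 (a z1 (c (b z2 (d (a z1 z3) (a z0 z2))) (b z3 (d (a z1 z3) (a z1 z3)))))) z1) z1))))) (c (a z0 (b (d (c (b (d (a z0 z2) (a z0 z2)) (d (a z0 z2) (a z0 z2))) (b (d (a z0 z2) (a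 z0 z2)) (d (a z0 z2) (a z0 z2)))) (c (b (d (a z0 z2) (a z0 z2)) (d (a z0 z2) (a z0 z2))) (b (d (a z0 z2) (a z0 z2)) (d (a z0 z2) (a z0 z2))))) (d (c (b (d z0 (a z0 (c z2 (b z2 (d (a z0 z2) z2))))) z0) z0) (c (b (d (a z0 z2) (a z0 z2)) z0) (b (d (a z0 (c z2 (b z2 (d (a z0 z2) (a z0 z2))))) (a z0 z2)) z0))))) (a z0 (b (d (c (b (d (a z0 z2) (a z0 z2)) (d (a z0 z2) (a z0 z2))) (b (d (a z1 z3) (a z1 z3)) (d (a z1 z3) (a z1 z3)))) (c (b (d (a z0 z2) (a z0 z2)) (d (a z0 z2) (a z0 z2))) (b (d (a z1 z3) (a z1 z3)) (d (a z1 z3) (a z1 z3))))) (d (c (b (d z0 (a z0 (c (b z2 (d (a z0 z2) (a z0 z2))) (b z2 (d (a z0 z2) (a z0 z2)))))) z0) (b (d z1 (a z1 (c (b z3 (d (a z1 z3) (a z1 z3))) (b z3 (d (a z1 z3) (a z1 z3)))))) z1)) (c (b (d (a z0 (c (b z2 (d (a z0 z2) (a z0 z2))) (b z2 (d (a z0 z2) (a z0 z2)))))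 (a z0 (c (b z2 (d (a z0 z2) (a z0 z2))) (b z2 (d (a z0 z2) (a z0 z2)))))) z0) (b (d (a z1 (c (b z3 (d (a z1 z3) (a z1 z3))) (b z3 (d (a z1 z3) (a z1 z3))))) (a z1 (c (b z2 (d (a z0 z2) (a z0 z2))) (b z3 (d (a z1 z3) (a z1 z3)))))) z1))))))) _ _ (by decide +kernel)

theorem okA32 : CKA ⟨6145, 8193, 1024, 2048⟩ ⟨12288, 18432, 7168, 8192⟩ :=
  ckA_sound (b z0 (d (c (b z0 (d (a z2 z0) (a (c (b (d z2 (a z2 z0)) z2) (b (d z2 (a z2 z0)) z2)) z0))) (b z0 (d (a z3 z0) (a (c (b (d (a z3 z0) (a z3 z0)) z3) z3) z0)))) (c (b z0 (d (a (c (b (d (a z2 z0) (a z2 z0)) z2) (b (d (a z2 z0) (a z2 z0)) z2)) z0) (a (c (b (d (a z2 z0) (a z2 z0)) z2) (b (d (a z2 z0) (a z2 z0)) z2)) z0))) (b z0 (d (a (c (b (d (a z2 z0) (a z2 z0)) z2) (b (d z3 (a z3 z0)) z3)) z0) (a (c (b (d (a z2 z0) (a z2 z0)) z2) (b (d (a z3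 z0) (a z3 z0)) z3)) z0)))))) _ _ (by decide +kernel)

theorem okA33 : CKA ⟨4097, 6145, 1024, 1536⟩ ⟨18432, 24576, 7168, 7680⟩ :=
  ckA_sound (b z0 (d (c (a (b (d (c z1 (b z0 z1)) (c (b z0 z1) (b z0 z1))) z1) (b (d (c (a (b z0 z3) z0) (a (b z0 z3) z0)) (c (a (b z0 z3) z0) (a (b z0 (d z3 (c z3 (a z3 z0)))) z0))) (d (c (a (b z3 (d (c z3 (a z1 z3)) (c z3 (a z1 z3)))) z0) (a (b z3 (d (c (a z1 z3) (a z1 z3)) (c (a z1 z3) (a z1 z3)))) z0)) (c (a (b z3 (d (c z3 (a z1 z3)) (c z3 (a z1 z3)))) z0) (a (b z3 (d (c (a z1 z3) (a z1 z3)) (c (a z1 z3) (a z1 z3)))) z0))))) (a (b (d (c (b z0 z1) (b z0 z1)) (c (b z0 z1) (b z0 z1))) z1) (b (d (a (c (b z0 z3) (b z0 (d (a z3 z0) (a z3 z0)))) z0) (c (a (b z0 (d (c (a z3 z0) (a z3 z0)) (c (a z3 z0) (a z3 z0)))) z0) (a (b z0 (d (a z3 z0) (c (a z3 z0) (a z3 z0))))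 z0))) (d (a (c (b z3 (d (a z1 z3) (a z1 z3))) (b z3 (d (a z1 z3) (a z1 z3)))) z0) (c (a (b z3 (d (c (a z1 z3) (a z1 z3)) (c (a z1 z3) (a z1 z3)))) z0) (a (b z3 (d (a z1 z3) (c (a z1 z3) (a z1 z3)))) z0)))))) (c (a (b (d (c (b z0 z1) (b z0 z1)) (c (b z0 z1) (b z0 z1))) z1) (b (d (c (a (b z0 (d z3 (c (a z3 z0) (a z3 z0)))) z0) (a (b z0 (d (c (a z3 z0) (a z3 z0)) (c (a z3 z0) (a z3 z0)))) z0)) (c (a (b z0 (d (c (a z3 z0) (a z3 z0)) (c (a z3 z0) (a z3 z0)))) z0) (a (b z0 (d (c (a z3 z0) (a z3 z0)) (c (a z3 z0) (a z3 z0)))) z0))) (d (c (a (b z3 (d (c z3 (a z1 z3)) (c z3 (a z1 z3)))) z0) (a (b z3 (d (c (a z1 z3) (a z1 z3)) (c (a z1 z3) (a z1 z3)))) z0)) (c (a z3 z0) (a (b z3 (d (c (a z1 z3) (a z1 z3)) (c (a z1 z3) (a z1 z3)))) z0))))) (a (b (d (c (b z0 z1) (b z0 z1)) (c (b z0 z1) (b z0 z1)))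 z1) (b (d (c (a (b z0 (d (c (a z3 z0) (a z3 z0)) (c (a z3 z0) (a z3 z0)))) z0) (a (b z0 (d (a z3 z0) (c (a z3 z0) (a z3 z0)))) z0)) (c (a (b z0 (d (c (a z3 z0) (a z3 z0)) (c (a z3 z0) (a z3 z0)))) z0) (a (b z0 (d (c (a z3 z0) (a z3 z0)) (c (a z3 z0) (a z3 z0)))) z0))) (d (c (a (b z3 (d (c (a z1 z3) (a z1 z3)) (c (a z1 z3) (a z1 z3)))) z0) (a (b z3 (d (a z1 z3) (c (a z1 z3) (a z1 z3)))) z0)) (c (a (b z3 (d (c (a z1 z3) (a z1 z3)) (c (a z1 z3) (a z1 z3)))) z0) (a (b z3 (d (c (a z1 z3) (a z1 z3)) (c (a z1 z3) (a z1 z3)))) z0)))))))) _ _ (by decide +kernel)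

theorem okA34 : CKA ⟨4097, 6145, 1024, 1536⟩ ⟨18432, 21504, 7680, 8192⟩ :=
  ckA_sound (b z0 (d (a (c (b (d (c (b z0 z1) (b z0 z1)) (c (b z0 z1) (b z0 z1))) z1) (b (d (c (b z0 z1) (b z0 z1)) (c (b z0 z1) (b z0 z1))) z1)) (c (b (d (a (c (b z0 (d (a z3 z0) (a z3 z0))) (b z0 (d (a z3 z0) (a z3 z0)))) z0) (a (c (b z0 (d (a z3 z0) (a z3 z0))) (b z0 (d (a z3 z0) (a z3 z0)))) z0)) (d (a z3 z0) (a z3 z0))) (b (d (a (c (b z0 (d (a z3 z0) (a z3 z0))) (b z0 (d (a z3 z0) (a z3 z0)))) z0) (a (c (b z0 (d (a z3 z0) (a z3 z0))) (b z0 (d (a z3 z0) (a z3 z0)))) z0)) (d (a (c (b z3 (d (a z1 z3) (a z1 z3))) (b z3 (d (a z1 z3) (a z1 z3)))) z0) (a (c (b z3 (d (a z1 z3) (a z1 z3))) (b z3 (d (a z1 z3) (a z1 z3)))) z0))))) (a (c (b (d (c (b z0 z1) (b z0 z1)) (c (b z0 z1) (b z0 z1))) z1) (b (d (c (b z0 z1) (b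 z0 z1)) (c (b z0 z1) (b z0 z1))) z1)) (c (b (d (a (c (b z0 (d (a z3 z0) (a z3 z0))) (b z0 (d (a z3 z0) (a z3 z0)))) z0) (a (c (b z0 (d (a z3 z0) (a z3 z0))) (b z0 (d (a z3 z0) (a z3 z0)))) z0)) (d (a z3 z0) (a z3 z0))) (b (d (a (c (b z0 (d (a z3 z0) (a z3 z0))) (b z0 (d (a z3 z0) (a z3 z0)))) z0) (a (c (b z0 (d (a z3 z0) (a z3 z0))) (b z0 (d (a z3 z0) (a z3 z0)))) z0)) (d (a (c z3 (b z3 (d (a z1 z3) (a z1 z3)))) z0) (a z3 z0))))))) _ _ (by decide +kernel)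

theorem okA35 : CKA ⟨4097, 6145, 1024, 1536⟩ ⟨21504, 24576, 7680, 8192⟩ :=
  ckA_sound (b z0 (d (a (b (d (c (b z0 z1) (b z0 z1)) (c (b z0 z1) (b z0 z1))) z1) (b (d (c (a (b z0 (d (c (a z3 z0) (a z3 z0)) (c (a z3 z0) (a z3 z0)))) z0) (a (b z0 (d (a z3 z0) (c (a z3 z0) (a z3 z0)))) z0)) (c (a (b z0 (d (c (a z3 z0) (a z3 z0)) (c (a z3 z0) (a z3 z0)))) z0) (a (b z0 (d (c (a z3 z0) (a z3 z0)) (c (a z3 z0) (a z3 z0)))) z0))) (d (c (a (b z3 (d (c (a z1 z3) (a z1 z3)) (c (a z1 z3) (a z1 z3)))) z0) (a (b z3 (d (a z1 z3) (c (a z1 z3) (a z1 z3)))) z0)) (c (a (b z3 (d (c (a z1 z3) (a z1 z3)) (c (a z1 z3) (a z1 z3)))) z0) (a (b z3 (d (c (a z1 z3) (a z1 z3)) (c (a z1 z3) (a z1 z3)))) z0))))) (a (b (d (c (b z0 z1) (b z0 z1)) (c (b z0 z1) (b z0 z1))) z1) (b (d (c (a (b z0 (d (c (a z3 z0) (a z3 z0))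 (c (a z3 z0) (a z3 z0)))) z0) (a (b z0 (d (c (a z3 z0) (a z3 z0)) (c (a z3 z0) (a z3 z0)))) z0)) (c (a (b z0 (d (c (a z3 z0) (a z3 z0)) (c (a z3 z0) (a z3 z0)))) z0) (a (b z0 (d (c (a z3 z0) (a z3 z0)) (c (a z3 z0) (a z3 z0)))) z0))) (d (c (a (b z3 (d (c (a z1 z3) (a z1 z3)) (c (a z1 z3) (a z1 z3)))) z0) (a (b z3 (d (c (a z1 z3) (a z1 z3)) (c (a z1 z3) (a z1 z3)))) z0)) (c (a (b z3 (d (c (a z1 z3) (a z1 z3)) (c (a z1 z3) (a z1 z3)))) z0) (a (b z3 (d (c (a z1 z3) (a z1 z3)) (c (a z1 z3) (a z1 z3)))) z0))))))) _ _ (by decide +kernel)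

theorem okA36 : CKA ⟨4097, 6145, 1536, 2048⟩ ⟨18432, 24576, 7168, 8192⟩ :=
  ckA_sound (d (a z1 (b (d (c (b (d (a z1 z3) (a z1 z3)) (d (a z1 z3) (a z1 z3))) (b (d (a z1 z3) (a z1 z3)) (d (a z1 z3) (a z1 z3)))) (c (b (d (a z1 z3) (a z1 z3)) (d (a z1 z3) (a z1 z3))) (b (d (a z1 z3) (a z1 z3)) (d (a z1 z3) (a z1 z3))))) z1)) (c (a z1 (b (d (c (b (d (a z1 z3) (a z1 z3)) (d (a z1 z3) (a z1 z3))) (b (d (a z1 z3) (a z1 z3)) (d (a z1 z3) (a z1 z3)))) (c (b (d (a z1 z3) (a z1 z3)) (d (a z1 z3) (a z1 z3))) (b (d (a z1 z3) (a z1 z3)) (d (a z1 z3) (a z1 z3))))) z1)) (a z1 (b (d (b (d (a z1 z3) (a z1 z3)) (d (a z1 z3) (a z1 z3))) (b (d (a z1 z3) (c (a z1 z3) (a z1 z3))) (d (a z1 z3) (c (a z1 z3) (a z1 z3))))) z1)))) _ _ (by decide +kernel)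

theorem okA37 : CKA ⟨6145, 8193, 1024, 2048⟩ ⟨18432, 24576, 7168, 8192⟩ :=
  ckA_sound (b z0 (d (b z0 (d (a z3 z0) (c (a z3 z0) (a z3 z0)))) (c (b z0 (d (a z3 z0) (a (c (b (d z3 (a z3 z0)) z3) z3) z0))) (b z0 (d (a z3 z0) (a z3 z0)))))) _ _ (by decide +kernel)

theorem okA38 : CKA ⟨4097, 8193, 2048, 4096⟩ ⟨12288, 24576, 4096, 6144⟩ :=
  ckA_sound (b (d (a z1 (b z3 (d (c (b (d (a (c (b (d (a z1 z3) (a z1 z3)) z1) (b (d (a z1 z3) (a z1 z3)) z1)) z3) (a (c (b (d (a z1 z3) (a z1 z3)) z1) (b (d (a z1 z3) (a z1 z3)) z1)) z3)) (d (a z1 z3) (a z1 z3))) (b (d (a (b (d (a z1 z3) (c (a z1 z3) (a z1 z3))) z1) z3) (a (c (b (d (a z1 z3) (a z1 z3)) z1) (b (d (a z1 z3) (a z1 z3)) z1)) z3)) (d (a z1 z3) (a z1 z3)))) (c (b (d (a (c (b (d (a z1 z3) (a z1 z3)) z1) (b (d (a z1 z3) (a z1 z3)) z1)) z3) (a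 (c (b (d (a z1 z3) (a z1 z3)) z1) (b (d (a z1 z3) (a z1 z3)) z1)) z3)) (d (a z1 z3) (a z1 z3))) (b (d (a (b (d (c (a z1 z3) (a z1 z3)) (c (a z1 z3) (a z1 z3))) z1) z3) (a (c (b (d (a z1 z3) (a z1 z3)) z1) (b (d (a z1 z3) (a z1 z3)) z1)) z3)) (d (a z1 z3) (a z1 z3))))))) (a z1 (b (d (c z3 (b z3 (d (a (c z3 (b z3 (d (a z1 z3) (a z1 z3)))) z3) (a (c z3 (b z3 (d (a z1 z3) (a z1 z3)))) z3)))) (c z3 (b z3 (d (a (c z3 (b z3 (d (a z1 z3) (a z1 z3)))) z3) (a (c z3 (b z3 (d (a z1 z3) (a z1 z3)))) z3))))) (d (c (b (d (a (c (b (d (a z1 z3) (a z1 z3)) z1) (b (d (a z1 z3) (a z1 z3)) z1)) z3) (a (c (b (d (a z1 z3) (a z1 z3)) z1) (b (d (a z1 z3) (a z1 z3)) z1)) z3)) (d (a z1 z3) (a z1 z3))) (b (d (a (c (b (d (a z1 z3) (a z1 z3)) z1) (b (d (a z1 z3) (a z1 z3)) z1)) z3) (a (c (b (d (a z1 z3) (a z1 z3))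 z1) (b (d (a z1 z3) (a z1 z3)) z1)) z3)) (d (a z1 z3) (a z1 z3)))) (c (b (d (c (a (b (d (c (a z1 z3) (a z1 z3)) (c (a z1 z3) (a z1 z3))) z1) z3) (a (b (d (c (a z1 z3) (a z1 z3)) (c (a z1 z3) (a z1 z3))) z1) z3)) (c (a (b (d (c (a z1 z3) (a z1 z3)) (c (a z1 z3) (a z1 z3))) z1) z3) (a (b (d (c (a z1 z3) (a z1 z3)) (c (a z1 z3) (a z1 z3))) z1) z3))) (d (c (a z1 z3) (a z1 z3)) (c (a z1 z3) (a z1 z3)))) (b (d (a (c (b (d (a z1 z3) (a z1 z3)) z1) (b (d (a z1 z3) (a z1 z3)) z1)) z3) (a (c (b (d (a z1 z3) (a z1 z3)) z1) (b (d (a z1 z3) (a z1 z3)) z1)) z3)) (d (a z1 z3) (a z1 z3)))))))) (d z1 (a z1 (b (d z1 (c (b (d z1 (c (a z1 z3) z1)) z1) z1)) z1)))) _ _ (by decide +kernel)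

theorem okA39 : CKA ⟨4097, 8193, 2048, 3072⟩ ⟨12288, 24576, 6144, 7168⟩ :=
  ckA_sound (c (a z1 (b (d (c (b (d z3 (a z3 z0)) z3) z3) (c z2 z3)) (d (c (b (d (a (c (b (d (a z1 z3) (a z1 z3)) z1) (b (d (a z1 z3) (a z1 z3)) z1)) z3) (a (c (b (d (a z1 z3) (a z1 z3)) (d z1 (a z1 z3))) (b (d (a z1 z3) (a z1 z3)) z1)) z3)) (d (a z1 z3) (a z1 z3))) (b (d (a (c (b (d (a z1 z3) (a z1 z3)) z1) (b (d (a z1 z3) (a z1 z3)) z1)) z3) (a (c (b (d (a z1 z3) (a z1 z3)) z1) (b (d (a z1 z3) (a z1 z3)) z1)) z3)) (d (a z1 z3) (a z1 z3)))) (c (b (d (a (c (b (d (a z0 z2) (a z0 z2)) z0) (b (d (a z1 z3) (a z1 z3)) z1)) z3) (a (c (b (d (a z0 z2) (a z0 z2)) z0) (b (d (a z1 z3) (a z0 z2)) (d (a z1 z3) z0))) z2)) (d (a (c z0 z1) z3) (a z0 z2))) (b (d (a (c (b (d (a z1 z3) (a z1 z3)) z1) (b (d (a z1 z3) (a z1 z3)) z1))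 z3) (a (c (b (d (a z1 z3) (a z1 z3)) z1) (b (d (a z1 z3) (a z1 z3)) z1)) z3)) (d (a z1 z3) (a z1 z3))))))) (a z1 (b (d (b z3 (d (a (c z3 (b z3 (d (a z1 z3) (a z1 z3)))) z3) (a (c z3 (b z3 (d (a z1 z3) (a z1 z3)))) z3))) (b z3 (d (a (c z3 (b z3 (d (a z1 z3) (a z1 z3)))) z3) (c z3 (a (b z3 (d (a z1 z3) z3)) z3))))) (d (b (d (a (c (b (d (a z1 z3) (a z1 z3)) z1) (b (d (a z1 z3) (a z1 z3)) z1)) z3) (a (c (b (d (a z1 z3) (a z1 z3)) z1) (b (d (a z1 z3) (a z1 z3)) z1)) z3)) (d (a z1 z3) (a z1 z3))) (b (d (a (c (b (d (a z1 z3) (a z1 z3)) z1) (b (d (a z1 z3) (a z1 z3)) z1)) z3) (c (a (b (d (c (a z1 z3) (a z1 z3)) (c (a z1 z3) (a z1 z3))) z1) z3) (a (b (d (a z1 z3) (c (a z1 z3) (a z1 z3))) z1) z3))) (d (a z1 z3) (c (a z1 z3) (a z1 z3)))))))) _ _ (by decide +kernel)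

theorem okA40 : CKA ⟨4097, 8193, 2048, 3072⟩ ⟨12288, 24576, 7168, 8192⟩ :=
  ckA_sound (c (a z0 (b (d (c (b (d (a z2 z0) (a z2 z0)) z2) (b (d z3 (a z3 z0)) z3)) (c (b (d (a z2 z0) (a z2 z0)) z2) (b (d (a z3 z0) (a z2 z0)) z2))) (d (c (b (d (a (c (b (d (a z0 z2) z2) z0) (b (d (a z0 z2) (a z0 z2)) z0)) z2) (a (c (b z2 z0) (b (d (a z0 z2) z2) z0)) z2)) (d (a z0 z2) (a z0 z2))) (b (d (a (c (b (d (a z1 z3) (a z1 z3)) z1) (b (d (a z1 z3) (a z1 z3)) z1)) z3) (a (c (b (d (a z1 z3) (a z1 z3)) (d z1 (a z1 z3))) (b (d (a z1 z3) (a z1 z3)) z1)) z3)) (d (a z1 z3) (a z1 z3)))) (c (b (d (a (c (b z2 z0) (b z2 z0)) z2) (a (c (b z2 (d (a z0 z2) (a z0 z2))) (b z2 z0)) z2)) (d (a z0 z2) (a z0 z2))) (b (d (a (c (b (d (a z0 z2) z2) z0) (b (d (a z1 z3) (a z1 z3)) z1)) z3) (a (c (b z2 z0) (b z3 (d (a z1 z3)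 (a z1 z3)))) z2)) (d (a (c z0 z1) z3) (a z0 z2))))))) (a z1 (b (d (b z3 (d z3 z3)) (c (b (d z3 (a z3 z0)) z3) z3)) (d (b (d (a (c (b (d (a z1 z3) (a z1 z3)) z1) (b (d (a z1 z3) (a z1 z3)) z1)) z3) (c (a (b (d (c (a z1 z3) (a z1 z3)) (c (a z1 z3) (a z1 z3))) z1) z3) (a (b (d (a z1 z3) (a z1 z3)) z1) z3))) (d (a z1 z3) (c (a z1 z3) (a z1 z3)))) (c (b (d (a (c (b (d (a z1 z3) (a z1 z3)) z1) (b (d (a z1 z3) (a z1 z3)) z1)) z3) (a (c (b (d (a z1 z3) z3) z1) (b (d (a z1 z3) (a z1 z3)) z1)) z3)) (d (a z1 z3) (a z1 z3))) (b (d (a (b (d (a z1 z3) (a z1 z3)) z1) z3) (a (b (d (c (a z1 z3) (a z1 z3)) (c (a z1 z3) (a z1 z3))) z1) z3)) (d (a z1 z3) (a z1 z3)))))))) _ _ (by decide +kernel)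

theorem okA41 : CKA ⟨4097, 8193, 3072, 4096⟩ ⟨12288, 24576, 6144, 8192⟩ :=
  ckA_sound (d (c (a z1 (b (d (c (b (d (a z1 z3) (a z1 z3)) (d (a z1 z3) (a z1 z3))) (b (d z1 (a z1 z3)) z1)) (c (b (d (a z1 z3) (a z0 z2)) (d (a z1 z3) (a z0 z2))) (b (d (a z1 z3) (a z1 z3)) (d z1 (a z1 z3))))) (d z1 (c z0 z1)))) (a z1 (b (d z1 (b (d z1 (c (a z1 z3) z1)) z1)) z1))) (c (a z0 (b (d (c (b (d (a z0 z2) (a z0 z2)) (d (a z0 z2) (a z0 z2))) (b (d (a z1 z3) (a z1 z3)) (d (a z1 z3) (a z1 z3)))) (c (b (d (a z0 z2) (a z0 z2)) (d (a z0 z2) (a z0 z2))) (b (d (a z1 z3) (a z0 z2)) (d (a z1 z3) (a z0 z2))))) z0)) (a z1 (b (d (b (d (a z1 z3) (c (a z1 z3) (a z1 z3))) z1) (c (b (d (a z1 z3) (a z1 z3)) (d z1 (a z1 z3))) (b (d (a z1 z3) (a z1 z3)) z1))) z1)))) _ _ (by decide +kernel)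

theorem okA42 : CKA ⟨0, 4097, 0, 4096⟩ ⟨12288, 24576, 8192, 12288⟩ :=
  ckA_sound (b (d (b z0 (d (c z0 (b z0 z1)) z0)) z0) (d (a z0 (b z0 (d z0 z0))) z0)) _ _ (by decide +kernel)

theorem okA43 : CKA ⟨4097, 8193, 0, 1024⟩ ⟨12288, 24576, 8192, 10240⟩ :=
  ckA_sound z0 _ _ (by decide +kernel)

theorem okA44 : CKA ⟨4097, 6145, 1024, 1536⟩ ⟨12288, 15360, 8192, 8704⟩ :=
  ckA_sound (b z0 (d (c (a z0 (b (d (c (a (b z0 (d (c (a z2 z0) (a z2 z0)) (a z2 z0))) z0) (a (b z0 (d (c (a z2 z0) (a z2 z0)) (c (a z2 z0) (a z2 z0)))) z0)) (a (b z0 (d (c (a z2 z0) (a z2 z0)) (a z2 z0))) z0)) (d (c (a (b (d z2 (a z2 z0)) z2) z0) (a z2 z0)) (a (b (d (c (a z2 z0) z2) (a z2 z0)) z2) z0)))) (a z0 (b (d (c (a (b z0 (d (c (a z2 z0) (a z2 z0)) (c (a z2 z0) (a z2 z0)))) z0) (a (b z0 (d (c (a z2 z0) (a z2 z0)) (c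 (a z2 z0) (a z2 z0)))) z0)) (c (a (b z0 (d (c (a z2 z0) (a z2 z0)) (c (a z2 z0) (a z2 z0)))) z0) (a (b z0 (d (c (a z2 z0) (a z2 z0)) (c (a z2 z0) (a z2 z0)))) z0))) (d (c (a z2 z0) (a z2 z0)) (c (a z2 z0) (a z2 z0)))))) (a z0 (b (d (c (a (b z0 (d (c (a z2 z0) (a z2 z0)) (a z2 z0))) z0) (a (b z0 (d (c (a z2 z0) (a z2 z0)) (c (a z2 z0) (a z2 z0)))) z0)) (a (b z0 (d (a z2 z0) (a z2 z0))) z0)) (d (c (a (b (d (c (a z2 z0) z2) (a z2 z0)) z2) z0) (a z2 z0)) (a (b (d (a z2 z0) (a z2 z0)) z2) z0)))))) _ _ (by decide +kernel)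

end Vale.Agent.Lib.P154Q4
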