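import Vale.Agent.Lib.P154Q4.CkADefs

namespace Vale.Agent.Lib.P154Q4

set_option maxRecDepth 100000
set_option exponentiation.threshold 1000

open Tr

theorem okA45 : CKA ⟨4097, 6145, 1024, 1536⟩ ⟨15360, 18432, 8192, 8704⟩ :=
  ckA_sound (b z0 (d (c (a z0 (b (d (c (a (b z0 (d (c (a z2 z0) (a z2 z0)) (c (a z2 z0) (a z2 z0)))) z0) (a (b z0 (d (c (a z2 z0) (a z2 z0)) (c (a z2 z0) (a z2 z0)))) z0)) (c (a (b z0 (d (c (a z2 z0) (a z2 z0)) (c (a z2 z0) (a z2 z0)))) z0) (a (b z0 (d (c (a z2 z0) (a z2 z0)) (c (a z2 z0) (a z2 z0)))) z0))) (d (c (a z2 z0) (a z2 z0)) (c (a z2 z0) (a z2 z0))))) (a z0 (b (d (c (a (b z0 (d (c (a z2 z0) (a z2 z0)) (c (a z2 z0) (a z2 z0)))) z0) (a (b z0 (d (c (a z2 z0) (a z3 z0)) (c (a z2 z0) (a z2 z0)))) z0)) (c (a (b z0 (d (c (a z2 z0) (a z2 z0)) (c (a z2 z0) (a z2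 z0)))) z0) (a (b z0 (d (c (a z2 z0) (a z2 z0)) (c (a z2 z0) (a z2 z0)))) z0))) (d (c (a z2 z0) (a z2 z0)) (c (a z2 z0) (a z2 z0)))))) (c (a z0 (b (d (c (a (b z0 (d (c (a z2 z0) (a z2 z0)) (c (a z2 z0) (a z2 z0)))) z0) (a (b z0 (d (c (a z2 z0) (a z2 z0)) (c (a z2 z0) (a z2 z0)))) z0)) (c (a (b z0 (d (c (a z2 z0) (a z2 z0)) (c (a z2 z0) (a z2 z0)))) z0) (a (b z0 (d (c (a z2 z0) (a z2 z0)) (c (a z2 z0) (a z2 z0)))) z0))) (d (c (a z2 z0) (a z2 z0)) (c (a z2 z0) (a z2 z0))))) (a z0 (b (d (c (a (b z0 (d (c (a z2 z0) (a z2 z0)) (c (a z2 z0) (a z2 z0)))) z0) (a (b z0 (d (c (a z2 z0) (a z2 z0)) (c (a z2 z0) (a z2 z0)))) z0)) (c (a (b z0 (d (c (a z2 z0) (a z2 z0)) (c (a z2 z0) (a z2 z0)))) z0) (a (b z0 (d (c (a z2 z0) (a z2 z0)) (c (a z2 z0) (a z2 z0)))) z0))) (d (c (a z2 z0) (a z2 z0)) (c (a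 z2 z0) (a z2 z0)))))))) _ _ (by decide +kernel)

theorem okA46 : CKA ⟨4097, 6145, 1024, 1536⟩ ⟨12288, 18432, 8704, 9216⟩ :=
  ckA_sound (b z0 (d (a z0 (c (b (d (c (a (b z0 (d (c (a z2 z0) (a z2 z0)) (a z2 z0))) z0) (a (b z0 (d (c (a z2 z0) (a z2 z0)) (c (a z2 z0) (a z2 z0)))) z0)) (a (b z0 (d (a z2 z0) (a z2 z0))) z0)) (d (c (a (b (d (c (a z2 z0) z2) (a z2 z0)) z2) z0) (a z2 z0)) (a (b (d (a z2 z0) (a z2 z0)) z2) z0))) (b (d (a (c (b z0 (d (a z2 z0) (a z2 z0))) (b z0 (d (a z2 z0) (a z2 z0)))) z0) (a (c (b z0 (d (a z2 z0) (a z2 z0))) (b z0 (d (a z2 z0) (a z2 z0)))) z0)) (d (a z2 z0) (a z2 z0))))) (a z0 (b (d (a (b z0 (d (c (a z2 z0) (a z2 z0)) (a z2 z0))) z0) (a (b z0 (d (a z2 z0) z0)) z0)) (d (a (b (d z2 z2) z2) z0) (a (b (d z2 z0) z2) z0)))))) _ _ (by decide +kernel)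

theorem okA47 : CKA ⟨4097, 6145, 1536, 2048⟩ ⟨12288, 18432, 8192, 9216⟩ :=
  ckA_sound (d (c (a z0 (b (d (c (b (d (a z0 (c (b (d (a z2 z0) (a z2 z0)) z2) z2)) (a z0 (b (d (a z2 z0) (a z2 z0)) z2))) (d (a z0 z2) (a z0 z2))) (b (d (a z0 z2) (a z0 (c (b (d z2 (a z2 z0)) z2) z2))) (d (a z0 z2) (a z0 z2)))) (b (d (a z0 (c (b (d (a z2 z0) (a z2 z0)) z2) (b (d (a z2 z0) (a z2 z0)) z2))) (a z0 (b (d (a z2 z0) (a z2 z0)) z2))) (d (a z0 z2) (a z0 z2)))) (d (c (b (d (a z0 z2) (a z0 z2)) (d z0 z0)) (b (d (a z0 z2) (a z0 z2)) z0)) (b (d (a z0 z2) (a z0 z2)) (d z0 z0))))) (a z0 (b (d (c (b (d (a z0 z2) (a z0 z2)) (d (a z0 z2) (a z0 z2))) (b (d (a z0 z2) (a z0 z2)) (d (a z0 z2) (a z0 z2)))) (c (b (d (a z0 z2) (a z0 (c (b (d (a z2 z0) (a z2 z0)) z2) z2))) (d (a z0 z2) (a z0 z2))) (b (d (a z0 z2) (a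 z0 z2)) (d (a z0 z2) (a z0 z2))))) (d (c (b (d (a z0 (c z2 (b z2 (d (a z0 z2) z2)))) (a z0 z2)) z0) (b (d (a z0 (c (b z2 (d (a z0 z2) (a z0 z2))) (b z2 (d (a z1 z3) (a z0 z2))))) (a z0 (c z2 (b z2 (d (a z0 z2) z2))))) z0)) (c (b (d (a z0 z2) (a z0 z2)) z0) (b (d (a z0 z2) (a z0 z2)) z0)))))) (a z0 (b (d (c (b (d (a z0 (c (b (d (a z2 z0) (a z2 z0)) z2) (b (d (a z2 z0) (a z2 z0)) z2))) (a z0 (b (d (a z2 z0) (a z2 z0)) z2))) (d (a z0 z2) (a z0 z2))) (b (d (a z0 z2) (a z0 (c (b (d (a z2 z0) (a z2 z0)) z2) (b (d z2 (a z2 z0)) z2)))) (d (a z0 z2) (a z0 z2)))) (b (d (a z0 (b (d (a z2 z0) (a z2 z0)) z2)) (a z0 (b (d (a z2 z0) z0) z2))) (d (a z0 z2) (a z0 z2)))) (d (c (b (d (a z0 z2) (a z0 z2)) z0) (b (d (a z0 z2) (a z0 z2)) z0)) (b (d (a z0 z2) (a z0 z2)) z0))))) _ _ (by decide +kernel)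

theorem okA48 : CKA ⟨6145, 8193, 1024, 2048⟩ ⟨12288, 18432, 8192, 9216⟩ :=
  ckA_sound (b z0 (d (c (b z0 (d (a (c (b (d (a (c (b (d z2 z2) z2) z2) z0) (a (b (d z2 z2) z2) z0)) (d (a z2 z0) (a z2 z0))) (b (d (a z2 z0) (a z2 z0)) z2)) z0) (a (b (d (a (c (b (d z2 z2) z2) z2) z0) (a (b (d z2 z2) z2) z0)) (d (a z2 z0) (a z2 z0))) z0))) (b z0 (d (a (c (b (d (a z2 z0) (a z2 z0)) z2) (b (d (a z2 z0) (a z2 z0)) z2)) z0) (a (c (b (d (a z2 z0) (a z2 z0)) (d z2 (a z2 z0))) (b (d (a z2 z0) (a z2 z0)) z2)) z0)))) (b z0 (d (a (c (b (d (a (c (b (d z2 z2) z2) z2) z0) (a (b (d z2 z2) z2) z0)) (d (a z2 z0) (a z2 z0))) (b (d (a z2 z0) (a z2 z0)) (d z2 (a z2 z0)))) z0) (a (b (d (a (b (d z2 z2) z2) z0) (a (b (d z2 z0) z2) z0)) (d (a z2 z0) (a z2 z0))) z0))))) _ _ (by decide +kernel)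

theorem okA49 : CKA ⟨4097, 6145, 1024, 1536⟩ ⟨18432, 24576, 8192, 8704⟩ :=
  ckA_sound (c (b z0 (d (a (c (b (d (c z1 (b z0 z1)) (c z1 (b z0 z1))) z1) (b (d (c (b z0 z1) (b z0 z1)) (c (b z0 z1) (b z0 z1))) z1)) (c (b (d (a (c (b z0 (d (a z3 z0) (a z3 z0))) (b z0 (d (a z3 z0) (a z3 z0)))) z0) (a (c (b z0 (d (a z3 z0) (a z3 z0))) (b z0 (d (a z3 z0) (a z3 z0)))) z0)) (d (a z3 z0) (a z3 z0))) (b (d (a (c (b z0 (d (a z3 z0) (a z3 z0))) (b z0 (d (a z3 z0) (a z3 z0)))) z0) (a (c (b z0 (d (a z3 z0) (a z3 z0))) (b z0 (d (a z3 z0) (a z3 z0)))) z0)) (d (a z3 z0) (a z3 z0))))) (a (c z0 (b (d (c (b z0 z1) (b z0 z1)) (c (b z0 z1) (b z0 z1))) z1)) (c (b (d (a (c (b z0 (d (a z2 z0) (a z2 z0))) (b z0 (d (a z3 z0) (a z3 z0)))) z0) (a (c (b z0 (d (a z2 z0) (a z2 z0))) (b z0 (d (a z2 z0) (a z2 z0)))) z0))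 (d (a z2 z0) (a z2 z0))) (b (d (a (c (b z0 (d (a z3 z0) (a z3 z0))) (b z0 (d (a z3 z0) (a z3 z0)))) z0) (a (c (b z0 (d (a z3 z0) (a z3 z0))) (b z0 (d (a z3 z0) (a z3 z0)))) z0)) (d (a z3 z0) (a z3 z0))))))) (b z0 (d (a (b (d (c (b z0 z1) (b z0 z1)) (c (b z0 z1) (b z0 z1))) z1) (b (d (c (a (b z0 (d (c (a z3 z0) (a z3 z0)) (c (a z3 z0) (a z3 z0)))) z0) (a (b z0 (d (c (a z3 z0) (a z3 z0)) (c (a z3 z0) (a z3 z0)))) z0)) (c (a (b z0 (d (c (a z3 z0) (a z3 z0)) (c (a z3 z0) (a z3 z0)))) z0) (a (b z0 (d (c (a z3 z0) (a z3 z0)) (c (a z3 z0) (a z3 z0)))) z0))) (d (c (a (b z3 (d (c (a z1 z3) (a z1 z3)) (c z3 (a z1 z3)))) z0) (a (b z3 (d (c (a z1 z3) (a z1 z3)) (c (a z1 z3) (a z1 z3)))) z0)) (c (a (b z3 (d (c z3 (a z1 z3)) z3)) z0) (a (b z3 (d (c (a z1 z3) (a z1 z3)) (c (a z1 z3) (a z1 z3)))) z0)))))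 (a (b (d (c (b z0 z1) (b z0 z1)) (c (b z0 z1) (b z0 z1))) z1) (b (d (c (a (b z0 (d (c (a z3 z0) (a z3 z0)) (c (a z3 z0) (a z3 z0)))) z0) (a (b z0 (d (c (a z3 z0) (a z3 z0)) (c (a z3 z0) (a z3 z0)))) z0)) (c (a (b z0 (d (c (a z3 z0) (a z3 z0)) (c (a z3 z0) (a z3 z0)))) z0) (a (b z0 (d (c (a z3 z0) (a z3 z0)) (c (a z3 z0) (a z3 z0)))) z0))) (d (c (a z3 z0) (a (b z3 (d (c z3 (a z1 z3)) (c z3 (a z1 z3)))) z0)) (c (a z3 z0) (a z3 z0)))))))) _ _ (by decide +kernel)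

theorem okA50 : CKA ⟨4097, 6145, 1024, 1536⟩ ⟨18432, 24576, 8704, 9216⟩ :=
  ckA_sound (c (b z0 (d (a (c z0 (b (d (c z0 (b z0 z1)) z0) z1)) (c (b (d (a (c (b z0 (d (a z2 z0) (a z2 z0))) (b z0 (d (a z2 z0) (a z2 z0)))) z0) (a (c (b z0 (d (a z2 z0) (a z2 z0))) (b z0 (d (a z2 z0) (a z2 z0)))) z0)) (d (a z2 z0) (a z2 z0))) (b (d (a (c (b z0 (d (a z3 z0) (a z2 z0))) (b z0 (d (a z3 z0) (a z3 z0)))) z0) (a (c (b z0 (d (a z2 z0) (a z2 z0))) (b z0 (d (a z3 z0) (a z2 z0)))) z0)) (d (a z3 z0) (a z2 z0))))) (a z0 (c (b (d (a (c (b z0 (d (a z2 z0) (a z2 z0))) (b z0 (d (a z2 z0) (a z2 z0)))) z0) (a (c (b z0 (d (a z2 z0) (a z2 z0))) (b z0 (d (a z2 z0) (a z2 z0)))) z0)) (d (a z2 z0) (a z2 z0))) (b (d (a (c (b z0 (d (a z2 z0) (a z2 z0))) (b z0 (d (a z2 z0) (a z2 z0)))) z0) (a (c (b z0 (d (a z2 z0) (a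 z2 z0))) (b z0 (d (a z2 z0) (a z2 z0)))) z0)) (d (a z2 z0) (a z2 z0))))))) (b z0 (d (a (b (d (c (b z0 z1) (b z0 z1)) (c (b z0 z1) (b z0 z1))) z1) (b (d (c (a (b z0 (d (c (a z3 z0) (a z3 z0)) (c (a z3 z0) (a z3 z0)))) z0) (a (b z0 (d (c (a z3 z0) (a z3 z0)) (c (a z3 z0) (a z3 z0)))) z0)) (c (a (b z0 (d (c (a z3 z0) (a z3 z0)) (c (a z3 z0) (a z3 z0)))) z0) (a (b z0 (d (c (a z3 z0) (a z3 z0)) (c (a z3 z0) (a z3 z0)))) z0))) (d (c (a z3 z0) (a z3 z0)) (c (a z3 z0) (a z3 z0))))) (a (b (d (c (b z0 z1) (b z0 z1)) (c z0 (b z0 z1))) z1) (b (d (c (a (b z0 (d (c (a z3 z0) (a z3 z0)) (c (a z3 z0) (a z3 z0)))) z0) (a (b z0 (d (c (a z3 z0) (a z3 z0)) (c (a z3 z0) (a z3 z0)))) z0)) (c (a (b z0 (d (c (a z2 z0) (a z3 z0)) (c (a z2 z0) (a z3 z0)))) z0) (a (b z0 (d (c (a z3 z0) (a z3 z0)) (c (a z3 z0)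 (a z3 z0)))) z0))) (d (c (a z3 z0) (a z3 z0)) (c (a z2 z0) (a z3 z0)))))))) _ _ (by decide +kernel)

theorem okA51 : CKA ⟨4097, 6145, 1536, 2048⟩ ⟨18432, 24576, 8192, 9216⟩ :=
  ckA_sound (d (c (a z1 (b (d (c (b (d (a z1 z3) (a z1 z3)) (d (a z1 z3) (a z1 z3))) (b (d (a z1 z3) (a z1 z3)) (d (a z1 z3) (a z1 z3)))) (c (b (d (a z0 z2) (a z0 z2)) (d (a z0 z2) (a z0 z2))) (b (d (a z1 z3) (a z1 z3)) (d (a z1 z3) (a z1 z3))))) (d (c (b (d (a z1 (c (b z3 (d (a z1 z3) (a z1 z3))) (b z3 (d (a z1 z3) (a z1 z3))))) (a z1 (c (b z3 (d (a z1 z3) (a z1 z3))) (b z3 (d (a z1 z3) (a z1 z3)))))) z1) z1) (c (b (d (a z0 (c (b z2 (d (a z0 z2) z2)) (b z3 (d (a z1 z3) (a z1 z3))))) (a z0 z2)) z0) (b (d (a z1 (c (b z3 (d (a z1 z3) (a z1 z3))) (b z3 (d (a z1 z3) (a z1 z3))))) (a z1 (c (b z3 (d (a z1 z3) z3)) (b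 z3 (d (a z1 z3) (a z1 z3)))))) z1))))) (a z1 (b (d (b (d (c (a z1 z3) (a z1 z3)) (c (a z1 z3) (a z1 z3))) (d (c (a z1 z3) (a z1 z3)) (c (a z1 z3) (a z1 z3)))) (b (d (c (a z1 z3) (a z1 z3)) (c (a z1 z3) (a z1 z3))) (d (c (a z1 z3) (a z1 z3)) (c (a z1 z3) (a z1 z3))))) z1))) (c (a z0 (b (d (c (b (d (a z0 z2) (a z0 z2)) (d (a z0 z2) (a z0 z2))) (b (d (a z1 z3) (a z0 z2)) (d (a z1 z3) (a z0 z2)))) (c (b (d (a z0 (c (b (d z2 (a z2 z0)) z2) z2)) (a z0 (c (b (d (a z2 z0) (a z2 z0)) z2) z2))) (d (a z0 z2) (a z0 z2))) (b (d (a z0 z2) (a z0 z2)) (d (a z0 z2) (a z0 z2))))) (d (c (b (d (a z0 z2) (a z0 z2)) z0) (b (d (a z1 z3) (a z0 z2)) z1)) (c (b (d (a z0 z2) (a z0 z2)) z0) (b (d (a z0 z2) (a z0 z2)) z0))))) (a z1 (b (d (b (d (c (a z1 z3) (a z1 z3)) (c (a z1 z3) (a z1 z3))) (d (c (a z1 z3) (a z1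 z3)) (c (a z1 z3) (a z1 z3)))) (b (d (c (a z1 z3) (a z1 z3)) (c (a z0 z2) (a z1 z3))) (d (c (a z1 z3) (a z1 z3)) (c (a z0 z2) (a z1 z3))))) (d (b (d z1 (c (a z1 z3) z1)) z1) (b (d (c (a z1 z3) z1) (c z0 z1)) z1)))))) _ _ (by decide +kernel)

theorem okA52 : CKA ⟨6145, 8193, 1024, 2048⟩ ⟨18432, 24576, 8192, 9216⟩ :=
  ckA_sound (b z0 (d (c (b z0 (d (a (c (b (d (a z3 z0) (a z3 z0)) z3) (b (d z3 (a z3 z0)) z3)) z0) (a (c (b (d (a z2 z0) (a z2 z0)) z2) (b (d (a z3 z0) (a z3 z0)) z3)) z0))) (b z0 (d (a z3 z0) (a (b (d z3 (c (a z3 z0) z3)) z3) z0)))) (c (b z0 (d (a (c (b (d (a z2 z0) (a z2 z0)) z2) (b (d (a z3 z0) (a z2 z0)) (d z3 z2))) z0) (a (c (b (d (a z2 z0) (a z2 z0)) (d z2 (a z2 z0))) (b (d (a z2 z0) (a z2 z0)) z2)) z0))) (b z0 (d (a (b (d (c (a z3 z0) (a z3 z0)) (c (a z3 z0) (a z3 z0)))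 z3) z0) (a (b (d (c (a z3 z0) (a z3 z0)) (c (a z2 z0) (a z3 z0))) z3) z0)))))) _ _ (by decide +kernel)

theorem okA53 : CKA ⟨4097, 8193, 1024, 2048⟩ ⟨12288, 24576, 9216, 10240⟩ :=
  ckA_sound (a (b (d (b z0 (d (c (a z0 (b (d (c (a (b z0 (d (c (a z2 z0) (a z2 z0)) (c (a z2 z0) (a z2 z0)))) z0) (a (b z0 (d (c (a z2 z0) (a z2 z0)) (c (a z2 z0) (a z2 z0)))) z0)) (c (a (b z0 (d (c (a z2 z0) (a z2 z0)) (a z2 z0))) z0) (a (b z0 (d (a z2 z0) (a z2 z0))) z0))) (d (c (a z2 z0) (a z2 z0)) (c (a z2 z0) (a z2 z0))))) (a z0 (b (d (c (a (b z0 (d (c (a z2 z0) (a z3 z0)) (c (a z2 z0) (a z2 z0)))) z0) (a (b z0 (d (c (a z3 z0) (a z3 z0)) (c (a z3 z0) (a z3 z0)))) z0)) (c (a (b z0 (d (c (a z2 z0) (a z2 z0)) (c (a z2 z0) (a z2 z0)))) z0) (a (b z0 (d (c (a z3 z0) (a z3 z0)) (c (a z2 z0) (a z3 z0)))) z0)))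 (d (c (a z2 z0) (a z3 z0)) (c (a z2 z0) (a z3 z0)))))) (a z0 (c (b (d (a (c (b z0 (d (a z2 z0) (a z2 z0))) (b z0 (d (a z2 z0) (a z2 z0)))) z0) (a (b z0 (d (a z2 z0) (a z2 z0))) z0)) (d (a z2 z0) (a z2 z0))) (b (d (a (c (b z0 (d (a z2 z0) (a z2 z0))) (b z0 (d (a z2 z0) (a z2 z0)))) z0) (a (c (b z0 (d (a z2 z0) (a z2 z0))) (b z0 (d (a z2 z0) (a z2 z0)))) z0)) (d (a z2 z0) (a z2 z0))))))) (b z0 (d (a z0 (b (d (a (b z0 (d (c (a z2 z0) (a z2 z0)) (a z2 z0))) z0) (a (b z0 (d (a z2 z0) z0)) z0)) (d (a z2 z0) (a z2 z0)))) z0))) (d (a z0 (b (d (c (b (d (c (a z0 (b (d (c (a z2 z0) z2) (a z2 z0)) z2)) (a z0 z2)) (a z0 (c (b (d (a z2 z0) (a z2 z0)) z2) z2))) (d (c (a z0 z2) (a z0 z2)) (a z0 z2))) (b (d (a z1 (c z2 z3)) (a z0 z2)) (d (a z1 z3) (a z0 z2)))) (c (b (d (a z0 (c (b (d (a z2 z0) z2) z2)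 z2)) (a z0 (b (d z2 z2) z2))) (d (a z0 z2) (a z0 z2))) (b (d (a z0 z2) (a z0 z2)) (d (a z0 z2) (a z0 z2))))) (d (c (b (d (c (a z0 z2) z0) (a z0 z2)) z0) z0) (c (b (d z0 z0) z0) z0)))) (a z0 (b (d (b (d (a z0 z2) (a z0 z2)) (d (a z0 z2) (a z0 z2))) z0) (d z0 z0))))) (b z0 (d (b z0 (d (c (a (b (d (c (a z2 z0) (a z2 z0)) (a z2 z0)) (d (c (a z2 z0) z2) (a z2 z0))) z0) (a (b (d (c (a z2 z0) (a z3 z0)) (c (a z2 z0) (a z3 z0))) z2) z0)) (a (c (b (d (a z2 z0) (a z2 z0)) (d (a z2 z0) (a z2 z0))) (b (d (a z2 z0) (a z2 z0)) z2)) z0))) (b z0 (d (a (b (d (a z2 z0) (a z2 z0)) (d (a z2 z0) (a z2 z0))) z0) z0))))) _ _ (by decide +kernel)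

theorem okA54 : CKA ⟨4097, 8193, 0, 2048⟩ ⟨12288, 24576, 10240, 12288⟩ :=
  ckA_sound z0 _ _ (by decide +kernel)

theorem okA55 : CKA ⟨4097, 8193, 2048, 4096⟩ ⟨12288, 24576, 8192, 12288⟩ :=
  ckA_sound (d (b (d (c (a (b (d (c (a z0 (b (d z0 z0) z0)) z0) z0) (d z0 z0)) (b (d (c (b (d (a (c (b (d z2 z2) z2) z2) z0) (a (b (d z2 z2) z2) z0)) (d (a z2 (c (b (d (c (a z2 z0) z2) (a z2 z0)) (d z2 z2)) z2)) (a z2 (b (d (a z2 z0) (a z2 z0)) (d z2 z2))))) (b (d (a z2 z0) (a z2 z0)) z2)) (b (d (a (c (b (d z2 z2) z2) z2) z0) (a (b (d z2 z2) z2) z0)) (d (a z2 (c (b (d (a z2 z0) (a z2 z0)) (d z2 z2)) z2)) (a z2 (b (d (a z2 z0) (a z2 z0)) (d z2 z2)))))) (d (c (b (d z2 z2) (d (a (c (b (d z0 z0) z0) z0) z2) (a (b (d z0 z0) z0) z2))) (b (d (a (c (b z2 z0) (b z2 z0)) z2) z2) (d (a z0 z2) (a z0 z2)))) (b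 (d z2 z2) (d (a (c (b (d z0 z0) z0) z0) z2) z2))))) (a z1 (b (d (c (b (d (a z3 z0) (a z3 z0)) z3) (b (d z3 (a z3 z0)) z3)) (c (b (d (a z2 z0) (a z2 z0)) (d z2 (a z2 (c (b (d z2 (a z2 z0)) z2) z2)))) (b (d (a z3 z0) (a z3 z0)) z3))) (d (c (b (d (a (c (b z3 z1) (b z3 z1)) z3) (a (c z2 (b z3 z1)) z3)) (d (a z1 z3) (a z1 z3))) (b (d (a (b (d (c z3 (a z1 z3)) z3) z1) z3) (a (b z3 z1) z3)) (d (a z1 z3) (a z1 z3)))) (c (b z2 (d (a z0 z2) (a z0 z2))) (b (d (a (b z3 z1) z3) z3) (d (a z1 z3) (a z1 z3)))))))) (a (b (d z0 z0) z0) (b (d (b (d (c (a (b (d z2 z2) z2) z0) (a z2 z0)) (a (c (b (d z2 z2) z2) z2) z0)) (d (c (a z2 (b (d (c (a z2 z0) z2) (a z2 z0)) (d z2 z2))) z2) (a z2 (c (b (d (a z2 z0) (a z2 z0)) (d z2 z2)) z2)))) (b (d (a z2 z0) z0) (d (a z2 (b (d (a z2 z0) z2) z2)) z0))) (d (b (d z2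 z2) (d (c z2 (a z0 z2)) z2)) (b (d z2 z0) z2))))) (d (c (a z0 (b (d (c (b (d (a z0 z2) (a z0 z2)) (d (a z0 z2) (a z0 z2))) (b (d (a z0 z2) (a z0 z2)) (d (a z0 z2) (a z0 z2)))) (b (d (a z0 z2) (a z0 z2)) (d (a z0 z2) (a z0 z2)))) (d (c (b (d (a z0 (c (b z2 z0) z0)) (a z0 (b z2 z0))) (d z0 z0)) z0) (b (d (a z0 (c (b z2 z0) z0)) z0) z0)))) (a z1 (b (d (c (b (d (a z1 z3) (a z1 z3)) (d (a z1 z3) (a z1 z3))) (b (d (a z1 z3) (a z1 z3)) z1)) (c (b (d (a z0 z2) (a z0 z2)) (d (a z0 z2) (a z0 z2))) (b (d (a z1 z3) (a z1 z3)) (d z1 (a z1 z3))))) (d z1 z0)))) (a z0 (b (d (b (d (c (a z0 z2) (a z0 z2)) (a z0 z2)) (d (c (a z0 z2) z0) (a z0 z2))) (b (d (a z0 z2) z0) (d (a z0 z2) z0))) (d (b (d z0 z0) z0) z0))))) z0) _ _ (by decide +kernel)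

theorem okA56 : CKA ⟨8193, 49152, 0, 4096⟩ ⟨12288, 24576, 4096, 8192⟩ :=
  ckA_sound (b z0 (d (b (d z3 (a (b z0 z3) z0)) (d z3 (a z3 (b z0 z3)))) (b (d (c (a (b z0 (d (c (a z3 z0) z3) (c (a z2 z0) (a z3 z0)))) z0) (a (b z0 z3) z0)) (c (a (b z0 (d (c (a z2 z0) (a (b z0 z3) z0)) (c (a (b z0 z2) z0) (a (b z0 z2) z0)))) z0) (a (b z0 (d (a z3 z0) (a z3 z0))) z0))) (d (a (c (b (d z3 (a (c z2 z3) (c z2 z3))) (d z3 (a z3 (c z2 z3)))) z3) (c (b z0 (d (c (a z3 (b z0 z3)) z3) (c z2 z3))) z3)) (c (a (b (d z2 (c (a z2 (b z0 z2)) z2)) z2) (b z0 (d (c (a z2 (b z0 z2)) (a z3 (b z0 z3))) (c (a z2 (b z0 z2)) (a z2 (b z0 z2)))))) (a z3 (b z0 (d z3 (c (a z3 (b z0 z3)) z3))))))))) _ _ (by decide +kernel)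

theorem okA57 : CKA ⟨8193, 49152, 0, 4096⟩ ⟨12288, 24576, 8192, 12288⟩ :=
  ckA_sound (b z0 (d (b (d (c (a (b z0 (d (c (a (b z0 (d (c (a (b (d z2 z2) z2) z0) z2) (a (b (d z2 z2) z2) z0))) z0) (a (b z0 z2) z0)) (a (b z0 (d (c (a z2 z0) z2) (a z2 z0))) z0))) z0) (a (b z0 (d (a (c (b z0 z3) z3) z0) (a (c (b z0 z2) (b z0 z3)) z0))) z0)) (a (b z0 (d (a (b z0 (d (c (a z2 z0) z2) (a z2 z0))) z0) (a (b z0 (d (a z2 z0) z0)) z0))) z0)) (d (c (a (b (d (c (a (b (d (c (a z2 (b (d z2 z2) z2)) z2) (a z2 (b (d z2 z2) z2))) (d z2 z2)) (b z0 (d (c (a (b z0 z2) z0) z2) (a (b z0 z2) z0)))) (a z2 (b z0 z2))) (a (b (d (a z2 (c (b (d z2 z2) z2) z2)) (a z2 (b (d z2 z2) z2))) (d z2 z2)) (b z0 (d (c (a (b z0 z2) z0) z2) (a (b z0 z2) z0))))) (d (c (a (b (d z2 z2) (d z2 z2)) (b (d (c (a z2 (b (d z2 z2) z2)) z2)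 (a z2 (b (d z2 z2) z2))) (d z2 z2))) z2) (a (b (d z2 z2) (d z2 z2)) (b (d (c (a z2 (b (d z2 z2) z2)) z2) z2) (d z2 z2))))) (b z0 (d (c (a (b z0 (d (c (a z2 (b (d z2 z2) (d z2 z2))) z2) (a z2 (b (d z2 z2) (d z2 z2))))) (b z0 (d (c (b z0 (d (a z2 (c (b z0 z2) z2)) (a z2 (b z0 z2)))) z2) (b z0 (d (a z2 (c (b z0 z2) z2)) (a z2 (b z0 z2))))))) (a z2 (b z0 z2))) (a (b z0 (d (c (a z2 (b (d z2 z2) z2)) z2) (a z2 (b (d z2 z2) z2)))) (b z0 (d (c (b z0 (d (a z2 (c (b z0 z2) z2)) (a z2 (b z0 z2)))) (b z0 z2)) (b z0 (d (a z2 (b z0 z2)) (a z2 (b z0 z2)))))))))) (a (b (d (a z3 (c (b z0 z3) z3)) (a z2 (c (b z0 z2) (b z0 z3)))) (d z3 z2)) (b z0 (d (c (a (b z0 z3) (b z0 (d z3 (c z2 z3)))) z3) (c (a (b z0 z2) (b z0 (d z2 (c (b z0 z2) z2)))) (a z3 (b z0 (d z3 (b z0 z3))))))))) (a (b (d (a (b (d (c (a z2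 (b (d z2 z2) z2)) z2) z2) (d z2 z2)) (b z0 (d (c (a (b z0 z2) z0) z2) (a z2 z0)))) (a (b (d z2 z0) (d z2 z0)) (b z0 (d (a z2 z0) z0)))) (d (a z2 (b (d z2 z2) (d z2 z2))) (a z2 (b (d z2 z0) (d z2 z0))))) (b z0 (d (a (b z0 (d (c (a z2 (b (d z2 z2) z2)) z2) (c (a z2 (b (d z2 z2) z2)) z2))) (b z0 (d (c (b z0 (d (c (a z2 (b z0 z2)) z2) (a z2 (c (b z0 z2) z2)))) z2) (c (b z0 (d (a z2 (c (b z0 z2) z2)) (a z2 (b z0 z2)))) z2)))) (a (b z0 (d (a z2 (b (d z2 z2) z2)) z0)) (b z0 (d (b z0 (d z2 z2)) z0)))))))) z0)) _ _ (by decide +kernel)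

theorem okA58 : CKA ⟨0, 8193, 0, 4096⟩ ⟨24576, 49152, 4096, 8192⟩ :=
  ckA_sound (a (b (d z0 (b z0 (d z0 (b z0 z1)))) z1) (b (d z0 (b z0 (d z0 (a (b (d z0 (b z0 (d z0 (a (b (d z0 (b z0 z1)) z1) (b (d z0 (a (b z0 (d z0 (a z3 z0))) z0)) (d z0 (a (b z3 (d z0 (a z1 z3))) z0))))))) (d z0 (a z1 (b (d z0 (b (d z0 (a z1 z3)) (d z0 (a z1 z3)))) z1)))) (b z0 (d z0 (b z0 (d z0 (a z3 z0))))))))) (d z0 (b (d z0 (a z1 (b (d z0 z3) (d z0 (b (d z0 (a (b (d z0 (a z1 z3)) z1) z3)) (d z0 (a z1 z3))))))) (d z0 (a z1 (b (d z0 (b (d z0 (a z1 z3)) z1)) z1))))))) _ _ (by decide +kernel)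

theorem okA59 : CKA ⟨0, 4097, 0, 4096⟩ ⟨24576, 49152, 8192, 12288⟩ :=
  ckA_sound (b (d (b z0 (d (b z0 z1) (b z0 z1))) (b z0 (d z0 z0))) z1) _ _ (by decide +kernel)

end Vale.Agent.Lib.P154Q4
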