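import Vale.Agent.Lib.P154Q4.CkADefs

namespace Vale.Agent.Lib.P154Q4

set_option maxRecDepth 100000
set_option exponentiation.threshold 1000

open Tr

theorem okA60 : CKA ⟨4097, 8193, 0, 1024⟩ ⟨24576, 49152, 8192, 10240⟩ :=
  ckA_sound z0 _ _ (by decide +kernel)

theorem okA61 : CKA ⟨4097, 8193, 1024, 2048⟩ ⟨24576, 49152, 8192, 9216⟩ :=
  ckA_sound (a (b (d (b z0 (d (a (b (d (b z0 z1) (b z0 z1)) z1) (b (d (a (b z0 (d (a z3 z0) (a z3 z0))) z0) (a (b z0 (d (a z3 z0) (a z3 z0))) z0)) (d (a (b z3 (d (a z1 z3) (a z1 z3))) z0) (a (b z3 (d (a z1 z3) (a z1 z3))) z0)))) (a (b (d (b z0 z1) (b z0 z1)) z1) (b (d (a (b z0 (d (a z3 z0) (c (a z3 z0) (a z3 z0)))) z0) (a (b z0 (d (c (a z3 z0) (a z3 z0)) (c (a z3 z0) (a z3 z0)))) z0)) (d (a (b z3 (d (a z1 z3) (c (a z1 z3) (a z1 z3)))) z0) (a (b z3 (d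 (c (a z1 z3) (a z1 z3)) (c (a z1 z3) (a z1 z3)))) z0)))))) (b z0 (d (a (b (d (c (b z0 z1) (b z0 z1)) (c (b z0 z1) (b z0 z1))) z1) (b (d (c (a (b z0 (d (c (a z3 z0) (a z3 z0)) (c (a z3 z0) (a z3 z0)))) z0) (a (b z0 (d (a z3 z0) (a z3 z0))) z0)) (c (a (b z0 (d (c (a z3 z0) (a z3 z0)) (c (a z3 z0) (a z3 z0)))) z0) (a (b z0 (d (a z3 z0) (c (a z3 z0) (a z3 z0)))) z0))) (d (c (a z3 z0) (a (b z3 (d (a z1 z3) (a z1 z3))) z0)) (c (a z3 z0) (a (b z3 (d z3 z3)) z0))))) (a (b (d (c (b z0 z1) (b z0 z1)) (c (b z0 z1) (b z0 z1))) z1) (b (d (c (a (b z0 (d (c (a z3 z0) (a z3 z0)) (c (a z3 z0) (a z3 z0)))) z0) (a (b z0 (d (c (a z3 z0) (a z3 z0)) (c (a z3 z0) (a z3 z0)))) z0)) (c (a (b z0 (d (c (a z3 z0) (a z3 z0)) (c (a z3 z0) (a z3 z0)))) z0) (a (b z0 (d (c (a z3 z0) (a z3 z0)) (c (a z3 z0) (a z3 z0))))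 z0))) (d (c (a z3 z0) (a z3 z0)) (c (a z3 z0) (a z3 z0)))))))) (d (a z1 (b (d (b (d (a z1 z3) (a z1 z3)) (d (a z1 z3) (a z1 z3))) (b (d (a z1 z3) (a z1 z3)) (d (a z1 z3) (a z1 z3)))) z1)) (a z1 (b (d (b (d (a z1 z3) (a z1 z3)) (d (a z1 z3) (a z1 z3))) (b (d (a z1 z3) (c (a z1 z3) (a z1 z3))) (d (a z1 z3) (c (a z1 z3) (a z1 z3))))) z1)))) (b z0 (d (b z0 (d (a z3 z0) (a z3 z0))) (b z0 (d (a z3 z0) (a (b (d (c (a z3 z0) z3) (c (a z3 z0) z3)) z3) z0)))))) _ _ (by decide +kernel)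

theorem okA62 : CKA ⟨4097, 6145, 1024, 1536⟩ ⟨24576, 49152, 9216, 9728⟩ :=
  ckA_sound (b z0 (d (c (a (b (d (c (b z0 z1) (b z0 z1)) (c z1 (b z0 z1))) z1) (b (d (c (a (b z0 (d (c (a z3 z0) (a z3 z0)) (c (a z3 z0) (a z3 z0)))) z0) (a (b z0 (d (c (a z3 z0) (a z3 z0)) (c (a z3 z0) (a z3 z0)))) z0)) (c (a (b z0 (d (c (a z3 z0) (a z3 z0)) (c (a z3 z0) (a z3 z0)))) z0) (a (b z0 (d (c (a z3 z0) (a z3 z0)) (c (a z3 z0) (a z3 z0)))) z0))) (d (c (a z3 z0) (a z3 z0)) (c (a z3 z0) (a z3 z0))))) (a (b (d (b z0 z1) (c (b z0 z1) (b z0 z1))) z1) (b (d (a (b z0 (d (c (a z3 z0) (a z3 z0)) (c (a z3 z0) (a z3 z0)))) z0) (c (a (b z0 (d (c (a z3 z0) (a z3 z0)) (c (a z3 z0) (a z3 z0)))) z0) (a (b z0 (d (a z3 z0) (c (a z3 z0) (a z3 z0)))) z0))) (d (a z3 z0) (c (a z3 z0) (a z3 z0)))))) (c (a z1 (b (d (c (a (b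 z0 (d (c (a z3 z0) (a z3 z0)) (c (a z3 z0) (a z3 z0)))) z0) (a (b z0 (d (c (a z3 z0) (a z3 z0)) (c (a z3 z0) (a z3 z0)))) z0)) (c (a (b z0 (d (c (a z2 z0) (a z3 z0)) (c (a z2 z0) (a z3 z0)))) z0) (a (b z0 (d (c (a z3 z0) (a z3 z0)) (c (a z3 z0) (a z3 z0)))) z0))) (d (c (a z3 z0) (a z3 z0)) (c (a z3 z0) (a z3 z0))))) (a (b (d (c (b z0 z1) (b z0 z1)) (c z1 (b z0 z1))) z1) (b (d (c (a (b z0 (d (c (a z3 z0) (a z3 z0)) (c (a z3 z0) (a z3 z0)))) z0) (a (b z0 (d (a z3 z0) (a z3 z0))) z0)) (c (a (b z0 (d (c (a z3 z0) (a z3 z0)) (c (a z3 z0) (a z3 z0)))) z0) (a (b z0 (d (a z3 z0) (c (a z3 z0) (a z3 z0)))) z0))) (d (c (a z3 z0) (a z3 z0)) (c (a z3 z0) (a z3 z0)))))))) _ _ (by decide +kernel)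

theorem okA63 : CKA ⟨4097, 6145, 1024, 1536⟩ ⟨24576, 49152, 9728, 10240⟩ :=
  ckA_sound (c (b z0 (d (a z1 (c (b (d (c (a (b z0 (d (c (a z2 z0) (a z2 z0)) (c (a z2 z0) (a z2 z0)))) z0) (a (b z0 (d (a z3 z0) (a z2 z0))) z0)) (c (a (b z0 (d (c (a z2 z0) (a z2 z0)) (a z2 z0))) z0) (a (b z0 (d (a z2 z0) (a z2 z0))) z0))) (d (c (a z2 z0) (a z3 z0)) (c (a z2 z0) (a z2 z0)))) (b (d (a (c (b z0 (d (a z3 z0) (a z3 z0))) (b z0 (d (a z3 z0) (a z3 z0)))) z0) (a (c (b z0 (d (a z3 z0) (a z3 z0))) (b z0 (d (a z3 z0) (a z3 z0)))) z0)) (d (a z3 z0) (a z3 z0))))) (a z0 (b (d (c (a (b z0 (d (c (a z2 z0) (a z2 z0)) (c (a z2 z0) (a z2 z0)))) z0) (a (b z0 (d (c (a z2 z0) (a z3 z0)) (c (a z2 z0) (a z3 z0)))) z0)) (c (a (b z0 (d (c (a z2 z0) (a z2 z0)) (a z2 z0))) z0) (a (b z0 (d (a z2 z0) (a z2 z0))) z0)))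 (d (c (a z2 z0) (a z3 z0)) (c (a z2 z0) (a z2 z0))))))) (b z0 (d (a (b (d z1 z1) z1) (b (d (a (c (b z0 (d (a z3 z0) (a z3 z0))) (b z0 (d (a z3 z0) (a z3 z0)))) z0) (c (a (b z0 (d (c (a z3 z0) (a z3 z0)) (c (a z3 z0) (a z3 z0)))) z0) (a (b z0 (d (a z3 z0) (c (a z3 z0) (a z3 z0)))) z0))) (d (a z3 z0) (c (a z3 z0) (a z3 z0))))) (a z1 (c (b (d (a (c (b z0 (d (a z3 z0) (a z3 z0))) (b z0 (d (a z3 z0) (a z3 z0)))) z0) (a (c (b z0 (d (a z3 z0) (a z3 z0))) (b z0 (d (a z3 z0) (a z3 z0)))) z0)) (d (a z3 z0) (a z3 z0))) (b (d (a (b z0 (d (a z3 z0) (c (a z3 z0) (a z3 z0)))) z0) (a (b z0 (d (c (a z3 z0) (a z3 z0)) (c (a z3 z0) (a z3 z0)))) z0)) (d (a z3 z0) (a z3 z0)))))))) _ _ (by decide +kernel)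

theorem okA64 : CKA ⟨4097, 6145, 1536, 2048⟩ ⟨24576, 49152, 9216, 10240⟩ :=
  ckA_sound (d (a z1 (b (d (c (b (d (a z1 z3) (a z1 z3)) (d (a z1 z3) (a z1 z3))) (b (d (a z1 z3) (a z1 z3)) (d (a z1 z3) (a z1 z3)))) (c (b (d (a z1 z3) (a z1 z3)) (d (a z1 z3) (a z1 z3))) (b (d (a z1 z3) (a z1 z3)) (d (a z1 z3) (a z1 z3))))) z1)) (c (a z0 (b (d (c (b (d (a z0 z2) (a z0 z2)) (d (a z0 z2) (a z0 z2))) (b (d (a z1 z3) (a z1 z3)) (d (a z1 z3) (a z1 z3)))) (b (d (c (a z0 z2) (a z1 z3)) (a z0 z2)) (d (c (a z0 z2) (a z1 z3)) (a z0 z2)))) z0)) (a z1 (b (d (b (d (a z1 z3) (a z1 z3)) (d (a z1 z3) (a z1 z3))) (c (b (d (a z1 z3) (a z1 z3)) (d (a z1 z3) (a z1 z3))) (b (d (a z1 z3) (a z1 z3)) (d (a z1 z3) (a z1 z3))))) z1)))) _ _ (by decide +kernel)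

theorem okA65 : CKA ⟨6145, 8193, 1024, 2048⟩ ⟨24576, 49152, 9216, 10240⟩ :=
  ckA_sound (b z0 (d (b z0 (d (a (c (b (d (a z3 z0) (a z3 z0)) z3) (b (d (a z3 z0) (a z3 z0)) z3)) z0) (a (c (b (d (a z3 z0) (a z3 z0)) z3) (b (d (a z3 z0) (a z3 z0)) z3)) z0))) (c (b z0 (d (a (c (b (d (a z2 z0) (a z2 z0)) (d z2 (a z2 z0))) (b (d (a z3 z0) (a z3 z0)) z3)) z0) (a (b (d (c (a z2 z0) (a z3 z0)) (a z2 z0)) (d (c (a z2 z0) z3) (a z2 z0))) z0))) (b z0 (d (a (b (d (a z3 z0) (a z3 z0)) z3) z0) (a (c (b (d (a z3 z0) (a z3 z0)) z3) (b (d (a z3 z0) (a z3 z0)) z3)) z0)))))) _ _ (by decide +kernel)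

theorem okA66 : CKA ⟨4097, 8193, 0, 2048⟩ ⟨24576, 49152, 10240, 12288⟩ :=
  ckA_sound (b z0 (d (a (b (d (c (b z0 (d (a z0 (c (b (d (a (c (b z0 (d (a z2 z0) z2)) (b z0 (d (a z2 z0) z2))) z0) (a (b z0 z2) z0)) (d (a z2 z0) (a z2 z0))) (b (d (a (b z0 (d (c (a z3 z0) (a z3 z0)) z3)) z0) (a (b z0 z3) z0)) (d (a z3 z0) (a z3 z0))))) (a z0 (b (d (a (b z0 z2) z0) (a (b z0 z2) z0)) (d (a z2 z0) (a z2 z0)))))) (b z0 (d (a z1 (b (d (a (b z0 (d (c (a z3 z0) (a z3 z0)) z3)) z0) (a (c (b z0 z3) (b z0 z3)) z0)) (d (a z3 z0) (a z3 z0)))) (a z1 (b (d (c (a (b z0 z3) z0) (a (b z0 z3) z0)) (c (a (b z0 z3) z0) (a (b z0 z3) z0))) (d (c (a z3 z0) (a z3 z0)) (c (a z3 z0) (a z3 z0)))))))) (b z0 (d (a z1 (c (b (d (a (c (b z0 z2) (b z0 z3)) z0) (a (b z0 z2) z0)) (d (a z2 z0) (a z2 z0))) (b (d (a (b z0 z3) z0)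 (a (c (b z0 z3) (b z0 z3)) z0)) (d (a z3 z0) (a z3 z0))))) (a z1 (b (d (c (a (b z0 z2) z0) (a (b z0 z3) z0)) (c (a z2 z0) (a z3 z0))) (d (c (a z2 z0) (a z3 z0)) z3)))))) (d (c (a z0 (b (d (c (b (d (a z0 z2) (a z0 z2)) (d (a z0 z2) z0)) (b (d (a z1 z3) (a z1 z3)) (d (a z1 z3) z1))) (b (d (a z0 z2) (a z0 z2)) z0)) z0)) (a z1 (b (d (b (d (a z1 z3) (a z1 z3)) (d (a z1 z3) z1)) (b (d (a z1 z3) (c (a z1 z3) (a z1 z3))) z1)) z1))) (a z1 (b (d (c (b (d (a z0 z2) (a z0 z2)) z0) (b (d (a z1 z3) (a z1 z3)) z1)) (b (d (a z1 z3) z1) z1)) z1)))) (b z0 (d (c (b z0 (d (a (c (b (d (a z2 z0) (a z2 z0)) (d z2 z2)) (b (d (a z3 z0) (a z3 z0)) z3)) z0) (a (b (d (a z2 z0) (a z2 z0)) (d z2 z2)) z0))) (b z0 (d (a (b (d (a z3 z0) (a z3 z0)) z3) z0) (a (b (d (a z3 z0) (c (a z3 z0) (a z3 z0))) z3) z0)))) (b z0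 (d (a (c (b (d (a z2 z0) (a z2 z0)) z2) z3) z0) (a (b (d (a z3 z0) (a z3 z0)) z3) z0)))))) (a (b (d (b z0 (d (a z1 (b (d (a z3 z0) (a z3 z0)) z3)) (a z1 (b (d (a z3 z0) (a z3 z0)) z3)))) (b z0 (d (a z1 (b (d (a z3 z0) (a z3 z0)) z3)) (a z0 (b (d z3 z2) z2))))) (d z0 z0)) (b z0 (d (b z0 (d (a (b (d z3 z3) z3) z0) (a z3 z0))) (b z0 (d (a z3 z0) (a z2 z0)))))))) _ _ (by decide +kernel)

theorem okA67 : CKA ⟨4097, 8193, 2048, 4096⟩ ⟨24576, 49152, 8192, 12288⟩ :=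
  ckA_sound (d (b (d (a z1 (b (d z3 (b (d z3 (a z3 z0)) z3)) (d (b (d (a (b (d (a z1 z3) (a z1 z3)) z1) z3) (a (b z3 z1) z3)) (d (a z1 z3) (a z1 z3))) (b (d (a (b z3 z1) z3) z3) (d (a z1 z3) (a z1 z3)))))) (a z1 (b (d (b (d (a z3 z0) (a z3 z0)) z3) (c (b (d (a z3 z0) (a z2 z0)) (d z3 (a z2 (b (d z2 z2) z2)))) (b (d (a z3 z0) (a z3 z0)) z3))) (d (b z3 (d (a z1 z3) (a z1 z3))) z3)))) (d (a z1 (b (d (b (d (a z1 z3) (a z1 z3)) z1) (b (d (a z1 z3) (a z1 z3)) z1)) z1)) (a z1 (b (d (b (d (a z1 z3) (a z1 z3)) z1) (c (b (d (a z1 z3) (a z0 z2)) (d z1 z0)) (b (d (a z1 z3) (a z1 z3)) z1))) z1)))) (b (d (a z0 (b (d (c (b (d (a z2 z0) (a z2 z0)) (d (a z2 (c (b (d z2 z2) z2) z3)) (a z2 (b (d z2 z2) z2)))) (b (d (a z3 z0) (a z3 z0)) z3)) (b (d (a z3 z0) (a z3 z0)) (d z3 z3))) (d (c (b (d z2 z2) z2)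 z3) z3))) (a z0 (b (d (b (d (a z3 z0) (a z3 z0)) (d z3 z3)) (b (d (a z3 z0) z2) z2)) (d z2 z2)))) (d (a z0 (b (d (c (b (d (a z0 z2) (a z0 z2)) (d z0 z0)) z1) (b (d (a z1 z3) z1) z1)) (d z1 z1))) (a z0 (b (d z0 z0) z0))))) _ _ (by decide +kernel)

theorem okA68 : CKA ⟨8193, 49152, 0, 4096⟩ ⟨24576, 49152, 4096, 12288⟩ :=
  ckA_sound (d (b z0 (d z0 (b (d z0 (a (b z0 z3) z0)) (d z0 (a z3 (b z0 z3)))))) (b z0 (d (b (d (a (b z0 (d (a z3 z0) (a z3 z0))) z0) (a (b z0 (d (a (b z0 z3) z0) (c (a (b z0 (d z3 (a z2 z0))) z0) (a (b z0 z3) z0)))) z0)) (d (a z3 (b z0 z3)) (a (b (d (a z3 (b z0 z3)) (a (c (b (d z3 z2) z2) z3) (c (b z0 (d z3 (a z2 z0))) (b z0 z3)))) (d z3 (a z3 (c (b (d z3 z2) z2) z3)))) (b z0 (d (a z3 (b z0 z3)) (c (a (b z0 (d z3 z2)) (b z0 (d (c (b z0 z2) z3) (b z0 (d z2 z2))))) (a z3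 (b z0 z3)))))))) (b (d (a (b z0 (d (a (c (b z0 (d (a z2 z0) (a z2 z0))) (b z0 z3)) z0) (a (b z0 (d z3 z3)) z0))) z0) (a (b z0 (d (a (b z0 (d z3 z3)) z0) (a (b z0 (d z3 z2)) z0))) z0)) (d (a (b (d (a (c (b (d z2 z2) z2) z3) (c (b z0 (d (a z2 z0) (a z2 z0))) (b z0 z3))) (a (b (d z3 z3) z3) (b z0 (d (a z3 z0) z3)))) (d (a z3 (c (b (d z2 z2) z2) z3)) (a z3 (b (d z3 z3) z3)))) (b z0 (d (c (a (b z0 (d z2 z2)) (b z0 (d (c (b z0 (d z2 z2)) z3) (b z0 (d z2 z2))))) (a z3 (b z0 z3))) (a (b z0 (d z3 z3)) (b z0 (d (c (b z0 (d z2 z2)) z3) (b z0 (d z3 z3)))))))) (a (b (d (a z2 (b z0 (d z3 z3))) (a z2 (b z0 (d z3 z2)))) (d (a z2 (b (d z3 z3) z2)) z2)) (b z0 (d (a (b z0 (d z3 z3)) (b z0 (d (b z0 (d z3 z3)) (b z0 z3)))) (a (b z0 (d z3 z2)) (b z0 (d (b z0 z3) (b z0 z2)))))))))))) _ _ (by decide +kernel)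

theorem okA69 : CKA ⟨0, 6144, 4096, 8192⟩ ⟨0, 8193, 0, 4096⟩ :=
  ckA_sound (c (b (d (a (b (d z0 z0) (d z0 z0)) (b (d z0 (b (d z0 z0) (d z0 z0))) (d z0 (b (d z0 z0) (d z0 z0))))) (a (c (b (d z0 (a (c (b (d z0 (a (c (b (d z0 (a (c (b (d z0 (a (c (b (d z0 (a (c (b (d (a (c n z0) z0) (a (c n z0) z0)) (d (a (c n z0) z0) (a (c n z0) z0))) z0) z0)) z0) z0) z0)) z0) z0) z0)) z0) z0) z0)) z0) z0) z0)) (d z0 z0)) (b z0 z0)) (c (b (d z0 z0) (d z0 z0)) z0))) (d (b (d z0 (b (d z0 z0) z0)) z0) (c (b z0 z0) (b (d (b z0 z0) (b z0 z0)) z0)))) (b (d (a (b (d z0 z0) (d z0 (c z0 (b z1 z1)))) (b (d z0 z0) (d z0 (c z0 (b z1 (d z0 z1)))))) (a (b z0 z0) z0)) (d (b (d z0 (c (b (d (a (b (d z0 z0) (d z0 (c z0 (b z1 z1)))) (b (d z0 z0) (d z0 z0))) (a (c z0 (b z0 z0)) z0)) (d (b (d z0 (c (a (b z0 z0) z0) (a (b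 (d (a (c z1 z0) z1) z1) (d (c z1 z0) z1)) (b z1 (d (a (c z1 z0) z1) z1))))) (d z0 (c (b z0 z0) (b (d (c (b z1 z1) z0) z1) z0)))) (c (b z0 z0) (b (d (a (b z0 z0) z0) z0) (d (b (d (c z0 z1) z0) z0) (b z0 z0)))))) (b (d z0 (a (b z1 (d z0 z1)) z1)) (d z0 (b (d z0 (c z1 z0)) (d z0 (c (b z1 z0) z0))))))) z0) (b (d (c (b z0 (d (c z0 (b z0 z0)) (c z0 (b z0 z0)))) (b (d (a (b z1 z1) z1) z1) (d (b z1 (d (c z1 z0) z1)) (b z1 z1)))) (c (b z0 z0) (b z0 (d (b z0 z0) (b z0 z0))))) z0)))) _ _ (by decide +kernel)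

theorem okA70 : CKA ⟨6144, 12288, 4096, 8192⟩ ⟨0, 4097, 0, 4096⟩ :=
  ckA_sound (b (d (b (d z0 (a (b (d z0 z0) (d z0 z0)) (b (d z0 z2) (d z0 z2)))) (d z0 (a (b (d z0 z0) (d z0 z0)) (b (d z0 z2) (d z0 z0))))) (c (b (d z0 z0) (d z0 z0)) z0)) (d (b (d z0 (a (b (d z0 z0) (d z0 z0)) (b (d z0 z0) (d z0 z0)))) (d z0 z0)) (c z0 (b z0 (d (b z0 z0) (b z0 z0)))))) _ _ (by decide +kernel)

theorem okA71 : CKA ⟨6144, 12288, 4096, 6144⟩ ⟨4097, 8193, 0, 2048⟩ :=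
  ckA_sound (b (d z0 (a (c (b (d (a z0 (b (d z0 z2) (d z0 z0))) z0) (d (a z0 (b (d z0 z0) (d z0 z0))) z0)) (b (d z0 z1) (d z0 z1))) (c (b (d (b (d z0 z2) (d z0 z2)) z2) (d (b (d z0 z2) (d z0 (a (c z2 (b z3 (d (a z1 z3) z3))) z2))) z2)) (b (d z0 z3) (d z0 (b z3 (d z0 z3))))))) (d z0 (a (c (b (d (a z0 (b (d z0 z0) (d z0 z0))) z0) (d (a (b z0 (d z0 z0)) (b (d z0 z0) (d z0 z0))) z0)) (b (d z0 z1) (d z0 z1))) (c (b (d (b (d z0 (a (c z0 (b (d (a z1 z3) z3) (d (a z1 z3) z1))) z2)) (d z0 (a (c z0 (b (d (a z1 (c z3 z0)) z1) (d (a z1 (c z1 z0)) z1))) (c z2 z3)))) (c z2 (b (d (a (b (d (a z0 z2) (a z0 z2)) z0) z2) (a z0 z2)) (d (a z0 z2) (a z0 z2))))) (d (b (d z0 (a (c z0 (b (d (a z1 (c z1 z0)) z1) z1)) (c z2 (b (d (a (c z3 z0) z3) z3) (d (a (c (b z3 (d z0 z3)) z0) z3) z3))))) (d z0 (a (c z0 z1)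 (c (b z2 z0) (b (d (a (c z1 z0) (c z3 z0)) (a z1 z3)) (d (a (c z1 z0) (c (b z3 (d z0 z3)) z0)) z1)))))) (c z0 (b (d (a z0 (b (d (c z2 z3) z2) (d (c z2 z3) (c z2 z3)))) (a z0 z2)) (d (a z0 (b (d (c z2 z3) (c z2 (a z1 z3))) (d (c z0 z1) (c z0 (a z1 z3))))) z0))))) (b (d z0 (b (d z0 (a z1 z3)) (d z0 (a z1 z3)))) (d z0 (b (d z0 z1) (d z0 z1)))))))) _ _ (by decide +kernel)

theorem okA72 : CKA ⟨6144, 12288, 4096, 5120⟩ ⟨4097, 8193, 2048, 4096⟩ :=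
  ckA_sound (d (a (c z0 (b (d z1 (a (b (d z1 (c z0 z1)) z1) (b (d (c (a (b (d z1 z0) (d z1 z0)) (b z3 (d z3 z2))) z3) (c (a z0 z2) z3)) (d (c (a z1 (b (d z3 z2) (d (c z0 z1) z0))) z1) (c z0 z1))))) (d z1 (a z1 (b (d (c (a z1 (b (d (c z0 z1) z0) (d (c z0 z1) z0))) z1) (c z0 z1)) (d (c (a z1 (b (d z1 z0) (d z1 z0))) z1) (c z0 z1))))))) (c z2 (b (d z3 (b (d (a (c (b (d z3 z2) (d z3 z2)) z3) (c (b (d z3 z2) (d z3 z2)) z3)) (a (c z2 z3) (c z2 z3))) (d (a (c (b (d z3 z2) (d z3 z2)) z3) (c (b (d z3 z2) (d z3 z2)) z3)) (a (c z2 z3) (c z2 z3))))) (d (b z3 (d z3 (a (c (b z3 (d z3 (a (c z0 z1) z3))) z3) z3))) (b (d (a (c (b (d z3 z2) (d (a (c z2 z3) z3) z2)) z3) (c (b (d z3 z2) (d z3 z2)) z3)) (a (c z2 z3) (c z2 z3))) (d (a (c (b (d (a (c z2 z3) (c z2 z3)) z2) (d (a (c z0 z1) (c z2 z3)) z2)) z3)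 (c (b (d (a z3 (c z2 z3)) z2) (d (a (c z2 z3) (c z2 z3)) z2)) z3)) (a (c z2 z3) (c z2 z3)))))))) (a z0 (c z2 (b z2 (d (b z2 (d (a (c z2 z3) z2) (a (c z2 (b z3 (d z3 (a z1 z3)))) z2))) z2))))) _ _ (by decide +kernel)

theorem okA73 : CKA ⟨6144, 12288, 5120, 6144⟩ ⟨4097, 8193, 2048, 4096⟩ :=
  ckA_sound (d (a (c z0 (b (d z1 (a z1 (b (d (c (a z1 (b (d z1 z0) (d z1 z0))) z1) (c z0 z1)) (d (c (a z1 (b (d z1 z0) (d z1 z0))) z1) (c z0 z1))))) (d z1 (a z1 (b (d (c (a z1 (b (d z1 z0) z1)) z1) (c z0 z1)) (d z1 (c z0 z1))))))) (c (b (d (c z2 (b (d (a z0 z2) z2) (d (a z0 z2) (a z0 z2)))) (c z2 (b z2 (d (a z0 z2) (a z0 z2))))) z0) (b (d (b (d (a z1 z3) (a (c (b (d (a z1 z3) (a z1 z3)) (d z1 (a z1 (c z2 z3)))) z1) z3)) (d (a z1 z3) (a (c (b (d z1 (a z1 (c z2 z3))) (d z1 (a z1 (c z0 z1)))) z1) z3)))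 (b (d (a (c (b (d (a (c z0 z1) (c z2 z3)) (a z0 z2)) (d (a (c z0 z1) (c z2 z3)) z0)) z1) (c (b (d (a (c z2 z3) (c z2 z3)) z2) (d (a (c z2 z3) (c z2 z3)) z2)) z3)) (a (c z0 z1) (c z2 z3))) (d (a (c (b (d (a (c z0 z1) (c z2 z3)) z0) (d (a (c z0 z1) (c z0 z1)) z0)) z1) (c (b (d (a (c z2 z3) (c z2 z3)) z2) (d (a (c z2 z3) (c z2 z3)) z2)) z3)) (a (c z0 z1) (c z2 z3))))) (d (b (d z1 (a (c (b (d z1 (a z1 (c z0 z1))) z1) z1) (c (b (d z3 (a (c z2 z3) z3)) (d z3 (a (c z2 z3) z3))) z3))) (d z1 (a z1 (c (b (d (a z1 z3) (a (c z0 z1) (c z2 z3))) (d z1 (a (c z0 z1) (c z2 z3)))) z3)))) (b (d (a (c (b (d (a (c z0 z1) (c z0 z1)) z0) (d (a z1 (c z0 z1)) z0)) z1) (c (b (d (a (c z2 z3) (c z2 z3)) z2) (d (a (c z2 z3) (c z2 z3)) z2)) z3)) (a (c z0 z1) (c z2 z3))) (d (a (c (b (d (a z1 (c z0 z1)) z0) (d (a z1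 (c z0 z1)) z0)) z1) (c (b (d (a (c z0 z1) (c z2 z3)) (a z0 z2)) (d (a (c z0 z1) (c z2 z3)) z0)) z3)) (a (c z0 z1) (c (b (d (a z0 z2) z2) z0) z3)))))))) (a z0 (c z0 (b (d (b (d (a (c z0 z1) z2) (a (c z0 (b (d (a z1 z3) (a z1 z3)) (d z1 (a z1 z3)))) z2)) (d (a (c z0 z1) z2) (a z0 z2))) (b (d (a z0 z2) (a z0 z2)) (d (a z0 z2) (a z0 z2)))) (d (b (d (a z0 (c z2 z3)) (a z0 (c z2 (b z3 (d z3 (a (c z2 z3) z3)))))) (d (a z0 (c (b z2 z0) (b z3 z1))) (a z0 (c z2 (b (d (a z1 z3) (a z1 z3)) (d z1 (a z1 z3))))))) (b (d (a z0 z2) (a z0 z2)) z0)))))) _ _ (by decide +kernel)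

theorem okA74 : CKA ⟨6144, 12288, 6144, 8192⟩ ⟨4097, 8193, 0, 2048⟩ :=
  ckA_sound (b (d z0 (a (c (b (d (a (b (d z0 z0) (d z0 z0)) (b (d z0 z0) (d z0 z0))) z0) (d (a (b (d z0 z0) (d z0 (c z0 (a (b (d (a (c z1 z0) z1) z1) (d (c (b z1 z1) z0) (c z1 z0))) (b z1 (d (c z1 z0) z1)))))) (b (d z0 z0) (d z0 (c z0 z1)))) (a (c z0 (b z0 (d (a (b z0 (d (c z0 z1) z0)) z0) z0))) z0))) (b (d z0 (a z1 (b z1 (d z0 z1)))) (d z0 (a (b (d z0 z1) (d z0 (c z1 z0))) (b (d z0 z1) (d z0 z1)))))) (c (b (d (b (d z0 (a (c z0 z1) (c z0 (b (d (a (c z1 z0) (c (b (d z0 z3) (d z0 z1)) z0)) z1) (d (a (c z1 z0) (c z1 z0)) z1))))) (d z0 (a (c z0 z1) (c z0 (b (d (a (c z1 z0) (c z1 z0)) z1) (d (a z1 (c z1 z0)) z1)))))) (c z0 (b (d (a z0 (b (d (c z0 z1) z0) (d (c z0 z1) z0))) z0) (d (a z0 (b (d (c z0 z1) z0) z0)) z0))))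 (d (b (d z0 (a (c z0 z1) (c z0 (b (d (a z1 (c z1 z0)) z1) z1)))) (d z0 (a z0 (c z0 z1)))) z0)) (b (d z0 (b (d z0 z1) (d z0 z1))) (d z0 (b (d z0 z1) (d z0 z1))))))) (d z0 (c (b (d (a (b (d z0 (a (c (b z0 z0) (b (d (a (c (b z1 z1) z0) (c z1 z0)) (a (c z1 z0) z1)) (d (c (a (b z1 z1) z1) z0) (c z1 z0)))) (c z0 (b z1 (d (a (c z1 z0) z1) z1))))) (d z0 (c z0 (b (d (a (c (b z1 z1) z0) z1) (a (c z1 z0) z1)) (d (c z1 z0) (c z1 z0)))))) (b (d z0 z0) (d z0 (a (c z0 z1) z0)))) (a (c z0 (b (d (a (b (d (a (c z0 z1) z0) z0) (d (c z0 z1) z0)) z0) (a (b z0 z0) z0)) (d (b (d (a (c z0 z1) z0) z0) (d (c z0 z1) z0)) (b z0 z0)))) z0)) (d (b (d z0 (a (c z0 (b (d (a (c z1 z0) z1) z1) (d (c z1 z0) z1))) z0)) (d z0 (c z0 (b z1 z1)))) (c z0 (b (d (a (b z0 z0) z0) z0) z0)))) (b (d z0 (a (b (d z0 (a (c (b z1 z1)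 z0) z1)) (d z0 (c (b z1 z1) z0))) (b (d z0 z1) (d z0 z1)))) (d z0 (b (d z0 (a (c (b z1 z1) z0) z1)) (d z0 (c (b z1 z1) z0)))))))) _ _ (by decide +kernel)

end Vale.Agent.Lib.P154Q4
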