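import Vale.Agent.Lib.P154Q4.CkADefs

namespace Vale.Agent.Lib.P154Q4

set_option maxRecDepth 100000
set_option exponentiation.threshold 1000

open Tr

theorem okA75 : CKA ⟨6144, 12288, 6144, 8192⟩ ⟨4097, 8193, 2048, 4096⟩ :=
  ckA_sound (b (d (a (c z0 (b (d z1 (a z1 (b (d z1 (c z0 z1)) (d z1 (c z0 z1))))) (d z1 (a z1 (b (d z1 (c z0 z1)) z1))))) (c z0 (b (d (b (d z1 (a z1 (c (b (d z1 (a z1 (c z2 z3))) (d z1 (a z1 (c z0 z1)))) z1))) z1) (b (d (a (c (b (d (a z1 (c z0 z1)) z0) (d z1 z0)) z1) (c (b (d (a (c z0 z1) (c z2 z3)) z0) (d (a (c z0 z1) (c z0 z1)) z0)) z1)) (a (c z0 z1) (c z0 z1))) (d (a (c (b (d z1 z0) (d z1 z0)) z1) (c (b (d (a (c z0 z1) (c z0 z1)) z0) (d (a z1 (c z0 z1)) z0)) z1)) (a (c z0 z1) (c z0 z1))))) (d z1 (b (d (a z1 (c (b (d (a z1 (c z0 z1)) z0) (d z1 z0)) z1)) (a (c z0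 z1) (c z0 z1))) (d (a z1 (c (b (d z1 z0) z1) z1)) (a (c z0 z1) (c z0 z1)))))))) (a z0 (c z0 (b (d (b (d (a z0 (c z0 z1)) z0) (d (a z0 (c z0 z1)) z0)) z0) z0)))) (d (c (b (d (a (c z0 (b z0 z0)) z0) (a (c z0 (b z0 z0)) z0)) (d (c z0 (b z0 z0)) z0)) (b (d (a (b (d (a (c z1 z0) z1) (a (c z1 (b z1 z1)) z1)) (d (c (b z1 z1) z0) (c z1 (b z1 z1)))) z1) (a (b z1 z1) (b (d z1 (c z0 z1)) z1))) (d (b (d (a (c (b z1 z1) z0) z1) (a (c z1 (b z1 z1)) z1)) (d (c z1 z0) (c z1 (b z1 z1)))) (b z1 z1)))) (c (b z0 z0) (b (d (a (b (d (a (c z0 z1) z0) z0) (d (c z0 z1) z0)) z0) (a (b z0 z0) z0)) (d (b (d (a (c z0 z1) z0) z0) (d (c z0 z1) z0)) (b z0 z0)))))) _ _ (by decide +kernel)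

theorem okA76 : CKA ⟨0, 12288, 8192, 12288⟩ ⟨0, 8193, 0, 4096⟩ :=
  ckA_sound (c (b (d z0 (c (b z0 z0) (b z0 z0))) z0) (b (d (b (d z0 (c (b (d (b (d z0 z0) z0) z0) z0) (b (d z0 (b (d z0 (c (b z1 z0) z0)) z0)) z0))) z0) (b (d (c (b z0 z0) (b (d (b (d (c z1 z0) (c z1 (b z1 z0))) z0) (b z1 z0)) z0)) (c (b z0 z0) (b (d (b z0 z0) (b z0 z0)) z0))) z0)) z0)) _ _ (by decide +kernel)

theorem okA77 : CKA ⟨0, 12288, 4096, 12288⟩ ⟨8193, 49152, 0, 4096⟩ :=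
  ckA_sound (b (a (b (d z0 (a (b z1 (d (c (b z1 z1) z0) z1)) z1)) (d z0 (b (d (c (b (d z0 (a (c (b z1 z1) z0) z1)) (d z0 (c (b z1 z1) z0))) z0) (c (b z1 (d (c (b z1 z1) (b z1 z1)) (c z1 (b z1 z1)))) (b z1 (d z0 (c (b z1 z1) (b z1 z1)))))) z0))) (b (d z0 (b (d (a (c z1 z0) (c (b z3 (d z0 z3)) z0)) (c (a z1 z3) (a z1 (b z3 (d z0 z3))))) (d (a (c z1 z0) (c (b (d z0 (c (b (d z0 (a z1 z3)) (d z0 (a z1 z3))) z0)) (d z0 z1)) z0)) (c (a z1 (b (d (c (b z3 (d (a z1 z3) (a z1 z3))) (b (d z0 (a z1 z3)) (d z0 (a z1 z3)))) (c (b (d z3 (a z1 z3)) (d (a z1 z3) (a z1 z3))) (b z3 (d (a z1 z3) (a z1 z3))))) z1)) z1)))) (d z0 (b (d (a (c (b z1 (d z0 z1)) z0) (c (b (d z0 z1) (d z0 z1)) z0)) z1) (d (c (b (d z0 (a (c (b (d z0 z1) (d z0 z1)) z0) z1)) (d z0 (c (b (d z0 (a (c z1 z0) z1)) (d z0 (c z1 z0))) z0)))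 z0) (c (b (d (a (c (b z1 z1) (b z1 (d z0 z1))) z1) (a (c (b z1 z1) (b z1 z1)) z1)) (d (c (b z1 z1) (b (d z0 z1) (d z0 (c z1 z0)))) (c (b z1 z1) (b z1 z1)))) (b (d z0 (a (c (b z1 z1) (b z1 (d z0 z1))) z1)) (d z0 (c (b z1 (d z0 z1)) (b (d z0 z1) (d z0 z1))))))))))) (b (d z0 (b (d (c (b (d z0 (c (b (d z0 (c z1 z0)) z0) z0)) z0) z0) (c (b (d (c (b z1 z0) (b (d z0 (c z1 z0)) z0)) (c (b z1 z0) (b z1 z0))) z0) (b (d z0 (c (b (d z0 z1) z0) (b (d z0 (b z1 z0)) z0))) z0))) z0)) z0)) _ _ (by decide +kernel)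

theorem okA78 : CKA ⟨12288, 24576, 4096, 8192⟩ ⟨0, 4097, 0, 4096⟩ :=
  ckA_sound (b (d (b (d z0 (b (d z0 z2) (d z0 z2))) (d z0 (b (d z0 z2) (d z0 z2)))) (c (b (d z2 z2) (d z2 z2)) z2)) (d (b (d z0 (a (b (d z0 z2) (d z0 z2)) (b (d z0 z2) (d z0 z2)))) (d z0 z2)) z2)) _ _ (by decide +kernel)

theorem okA79 : CKA ⟨12288, 24576, 4096, 6144⟩ ⟨4097, 8193, 0, 2048⟩ :=
  ckA_sound (b (d z0 (c (b (d (a (b (d z0 z2) (d z0 z2)) (b (d z0 (c (b (d z2 z2) (d z2 z2)) z3)) (d z0 (c (a z2 (b (d z2 z2) (d z2 z2))) (a z3 (b (d z3 (c (b z3 (d z3 (a z3 (c z2 z3)))) z0)) (d z3 (c (b (d z3 (a z3 (c z2 z3))) (d z3 (a z3 (c z2 z3)))) z0)))))))) z2) (d (a (b (d z0 z2) (d z0 z2)) (b (d z0 (c (b (d z2 z2) (d z2 z2)) (b (d z3 (a z3 (c (b (d z3 (a z3 (c z2 z3))) (d z3 (a z3 (c z2 z3)))) z0))) (d z3 (a z3 (c (b (d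 z3 (a z3 (c z2 z3))) (d z3 (a z3 (c z2 z3)))) z0)))))) (d z0 (c (a z2 (b (d z2 z2) (d z2 z2))) (a z3 (b (d z3 (c (b (d z3 (a z3 (c z2 z3))) (d z3 (a z3 (c z2 z3)))) z0)) (d z3 (c (a z3 (b (d z3 (c z2 z3)) (d z3 (c z2 z3)))) z0)))))))) z2)) (b (d z0 z3) (d z0 z3)))) (d z0 (c (b (d (a (b (d z0 z2) (d z0 z2)) (b (d z0 (c (a z2 (b (d z2 z2) z2)) (a z3 (b (d z3 (c (b (d z3 (a z3 (c z2 z3))) (d z3 (a z3 (c z2 z3)))) z0)) (d z3 (c (a z3 (b (d z3 (c z2 z3)) (d z3 (c z2 z3)))) z0)))))) (d z0 (a z2 (c z2 (b (d z3 (c (a z3 (b (d z3 (c z2 z3)) (d z3 (c z2 z3)))) z0)) (d z3 (a z3 (c (b (d z3 (c z2 z3)) (d z3 (a z3 (c z2 z3)))) z0))))))))) z2) (d (a (b (d z0 z2) (d z0 (a (c z2 z3) z2))) (b (d z0 (a z2 (c z2 (b (d z3 (c (a z3 (b (d z3 (c z2 z3)) (d z3 (c z2 z3)))) z0)) (d z3 (a z3 (c (b (d z3 (c z2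 z3)) z3) z0))))))) (d z0 (a z2 (c z2 (b z3 z3)))))) z2)) (b (d z0 z3) (d z0 (a (b z3 (d z0 z3)) z3)))))) _ _ (by decide +kernel)

theorem okA80 : CKA ⟨12288, 24576, 4096, 5120⟩ ⟨4097, 8193, 2048, 4096⟩ :=
  ckA_sound (d (c z2 (b (d (a z3 (b (d z3 (c (b (d z3 (c z2 z3)) (d z3 (a z3 (c z2 z3)))) z3)) (d z3 (c (a z3 (b (d z3 (c z2 z3)) (d z3 (c z2 z3)))) z3)))) (a (b (d (c (a (b (d (c z2 z3) z2) (d (c z2 z3) z2)) (b (d (c z2 z3) z2) (d (c z2 z3) z2))) z3) (c z2 z3)) (d (c (a (b (d (c z2 z3) z2) (d (c z2 z3) z2)) (b (d (c z2 z3) z2) (d (c z2 z3) z2))) z3) (c z2 z3))) (b (d (c (b (d (c z2 z3) z2) (d (a (c z2 z3) (c z2 z3)) z2)) z3) (c z2 z3)) (d (c (a (b (d (c z2 z3) z2) (d (c z2 z3) z2)) (b (d (c z2 z3) z2) (d (c z2 z3) z2))) z3) (c z2 z3))))) (d (a z3 (b (d z3 (c (b (d z3 (a (c z2 z3) (c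 z2 z3))) (d z3 (a (c z2 z3) (c z2 z3)))) z3)) (d z3 (c (a (b (d z3 (c z2 z3)) (d z3 (c z2 z3))) (b (d z3 (c z2 z3)) (d z3 (c z2 z3)))) z3)))) (a (b (d (c (a (b (d (c z2 z3) z2) (d (c z2 z3) z2)) (b (d (c z2 z3) z2) (d (c z2 z3) z2))) z3) (c z2 z3)) (d (c (a (b (d (c z2 z3) z2) (d (c z2 z3) z2)) (b (d (c z2 z3) z2) (d (c z2 z3) z2))) z3) (c z2 z3))) (b (d (c (b (d (a (c z2 z3) (c z2 z3)) z2) (d (a (c z2 z3) (c z2 z3)) z2)) z3) (c z2 z3)) (d (c (a (b (d (c z2 z3) z2) (d (c z2 z3) z2)) (b (d (c z2 z3) z2) (d (c z2 z3) z2))) z3) (c z2 z3))))))) z2) _ _ (by decide +kernel)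

theorem okA81 : CKA ⟨12288, 24576, 5120, 6144⟩ ⟨4097, 8193, 2048, 4096⟩ :=
  ckA_sound (d (c z2 (b (d (a z3 (b (d z3 (c (a (b (d z3 (c z2 z3)) (d z3 (c z2 z3))) (b (d z3 (c z2 z3)) (d z3 (c z2 z3)))) z3)) (d z3 (c (a (b (d z3 (c z2 z3)) (d z3 (c z2 z3))) (b (d z3 (c z2 z3)) (d z3 (c z2 z3)))) z3)))) (a (b (d (c (a (b (d (c z2 z3) z2) (d (c z2 z3) z2)) (b (d (c z2 z3) z2) (d (c z2 z3) z2))) z3) (c z2 z3)) (d (c (a (b (d (c z2 z3) z2) (d (c z2 z3) z2)) (b (d (c z2 z3) z2) (d (c z2 z3) z2))) z3) (c z2 z3))) (b (d (c (a (b (d (c z2 z3) z2) (d (c z2 z3) z2)) (b (d (c z2 z3) z2) (d (c z2 z3) z2))) z3) (c z2 z3)) (d (c (a (b (d (c z2 z3) z2) (d (c z2 z3) z2)) (b (d (c z2 z3) z2) (d (c z2 z3) z2))) z3) (c z2 z3))))) (d (a z3 (b (d z3 (c (a (b (d z3 (c z2 z3)) z3) (b (d z3 (c z2 z3)) (d z3 (c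 z2 z3)))) z3)) (d z3 (c (a z3 (b (d z3 (c z2 z3)) (d z3 (c z2 z3)))) z3)))) (a (b (d (a (c (b (d (a (c z2 z3) (c z2 z3)) z2) (d (a (c z2 z3) (c z2 z3)) z2)) z3) (c (b (d (a (c z2 z3) (c z2 z3)) z2) (d (a (c z2 z3) (c z2 z3)) z2)) z3)) (a (c z2 z3) (c z2 z3))) (d (a (c (b (d (a (c z2 z3) (c z2 z3)) z2) (d (a (c z2 z3) (c z2 z3)) z2)) z3) (c (b (d (a (c z2 z3) (c z2 z3)) z2) (d (a (c z2 z3) (c z2 z3)) z2)) z3)) (a (c z2 z3) (c z2 z3)))) (b (d (c (a (b (d (c z2 z3) z2) (d (c z2 z3) z2)) (b (d (c z2 z3) z2) (d (c z2 z3) z2))) z3) (c z2 z3)) (d (c (a (b (d (c z2 z3) z2) (d (c z2 z3) z2)) (b (d (c z2 z3) z2) (d (c z2 z3) z2))) z3) (c z2 z3))))))) z2) _ _ (by decide +kernel)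

theorem okA82 : CKA ⟨12288, 24576, 6144, 8192⟩ ⟨4097, 8193, 0, 2048⟩ :=
  ckA_sound (b (d z0 (a (c (b (d (a (b (d z0 (c z2 (a (b (d (a (c z3 z0) z3) z3) (d (a (c z3 z0) z3) z3)) z3))) (d z0 (c z2 (a (b (d (a (c (b z3 (d z0 z3)) z0) (c z3 z0)) z3) (d (a (c z1 z0) (c z3 z0)) (a z1 z3))) z3)))) (b (d z0 z2) (d z0 z2))) (a (c z2 (b (d (a (b z2 (d (c z2 z3) z2)) z2) z2) (d (a (b (d (c z2 z3) z2) (d (c z2 z3) (c z2 z3))) z2) z2))) z2)) (d (a (b (d z0 (c z2 (a (b (d (a (c z1 z0) (c z3 z0)) z1) (d (a (c z1 z0) (c z1 z0)) z1)) (b (d (c z3 z0) z3) (d (c z3 z0) z3))))) (d z0 (c z0 (a (b (d (a z1 (c z1 z0)) z1) z1) (b (d (c z3 z0) z3) (d (c z1 z0) z1)))))) (b (d z0 z2) (d z0 z2))) (a (c z0 (b (d (a (b (d (c z0 z1) z0) z0) z2) (a z0 z2)) (d (a z0 (b (d (c z2 z3) z2) z0)) z0))) z2))) (b (d z0 (a (b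 (d z0 z3) (d z0 (c z3 z0))) z3)) (d z0 (a (b (d z0 (c (a z1 z3) z0)) (d z0 (c z1 z0))) (b (d z0 z3) (d z0 z3)))))) (c (b (d (b (d z0 (c z2 z3)) (d z0 (a z2 (c z2 z3)))) z2) (d (b (d z0 z2) (d z0 z2)) z2)) (b (d z0 z3) (d z0 z3))))) (d z0 (a (c (b (d (a (b (d z0 (a (c z0 z1) (c z0 z1))) (d z0 z0)) (b (d z0 z2) (d z0 z2))) (a z0 z2)) (d (a (b (d z0 z0) (d z0 z0)) (b (d z0 z2) z0)) z0)) (b (d z0 (a (b (d z0 (c z1 z0)) (d z0 z1)) (b (d z0 z3) (d z0 (c z3 z0))))) (d z0 (a (b (d z0 z1) (d z0 z1)) (b (d z0 (c z3 z0)) (d z0 z1)))))) (c (b (d (b (d z0 z2) (d z0 z2)) z2) (d (a z2 (b z2 z2)) z2)) (b (d z0 z3) (d z0 z3)))))) _ _ (by decide +kernel)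

theorem okA83 : CKA ⟨12288, 24576, 6144, 7168⟩ ⟨4097, 8193, 2048, 4096⟩ :=
  ckA_sound (d (a (c (b z2 (d (a z0 z2) z2)) (b (d (a (b z3 (d z3 (c (a (b (d z3 (c z2 z3)) (d z3 (c z2 z3))) z3) z3))) z3) (a (b (d (c (a (b (d (c z2 z3) z2) (d (c z2 z3) z2)) (b (d (c z2 z3) z2) (d (c z2 z3) z2))) z3) (c z2 z3)) (d (c (a (b (d (c z2 z3) z2) (d (c z2 z3) (c z2 z3))) (b (d (c z2 z3) z2) (d (c z2 z3) z2))) z3) (c z2 z3))) (b (d (c (a (b (d (c z2 z3) z2) (d (c z2 z3) z2)) (b (d (c z2 z3) z2) (d (c z2 z3) z2))) z3) (c z2 z3)) (d (c (a (b (d (c z2 z3) z2) (d z3 z2)) (b (d (c z2 z3) z2) (d (c z2 z3) z2))) z3) (c z2 z3))))) (d (a (b (d (c z3 z0) (c (a z1 z3) (a z1 z3))) z1) z3) (a (b (d (c (a (b (d (c z0 z1) z0) (d (c z0 z1) z0)) (b (d (c z2 z3) z2) (d (c z2 z3) z2))) z3) (c (a z0 z2) z3)) (d (c (a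 (b (d z1 z0) (d z1 z0)) (b (d (c z2 z3) z2) (d (c z0 z1) z0))) z1) (c z0 z1))) (b (d (c (a (b (d z3 z2) (d z3 z2)) (b (d z3 z2) (d z3 z2))) z3) (c z2 z3)) (d (c (a (b (d z3 z2) (d z3 z2)) (b (d z3 z2) (d z3 z2))) z3) (c z2 z3))))))) (c z2 (b (d (b (d z3 (c (a z3 (b (d z3 (c z2 z3)) (d z3 (c z2 z3)))) z3)) (d z3 (c (a z3 (b z3 z3)) z3))) (b (d (c (a (b (d (c z2 z3) z2) (d (c z2 z3) z2)) (b (d (c z2 z3) z2) (d (c z2 z3) z2))) z3) (c z2 z3)) (d (c (a (b (d (c z2 z3) z2) (d (c z2 z3) z2)) (b (d (c z2 z3) z2) (d (c z2 z3) z2))) z3) (c z2 z3)))) (d z3 (b (d (c (a (b (d (c z2 z3) z2) (d z3 z2)) (b (d (c z2 z3) z2) (d (c z2 z3) z2))) z3) (c z2 z3)) (d (a (c (b (d z3 z2) (d z3 z2)) z3) (c (b (d (c z2 z3) z2) (d z3 z2)) z3)) (a (c z2 z3) (c z2 z3)))))))) (a (c z2 (b (d (a (b (d (c z2 z3) z2) (d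 (c z2 z3) (c z2 z3))) z2) z2) (d (a (b (d (c (a z0 z2) z3) (c z2 (a z1 z3))) (d (c z0 z1) z0)) z2) (a (b (d (c z2 (a z0 z2)) (c z2 (a z0 z2))) z0) z2)))) z2)) _ _ (by decide +kernel)

theorem okA84 : CKA ⟨12288, 24576, 7168, 8192⟩ ⟨4097, 8193, 2048, 4096⟩ :=
  ckA_sound (d (a (c z0 (b (d (a z1 z3) (a (b (d (c (a z1 (b (d z1 z0) (d z1 z0))) z1) (c z0 z1)) (d z1 (c z0 z1))) (b (d z3 (c z2 z3)) (d z3 (c z2 z3))))) (d z1 (a z1 (b z3 z1))))) (c z2 (b (d z3 (b (d (c (a (b (d z3 z2) z3) (b (d z3 z2) (d z3 z2))) z3) (c z2 z3)) (d z3 (a (c z2 z3) (c z2 z3))))) (d z3 (a (b (d z3 (c z2 z3)) z3) (b (d z3 (c z2 z3)) z3)))))) (a (c z0 (b (d (a (b (d (c z0 z1) z0) z0) z2) (a z0 z2)) (d (a z0 (b (d (c z2 z3) z2) z0)) z0))) z2)) _ _ (by decide +kernel)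

theorem okA85 : CKA ⟨12288, 24576, 8192, 12288⟩ ⟨0, 8193, 0, 4096⟩ :=
  ckA_sound (c (b (d (b (d z0 z0) z0) (c (b z0 z0) (b z0 z0))) z0) (b (d (b (d z0 (a (c (b (d (a (b (d z0 z0) z0) z0) z0) z0) (b (d z0 (a (b (d z0 (c (a (b z1 z1) z1) z0)) (d z0 (c z1 z0))) (b (d z0 z1) (d z0 z1)))) (d z0 (b (d z0 (c z1 z0)) (d z0 z1))))) (c z2 (b (d z0 (a (b (d z0 z3) (d z0 z3)) z3)) (d z0 z1))))) (d z0 (c z0 (b (d z0 (b z1 z1)) z1)))) (b (d (a (c (b z0 z0) (b (d (a (b (d (c z1 z0) (c z1 (a (b z1 z1) z1))) (d (c z1 z0) z1)) z1) (a (b z1 z1) z1)) (d (b z1 z1) (b z1 z1)))) (c z2 z3)) (a (c (b z0 z0) (b (d (a (b z0 z0) z0) (a (b z0 z0) z0)) (d (b z0 z0) z0))) z2)) (d (c z0 (b z1 z1)) (c (b z0 z0) (b z0 z0))))) z0)) _ _ (by decide +kernel)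

theorem okA86 : CKA ⟨12288, 24576, 4096, 12288⟩ ⟨8193, 49152, 0, 4096⟩ :=
  ckA_sound (b (b (d z0 (b z3 (d (c z3 z0) z3))) (d z0 (b (d (a (c (b (d z0 (a (c z3 z0) z3)) (d z0 (a z1 z3))) z0) (c z3 z0)) (c (a (b z3 (d (c (a z1 z3) (a z1 z3)) (c (a z1 z3) (a z1 z3)))) z3) (a (b (d z0 z3) (d z0 (a z1 z3))) z3))) (d (a (c (b (d z0 (a z1 (c z3 z0))) (d z0 z1)) z0) (c (b z3 (d z0 z3)) z0)) (a (c z1 (b (d z0 z1) (d z0 z1))) z3))))) (b (d z0 (b (d (a (c (b (d z0 (a (c (b (d z0 (a (c z1 z0) z1)) (d z0 z1)) z0) z1)) (d z0 (c (b (d z0 z1) z1) z0))) z0) (c (b (d z0 (c z3 z0)) (d z0 z1)) z0)) (a (c (b (d (a (c (b z1 z1) (b (d z0 (a (c z1 z0) z1)) (d z0 (c z1 z0)))) z1) (a (c (b z1 z1) (b z1 z1)) z1)) (d (c (b z1 z1) (b (d z0 z1) (d z0 z1))) (c (b z1 z1) (b z1 z1)))) (b (d z0 (a (c (b (d z0 z1) (d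 z0 z1)) (b (d z0 (a (b z1 z1) z1)) (d z0 (b z1 z1)))) z1)) (d z0 (c (b (d z0 z1) z1) (b (d z0 (a (b z1 z1) z1)) (d z0 (b z1 z1))))))) (c (b z3 z1) (b (d z0 z3) (d z0 z1))))) (d (c (b (d z0 (c (b z1 z1) z0)) (d z0 (c z1 z0))) z0) (c (b (d (c (b z1 z1) (b z1 z1)) (c z1 (b z1 z1))) (d (c z1 (b z1 z0)) (c z1 (b z1 z0)))) (b (d z0 (c (b z1 z1) (b (d z0 z1) (d z0 z1)))) (d z0 (c (b z1 z0) (b z1 z0)))))))) z0)) _ _ (by decide +kernel)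

theorem okA87 : CKA ⟨24576, 49152, 4096, 12288⟩ ⟨0, 49152, 0, 4096⟩ :=
  ckA_sound (c (b (c (b z0 (d (b z0 (d z0 z2)) z2)) (b z0 (d (b z0 (d z0 (c (b z0 (d (b z0 z2) z2)) (b z0 (d z0 z3))))) (b z0 (d (c z2 (b z0 (d z3 (b z0 z3)))) z2))))) (c (b (d (b (d z0 z2) z2) z2) z0) (b (d (b (d z0 (c z2 (b (d z0 z3) (d z0 z3)))) (d z0 z2)) (b (d (c z2 z3) z2) z2)) (d (b (d z0 z0) z1) (b z0 z0))))) (b (b z0 (d z0 (b z0 (d (c z3 z0) z3)))) (b (d z0 (b (d (c z3 z0) z3) (d (c (b z3 (d z0 z3)) z0) (c z3 (b z3 (d z0 (a (c z1 (b z3 z1)) z3))))))) (d z0 (b (d (c (b (d z0 z3) z3) z0) (c (b z3 z3) (b (d z0 (a (c (b z1 z1) (b z1 z1)) z3)) (d z0 (c z3 (b z3 z3)))))) (d (c (b z1 z1) z0) (c (b z1 z1) (b z1 z1)))))))) _ _ (by decide +kernel)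

theorem okA88 : CKA ⟨0, 6144, 4096, 8192⟩ ⟨0, 12288, 4096, 8192⟩ :=
  ckA_sound (c (b (d (a (c (b (d (a (c (b (d (a (c (b (d (a (c (b (d (a (c (b (d (a (c (b (d (a (c n z0) z0) (a (c n z0) z0)) (d (a (c n z0) z0) (a (c n z0) z0))) z0) z0) z0) z0) z0) z0) z0) z0) z0) z0) z0) (d z0 z0)) z0) z0) z0) (d z0 z0)) z0) z0) (a z0 (b (d z0 z0) (d z0 z0)))) (d (c (b z0 z0) z0) (b (d z0 z0) (d z0 z0)))) (b z0 z0)) (c (b (d z0 (b (d z0 z0) (d z0 z0))) (d z0 (b (d z0 z0) (d z0 z0)))) z0)) (a (b (d z0 z0) (d z0 z0)) (b (d (b (d z0 z0) (d z0 z0)) z0) (d (b (d z0 z0) (d z0 z0)) z0)))) (d (c (b (d (c z0 (b z0 z0)) (b (d z0 z0) z0)) z0) (b (d (b z0 z0) (b z0 z0)) z0)) (b (d (b (d z0 z0) z0) z0) z0))) (b (d (a (b z0 z0) z0) (a z0 (b (d z0 (b (d z0 z0) (d z0 z0))) (d z0 z0)))) (d (b (d (c (b z0 z0) (b z1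 z1)) (c (b z0 z0) (b z0 z0))) z0) (b z0 z0)))) _ _ (by decide +kernel)

theorem okA89 : CKA ⟨6144, 12288, 4096, 8192⟩ ⟨0, 6144, 4096, 8192⟩ :=
  ckA_sound (b (d (c (b (d z0 (a (b (d z0 z0) (d z0 z0)) (b (d z2 z2) (d z2 z2)))) (d z0 (a (b (d z0 z0) (d z0 z0)) (b (d z2 z2) (d z0 z0))))) (b (d (a z0 z2) (a z0 z2)) z0)) (b (d (a (b (d (c (a z0 (b (d z2 z2) (d z0 z0))) z0) (a z0 (b (d z2 z2) (d z0 z0)))) (d (c (a z0 (b (d z0 z0) z0)) z0) (a z0 (b (d z0 z0) (d z0 z0))))) (b (d (c (b (d z2 z2) (d z2 z2)) z2) (b (d z2 z2) (d z2 z2))) (d (c (b (d z2 z2) (d z2 z2)) z2) (b (d z2 z2) (d z2 z2))))) z0) (d (a (b (d z0 z0) (d z0 z0)) (b (d z2 (b (d z2 z2) (d z2 z2))) (d (c (b (d z0 z0) z0) z0) (b (d z0 z0) (d z0 z0))))) z0))) (d (c (b (d z0 (a (b (d z0 z0) z0) (b (d z0 z0) z0))) (d (c z0 (b z0 z0))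 z0)) (b z0 (d (b z0 z0) (b z0 z0)))) (b (d (a (b (d z0 z0) (d z0 z0)) (b (d z0 z0) (d z0 z0))) z0) (d (b z0 z0) z0)))) _ _ (by decide +kernel)

end Vale.Agent.Lib.P154Q4
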