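import Vale.Agent.Lib.P154Q4.CkBDefs

namespace Vale.Agent.Lib.P154Q4

set_option maxRecDepth 100000
set_option exponentiation.threshold 1000

open Tr

theorem okB0 : CKB ⟨0, 4097, 0, 4096⟩ ⟨0, 8193, 0, 4096⟩ :=
  ckB_sound (c (b (d (b z0 (d z0 (b z0 z0))) (c (b z0 (d (b z0 z0) (c (b z0 z0) (b z0 z0)))) (b z0 (d (b z0 z0) (b z0 z0))))) (d z0 z0)) (b (d (b z0 (d z0 (c (b z0 z0) (b z0 z1)))) (b z0 (d (c (b z0 z0) (b z0 z1)) (c (b z0 z0) z0)))) z0)) _ _ (by decide +kernel)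

theorem okB1 : CKB ⟨4097, 8193, 0, 2048⟩ ⟨0, 4097, 0, 2048⟩ :=
  ckB_sound (b z0 (d z0 (a (b (d z0 (b z0 (d (a (b (d z0 (b z0 z0)) z0) (b (d z0 (a (b z0 z2) z0)) (d z0 (a (b z2 (d z0 (a z0 z2))) z0)))) (a (c (b (d (b z0 z0) z0) z0) (b (d (c (b z0 z0) z0) z0) z0)) (c (b (d (a (b z0 z2) z0) (c (a (b z0 z2) z0) (a (b z0 z2) z0))) (d (a (b z2 (d z0 (a z0 z2))) z0) (c (a (b z2 (d z2 z2)) z0) (a z2 z0)))) (b (d (a (c (b z0 z2) (b z0 z2)) z0) (a (c (b z0 z2) (b z0 z2)) z0)) (d (a (c (b z2 (d (a z0 z2) z2)) (b z2 (d (a z0 z2) (a z0 z2)))) z0) (a z2 z0)))))))) (d z0 (a z0 (b (d (b (d z0 (a z0 z2)) z0) (c (b (d (a z0 z2) (a z0 z2)) z0) (b (d (a z0 z2) (a z0 z2)) z0))) z0)))) (b z0 (d z0 (b z0 z2)))))) _ _ (by decide +kernel)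

theorem okB2 : CKB ⟨4097, 8193, 0, 1024⟩ ⟨0, 2049, 2048, 4096⟩ :=
  ckB_sound z0 _ _ (by decide +kernel)

theorem okB3 : CKB ⟨4097, 8193, 1024, 2048⟩ ⟨0, 2049, 2048, 3072⟩ :=
  ckB_sound (a (b (d (b z0 (d z0 (a z0 (b (d (a (b z0 z2) z0) (a (b z0 z2) z0)) z2)))) (c (b z0 (d (a z0 (b (d z0 (a (b z0 z2) z0)) z2)) (a z0 (c (b (d (a (b z0 z2) z0) (a (c (b z0 z2) (b z0 z2)) z0)) z2) (b (d (a (b z0 z2) z0) (a (b z0 z2) z0)) z2))))) (b z0 (d (a z0 (b (d (c (a (b z0 z2) z0) (a (b z0 z2) z0)) (c (a (b z0 z2) z0) (a (b z0 z2) z0))) z2)) (a z0 (b (d (c (a (b z0 z2) z0) (a (b z0 z2) z0)) (c (a (b z0 z2) z0) (a (b z0 z2) z0))) z2)))))) (d (a z0 (b (d z0 z0) z0)) z0)) (b z0 (d (b z0 z2) (c (b z0 z2) (b z0 z2))))) _ _ (by decide +kernel)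

theorem okB4 : CKB ⟨4097, 8193, 1024, 2048⟩ ⟨0, 2049, 3072, 4096⟩ :=
  ckB_sound (c (a (b (d (b z0 (d (a z0 (c (b (d (a (b z0 z2) z0) (a (c (b z0 z2) (b z0 z2)) z0)) z2) (b (d (a (b z0 z2) z0) (a (b z0 z2) z0)) z2))) (c (a z0 (b (d (c (a (b z0 z2) z0) (a (b z0 z2) z0)) (c (a (b z0 z2) z0) (a (b z0 z2) z0))) z2)) (a z0 (b (d (c (a (b z0 z2) z0) (a (b z0 z2) z0)) (c (a (b z0 z2) z0) (a (b z0 z2) z0))) z2))))) (c (b z0 (d (a z0 (b (d (c (a (b z0 z2) z0) (a (b z0 z2) z0)) (c (a (b z0 z2) z0) (a (b z0 z2) z0))) z2)) (a z0 (c (b (d (a (b z0 z2) z0) (a (c (b z0 z2) (b z0 z2)) z0)) z2) (b (d (a (b z0 z2) z0) (a (b z0 z2) z0)) z2))))) (b z0 (d (a z0 (b (d (c (a (b z0 z2) z0) (a (b z0 z2) z0)) (c (a (b z0 z2) z0) (a (b z0 z2) z0))) z2)) (a z0 (b (d (c (a (b z0 z2) z0) (a (b z0 z2) z0)) (c (a (b z0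 z2) z0) (a (b z0 z2) z0))) z2)))))) (d z0 (c (a z0 (b (d (b (d (a z0 z2) (c (a z0 z2) (a z0 z2))) z0) (c (b (d (a z0 z2) (a z0 z2)) z0) (b (d (a z0 z2) (a z0 z2)) z0))) z0)) (a z0 (b (d (b (d (c (a z0 z2) (a z0 z2)) (c (a z0 z2) (a z0 z2))) z0) (b (d (c (a z0 z2) (a z0 z2)) (c (a z0 z2) (a z0 z2))) z0)) z0))))) (b z0 (d (b z0 z2) (c (b z0 z2) (b z0 z2))))) (a (b (d (b z0 (d (c (a z0 (b (d (c (a (b z0 z2) z0) (a (b z0 z2) z0)) (c (a (b z0 z2) z0) (a (b z0 z2) z0))) z2)) (a z0 (b (d (c (a (b z0 z2) z0) (a (b z0 z2) z0)) (c (a (b z0 z2) z0) (a (b z0 z2) z0))) z2))) (c (a z0 (b (d (c (a (b z0 z2) z0) (a (b z0 z2) z0)) (c (a (b z0 z2) z0) (a (b z0 z2) z0))) z2)) (a z0 (b (d (c (a (b z0 z2) z0) (a (b z0 z2) z0)) (c (a (b z0 z2) z0) (a (b z0 z2) z0))) z2))))) (b z0 (d (c (a z0 (b (d (c (a (b z0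 z2) z0) (a (b z0 z2) z0)) (c (a (b z0 z2) z0) (a (b z0 z2) z0))) z2)) (a z0 (b (d (c (a (b z0 z2) z0) (a (b z0 z2) z0)) (c (a (b z0 z2) z0) (a (b z0 z2) z0))) z2))) (c (a z0 (b (d (c (a (b z0 z2) z0) (a (b z0 z2) z0)) (c (a (b z0 z2) z0) (a (b z0 z2) z0))) z2)) (a z0 (b (d (c (a (b z0 z2) z0) (a (b z0 z2) z0)) (c (a (b z0 z2) z0) (a (b z0 z2) z0))) z2)))))) (d z0 (a z0 (b (d (c (b (d (a z0 z2) (a z0 z2)) z0) (b (d (a z0 z2) (a z0 z2)) z0)) (c (b (d (a z0 z2) (a z0 z2)) z0) (b (d (a z0 z2) (a z0 z2)) z0))) z0)))) (b z0 (d (b z0 z2) (b z0 z2))))) _ _ (by decide +kernel)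

theorem okB5 : CKB ⟨4097, 8193, 0, 1024⟩ ⟨2049, 4097, 2048, 4096⟩ :=
  ckB_sound z0 _ _ (by decide +kernel)

theorem okB6 : CKB ⟨4097, 8193, 1024, 2048⟩ ⟨2049, 4097, 2048, 3072⟩ :=
  ckB_sound (a (b (d (c (b z0 (d (a (b (d z0 z0) z0) (b (d (a (b z0 z2) z0) (c (a (b z0 z2) z0) (a (b z0 z2) z0))) (d z2 z2))) (c (a z0 (b (d (c (a (b z0 z2) z0) (a (b z0 z2) z0)) (c (a (b z0 z2) z0) (a (b z0 z2) z0))) z2)) (a z0 (b (d (c (a (b z0 z2) z0) (a (b z0 z2) z0)) (c (a (b z0 z2) z0) (a (b z0 z2) z0))) z2))))) (b z0 (d (a z0 (c (b (d (c (a (b z0 z2) z0) (a (b z0 z2) z0)) (c (a (b z0 z2) z0) (a (b z0 z2) z0))) z2) (b (d (a (c (b z0 z2) (b z0 z2)) z0) (a (c (b z0 z2) (b z0 z2)) z0)) z2))) (a z0 (c (b (d (c (a (b z0 z2) z0) (a (b z0 z2) z0)) (c (a (b z0 z2) z0) (a (b z0 z2) z0))) z2) (b (d (a (c (b z0 z2)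 (b z0 z2)) z0) (a (c (b z0 z2) (b z0 z2)) z0)) z2)))))) (c (b z0 (d (c (a z0 (b (d (c (a (b z0 z2) z0) (a (b z0 z2) z0)) (c (a (b z0 z2) z0) (a (b z0 z2) z0))) z2)) (a z0 (b (d (c (a (b z0 z2) z0) (a (b z0 z2) z0)) (c (a (b z0 z2) z0) (a (b z0 z2) z0))) z2))) (c (a z0 (b (d (c (a (b z0 z2) z0) (a (b z0 z2) z0)) (c (a (b z0 z2) z0) (a (b z0 z2) z0))) z2)) (a z0 (b (d (c (a (b z0 z2) z0) (a (b z0 z2) z0)) (c (a (b z0 z2) z0) (a (b z0 z2) z0))) z2))))) (b z0 (d (a z0 (c (b (d (c (a (b z0 z2) z0) (a (b z0 z2) z0)) (c (a (b z0 z2) z0) (a (b z0 z2) z0))) z2) (b (d (a (c (b z0 z2) (b z0 z2)) z0) (a (c (b z0 z2) (b z0 z2)) z0)) z2))) (a z0 (c (b (d (c (a (b z0 z2) z0) (a (b z0 z2) z0)) (c (a (b z0 z2) z0) (a (b z0 z2) z0))) z2) (b (d (a (c (b z0 z2) (b z0 z2)) z0) (a (c (b z0 z2) (b z0 z2)) z0))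 z2))))))) (d (c (a z0 (b (d (b (d (a z0 z2) z0) z0) z0) z0)) (a z0 (b (d (c (b (d (a z0 z2) (a z0 z2)) z0) (b (d (a z0 z2) (a z0 z2)) z0)) (c z0 (b (d (a z0 z2) (a z0 z2)) z0))) z0))) (c z0 (a z0 (b (d (c z0 (b (d (a z0 z2) (a z0 z2)) z0)) (c z0 (b (d (a z0 z2) (a z0 z2)) z0))) z0))))) (b z0 (d (c (b z0 z2) (b z0 z2)) (c (b z0 z2) (b z0 z2))))) _ _ (by decide +kernel)

theorem okB7 : CKB ⟨4097, 8193, 1024, 2048⟩ ⟨2049, 4097, 3072, 4096⟩ :=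
  ckB_sound (a (b (d (c (b z0 (d (c (a z0 (b (d (c (a (b z0 z2) z0) (a (b z0 z2) z0)) (c (a (b z0 z2) z0) (a (b z0 z2) z0))) z2)) (a z0 (b (d (c (a (b z0 z2) z0) (a (b z0 z2) z0)) (c (a (b z0 z2) z0) (a (b z0 z2) z0))) z2))) (c (a z0 (b (d (c (a (b z0 z2) z0) (a (b z0 z2) z0)) (c (a (b z0 z2) z0) (a (b z0 z2) z0))) z2)) (a z0 (b (d (c (a (b z0 z2) z0) (a (b z0 z2) z0)) (c (a (b z0 z2) z0) (a (b z0 z2) z0))) z2))))) (b z0 (d (a z0 (c (b (d (c (a (b z0 z2) z0) (a (b z0 z2) z0)) (c (a (b z0 z2) z0) (a (b z0 z2) z0))) z2) (b (d (a (c (b z0 z2) (b z0 z2)) z0) (a (c (b z0 z2) (b z0 z2)) z0)) z2))) (a z0 (c (b (d (c (a (b z0 z2) z0) (a (b z0 z2) z0)) (c (a (b z0 z2) z0) (a (b z0 z2) z0))) z2) (b (d (a (c (b z0 z2) (b z0 z2)) z0) (a (c (b z0 z2) (b z0 z2)) z0)) z2)))))) (c (b z0 (d (c (a z0 (b (d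 (c (a (b z0 z2) z0) (a (b z0 z2) z0)) (c (a (b z0 z2) z0) (a (b z0 z2) z0))) z2)) (a z0 (b (d (c (a (b z0 z2) z0) (a (b z0 z2) z0)) (c (a (b z0 z2) z0) (a (b z0 z2) z0))) z2))) (c (a z0 (b (d (c (a (b z0 z2) z0) (a (b z0 z2) z0)) (c (a (b z0 z2) z0) (a (b z0 z2) z0))) z2)) (a z0 (b (d (c (a (b z0 z2) z0) (a (b z0 z2) z0)) (c (a (b z0 z2) z0) (a (b z0 z2) z0))) z2))))) (b z0 (d (a z0 (c (b (d (c (a (b z0 z2) z0) (a (b z0 z2) z0)) (c (a (b z0 z2) z0) (a (b z0 z2) z0))) z2) (b (d (a (c (b z0 z2) (b z0 z2)) z0) (a (c (b z0 z2) (b z0 z2)) z0)) z2))) (a z0 (c (b (d (c (a (b z0 z2) z0) (a (b z0 z2) z0)) (c (a (b z0 z2) z0) (a (b z0 z2) z0))) z2) (b (d (a (c (b z0 z2) (b z0 z2)) z0) (a (c (b z0 z2) (b z0 z2)) z0)) z2))))))) (d (c (a z0 (b (d z0 (c (b (d z0 (a z0 z2)) z0) (b (d z0 (a z0 z2)) z0)))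 z0)) (a z0 (b (d (c z0 (b (d (a z0 z2) (a z0 z2)) z0)) (c (b (d (a z0 z2) (a z0 z2)) z0) (b (d (a z0 z2) (a z0 z2)) z0))) z0))) (c (a z0 (b (d (c (b (d (a z0 z2) (a z0 z2)) z0) (b (d (a z0 z2) (a z0 z2)) z0)) (c (b (d (a z0 z2) (a z0 z2)) z0) (b (d (a z0 z2) (a z0 z2)) z0))) z0)) (a z0 (b (d (c (b (d (a z0 z2) (a z0 z2)) z0) (b (d (a z0 z2) (a z0 z2)) z0)) (c (b (d (a z0 z2) (a z0 z2)) z0) (b (d (a z0 z2) (a z0 z2)) z0))) z0))))) (b z0 (d (c (b z0 z2) (b z0 z2)) (c (b z0 z2) (b z0 z2))))) _ _ (by decide +kernel)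

theorem okB8 : CKB ⟨4097, 8193, 2048, 4096⟩ ⟨0, 4097, 0, 2048⟩ :=
  ckB_sound (b (d z0 (a z0 (b (d z0 (b z2 (d (a z2 z2) z2))) (d z0 (b (d (a (b (d z0 (a z0 z2)) z0) z2) (a (c (b (d (a z0 z2) (a z0 z2)) z0) (b (d (a z0 z2) (a z0 z2)) z0)) z2)) (d (a z0 z2) (a z0 z2))))))) z0) _ _ (by decide +kernel)

theorem okB9 : CKB ⟨4097, 8193, 2048, 4096⟩ ⟨0, 2049, 2048, 4096⟩ :=
  ckB_sound (b (d (a z0 (b z2 (d (b (d z0 (a (b (d (a z0 z2) (a z0 z2)) z0) z2)) (d z0 (a z0 z2))) (c (b (d (a (b (d z0 (a z0 z2)) z0) z2) (a (c (b (d (a z0 z2) (a z0 z2)) z0) (b (d (a z0 z2) (a z0 z2)) z0)) z2)) (d (a z0 z2) (a z0 z2))) (b (d (a (b (d (c (a z0 z2) (a z0 z2)) (c (a z0 z2) (a z0 z2))) z0) z2) (a (b (d (c (a z0 z2) (a z0 z2)) (c (a z0 z2) (a z0 z2))) z0) z2)) (d (a z0 z2) (a z0 z2))))))) (c (a z0 (b z2 (d (b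 (d (a (c (b (d (a z0 z2) (a z0 z2)) z0) (b (d (a z0 z2) (a z0 z2)) z0)) z2) (a (c (b (d (a z0 z2) (a z0 z2)) z0) (b (d (a z0 z2) (a z0 z2)) z0)) z2)) (d (a z0 z2) (a z0 z2))) (c (b (d (a (b (d (a z0 z2) (c (a z0 z2) (a z0 z2))) z0) z2) (a (c (b (d (a z0 z2) (a z0 z2)) z0) (b (d (a z0 z2) (a z0 z2)) z0)) z2)) (d (a z0 z2) (a z0 z2))) (b (d (a (b (d (c (a z0 z2) (a z0 z2)) (c (a z0 z2) (a z0 z2))) z0) z2) (a (b (d (c (a z0 z2) (a z0 z2)) (c (a z0 z2) (a z0 z2))) z0) z2)) (d (a z0 z2) (a z0 z2))))))) (a z0 (b z2 (d (b (d (c (a (b (d (c (a z0 z2) (a z0 z2)) (c (a z0 z2) (a z0 z2))) z0) z2) (a (b (d (a z0 z2) (a z0 z2)) z0) z2)) (c (a (b (d (c (a z0 z2) (a z0 z2)) (c (a z0 z2) (a z0 z2))) z0) z2) (a (b (d (a z0 z2) (a z0 z2)) z0) z2))) (d (c (a z0 z2) (a z0 z2)) (c (a z0 z2) (a z0 z2)))) (b (d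 (c (a (b (d (c (a z0 z2) (a z0 z2)) (c (a z0 z2) (a z0 z2))) z0) z2) (a (b (d (a z0 z2) (a z0 z2)) z0) z2)) (c (a (b (d (c (a z0 z2) (a z0 z2)) (c (a z0 z2) (a z0 z2))) z0) z2) (a (b (d (a z0 z2) (a z0 z2)) z0) z2))) (d (c (a z0 z2) (a z0 z2)) (c (a z0 z2) (a z0 z2))))))))) z0) _ _ (by decide +kernel)

theorem okB10 : CKB ⟨4097, 8193, 2048, 4096⟩ ⟨2049, 4097, 2048, 4096⟩ :=
  ckB_sound (b (d (a z0 (b z2 (d (c (b (d (a (b (d (a z0 z2) (c (a z0 z2) (a z0 z2))) z0) z2) (a (c (b (d (a z0 z2) (a z0 z2)) z0) (b (d (a z0 z2) (a z0 z2)) z0)) z2)) (d (a z0 z2) (a z0 z2))) (b (d (a (c (b (d (a z0 z2) (a z0 z2)) z0) (b (d (a z0 z2) (a z0 z2)) z0)) z2) (a (c (b (d (a z0 z2) (a z0 z2)) z0) (b (d (a z0 z2) (a z0 z2)) z0)) z2)) (d (a z0 z2) (a z0 z2)))) (c (b (d (a (c (b (d (a z0 z2) (a z0 z2)) z0) (b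 (d (a z0 z2) (a z0 z2)) z0)) z2) (a (c (b (d (a z0 z2) (a z0 z2)) z0) (b (d (a z0 z2) (a z0 z2)) z0)) z2)) (d (a z0 z2) (a z0 z2))) (b (d (a (c (b (d (a z0 z2) (a z0 z2)) z0) (b (d (a z0 z2) (a z0 z2)) z0)) z2) (a (c (b (d (a z0 z2) (a z0 z2)) z0) (b (d (a z0 z2) (a z0 z2)) z0)) z2)) (d (a z0 z2) (a z0 z2))))))) (a z0 (b z2 (d (c (b (d (a (c (b (d (a z0 z2) (a z0 z2)) z0) (b (d (a z0 z2) (a z0 z2)) z0)) z2) (a (c (b (d (a z0 z2) (a z0 z2)) z0) (b (d (a z0 z2) (a z0 z2)) z0)) z2)) (d (a z0 z2) (a z0 z2))) (b (d (a (c (b (d (a z0 z2) (a z0 z2)) z0) (b (d (a z0 z2) (a z0 z2)) z0)) z2) (a (c (b (d (a z0 z2) (a z0 z2)) z0) (b (d (a z0 z2) (a z0 z2)) z0)) z2)) (d (a z0 z2) (a z0 z2)))) (c (b (d (a (c (b (d (a z0 z2) (a z0 z2)) z0) (b (d (a z0 z2) (a z0 z2)) z0)) z2) (a (c (b (d (a z0 z2) (a z0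 z2)) z0) (b (d (a z0 z2) (a z0 z2)) z0)) z2)) (d (a z0 z2) (a z0 z2))) (b (d (a (c (b (d (a z0 z2) (a z0 z2)) z0) (b (d (a z0 z2) (a z0 z2)) z0)) z2) (a (c (b (d (a z0 z2) (a z0 z2)) z0) (b (d (a z0 z2) (a z0 z2)) z0)) z2)) (d (a z0 z2) (a z0 z2)))))))) z0) _ _ (by decide +kernel)

theorem okB11 : CKB ⟨4097, 8193, 0, 1024⟩ ⟨4097, 8193, 0, 2048⟩ :=
  ckB_sound z0 _ _ (by decide +kernel)

theorem okB12 : CKB ⟨4097, 8193, 1024, 2048⟩ ⟨4097, 8193, 0, 1024⟩ :=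
  ckB_sound z0 _ _ (by decide +kernel)

theorem okB13 : CKB ⟨4097, 6145, 1024, 1536⟩ ⟨4097, 6145, 1024, 1536⟩ :=
  ckB_sound (b z0 (d z0 (a (c (b (d (b z0 z0) (c (b z0 z0) (b z0 z0))) z0) (b (d (c (b z0 z1) z0) (c (b z0 (d z1 (c z0 z1))) z0)) z1)) (c (b (d (a (b z0 (d z0 (a z2 z0))) z0) (c (a (b z0 (d (a z2 z0) z2)) z0) (a (b z0 z2) z0))) (d (a (b (d z0 (a (b z2 (d (a z0 z2) (c (a z0 z2) z2))) z0)) (d z0 (a z0 z2))) z0) (c (a (b (d (a (b z2 (d z0 z2)) z0) z2) (d (a z0 z2) (c (a z0 z2) (a z0 z2)))) z0) (a (b (d (c (a z2 z0) z2) z2) (d (c (a z0 z2) (a z0 z2)) (c (a z0 z2) (a z0 z2)))) z0)))) (b (d (a (c (b z0 (d z0 (a z3 z0))) z0) z0) (a (c (b z0 (d (a (c (b (d z3 (a z3 z0)) z3) z0) z0) (a (c z2 z3) z0))) z0) z0)) (d (a (c (b (d z0 (a (c (b z3 (d (a z1 z3) (a z1 z3))) z0) z0)) (d z0 (a z1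 z3))) z0) z0) (a (c (b (d (a (c (b z3 (d (a z1 z3) (a z1 z3))) z0) z0) (a (c z2 z3) z0)) (d (a z1 z3) (a z1 z3))) z0) z0))))))) _ _ (by decide +kernel)

theorem okB14 : CKB ⟨4097, 6145, 1024, 1536⟩ ⟨4097, 6145, 1536, 2048⟩ :=
  ckB_sound (c (b z0 (d (a (c (b (d (b z0 z0) (c (b z0 z0) (b z0 z0))) z0) (b (d (b z0 z0) (b z0 z0)) z0)) (c (b (d (a (b z0 z2) z0) (a (c (b z0 z2) (b z0 z2)) z0)) (d (a (b z2 (d (a z0 z2) (a z0 z2))) z0) (a (c (b z2 (d (a z0 z2) (a z0 z2))) (b z2 (d (a z0 z2) (a z0 z2)))) z0))) (b (d (a (b z0 z2) z0) (a (b z0 z2) z0)) (d (a (b z2 (d (c (a z0 z2) (a z0 z2)) (c (a z0 z2) (a z0 z2)))) z0) (a (b z2 (d (c (a z0 z2) (a z0 z2)) (c (a z0 z2) (a z0 z2)))) z0))))) (a (c (b (d (c (b z0 z0) (b z0 z0)) z0) z0) (b (d (b z0 z0) (b z0 z0)) z0)) (c (b (d (a (c (b z0 z2) (b z0 z2))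 z0) (a (c (b z0 z2) (b z0 z2)) z0)) (d (a (c (b z2 (d (a z0 z2) (a z0 z2))) (b z2 (d (a z0 z2) (a z0 z2)))) z0) (a (c (b z2 (d (a z0 z2) z2)) (b z2 (d (a z0 z2) (a z0 z2)))) z0))) (b (d (a (b z0 z2) z0) (a (b z0 z2) z0)) (d (a (b z2 (d (c (a z0 z2) (a z0 z2)) (c (a z0 z2) (a z0 z2)))) z0) (a (b z2 (d (c (a z0 z2) (a z0 z2)) (c (a z0 z2) (a z0 z2)))) z0))))))) (b z0 (d (a (b (d (c (b z0 z0) (b z0 z1)) (c (b z0 z0) (b z0 (d z1 (c z0 z1))))) z0) (b (d (c (a (b z0 z2) z0) (a (b z0 (d z3 (c (a z3 z0) z0))) z0)) (c (a (b z0 z2) z0) (a (b z0 (d (c (a (b (d (c z2 z3) (c z2 z3)) z3) z0) z3) (c z2 z3))) z0))) (d (c (a (b z2 (d (c (a z0 z2) (a z0 z2)) (c (a z0 z2) (a z0 z2)))) z0) (a (b (d z3 (c (a (b z3 (d z3 (c (a z1 z3) z3))) z0) z0)) (d (c (a z1 z3) z0) (c (a z1 z3) z0))) z0)) (c (a (b z2 (d (c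 (a z0 z2) (a z0 z2)) (c (a z0 z2) (a z0 z2)))) z0) (a (b (d (c (a (b (d z3 (c z2 z3)) (d (c z2 z3) (c z2 z3))) z0) z3) (c z2 z3)) (d (c (a z1 z3) z3) (c (a z0 z2) z3))) z0))))) (a (b (d (c (b z0 z0) (b z0 (d (c z0 z1) (c z0 z1)))) (c (b z0 z0) (b z0 z0))) z0) (b (d (c (a (b z0 z2) z0) (a (b z0 (d (c z2 z3) (c z2 z3))) z0)) (c (a (b z0 z2) z0) (a (b z0 z2) z0))) (d (c (a (b z2 (d (c (a z0 z2) (a z0 z2)) (c (a z0 z2) (a z0 z2)))) z0) (a (b (d (c z2 z3) (c z2 z3)) (d (c (a z0 z2) (a z1 z3)) (c (a z0 z2) (a z1 z3)))) z0)) (c (a (b z2 (d (c (a z0 z2) (a z0 z2)) (c (a z0 z2) (a z0 z2)))) z0) (a (b z2 (d (c (a z0 z2) (a z1 z3)) (c (a z0 z2) (a z1 z3)))) z0)))))))) _ _ (by decide +kernel)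

end Vale.Agent.Lib.P154Q4
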