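import Vale.Agent.Lib.P154Q4.CkBDefs

namespace Vale.Agent.Lib.P154Q4

set_option maxRecDepth 100000
set_option exponentiation.threshold 1000

open Tr

theorem okB15 : CKB ⟨4097, 6145, 1536, 2048⟩ ⟨4097, 6145, 1024, 2048⟩ :=
  ckB_sound (d (a z0 (b (d z0 (c (b (d (a z0 z2) (a z0 z2)) (d (a z0 (b (d z0 z2) (d z0 (a z0 z2)))) z0)) (b (d (a z1 z3) (a z1 z3)) (d (a z1 (c (b (d z0 z3) (d z0 (a z1 z3))) z0)) (a z1 (c (b (d (a (c (b z3 (d z3 (a z1 z3))) z0) z3) (a (c z2 z3) z3)) (d (a z1 z3) (a z1 z3))) z0)))))) (d z0 z0))) (a z0 (c (b (d (c (b (d (a z0 z2) (a z0 z2)) z0) (b (d (a z0 z2) (a z0 z2)) z0)) (c (b (d (a z0 z2) (a z0 z2)) z0) (b (d (a z0 z2) (a z0 z2)) z0))) z0) (b (d (b (d (a z0 z2) (a z0 z2)) (d (a z0 (c (b z2 (d (c (a z0 z2) (a z0 z2)) (c (a z0 z2) (a z0 z2)))) (b z3 (d (a z1 z3)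 (a z1 z3))))) z0)) (b (d (a z0 z2) (a z0 z2)) z0)) z0)))) _ _ (by decide +kernel)

theorem okB16 : CKB ⟨4097, 6145, 1024, 2048⟩ ⟨6145, 8193, 1024, 2048⟩ :=
  ckB_sound (b (d z0 (b z0 (d z0 (c (a z1 (b (d (c (a z3 z0) z0) (c (a (b z0 z3) z0) z0)) z3)) z0)))) (d z0 (a z1 (b (d z0 (c (b (d z1 (a z1 z3)) z1) z0)) z1)))) _ _ (by decide +kernel)

theorem okB17 : CKB ⟨6145, 8193, 1024, 2048⟩ ⟨4097, 8193, 1024, 2048⟩ :=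
  ckB_sound (c (b z0 (d (b z0 z2) (c (b z0 z2) (b z0 z2)))) (b z0 (d z0 (b z0 z3)))) _ _ (by decide +kernel)

theorem okB18 : CKB ⟨4097, 8193, 0, 1024⟩ ⟨4097, 8193, 2048, 4096⟩ :=
  ckB_sound z0 _ _ (by decide +kernel)

theorem okB19 : CKB ⟨4097, 6145, 1024, 2048⟩ ⟨4097, 6145, 2048, 3072⟩ :=
  ckB_sound (b (d (c (b z0 (d (a z0 (c (b (d (a (c (b z0 z2) (b z0 z2)) z0) (a (c (b z0 z2) (b z0 z2)) z0)) (d (a (c z2 (b z2 (d (a z0 z2) z2))) z0) z2)) (b (d (a (b z0 z2) z0) (a (b z0 z2) z0)) (d (a (b z2 (d (c (a z0 z2) (a z0 z2)) (c (a z0 z2) (a z0 z2)))) z0) (a (b z2 (d (c z2 (a z0 z2)) z2)) z0))))) (a z0 (c (b (d (a (c (b z0 z2) (b z0 z2)) z0) (a (c (b z0 z2) (b z0 z2)) z0)) z2) (b (d (a (b z0 z2) z0) (a (b z0 z2) z0)) (d (a z2 z0) z2)))))) (b z0 (d (a (b (d (c (b z0 z0) (b z0 z0)) (c z0 (b z0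 z0))) z0) (b (d (c (a (b z0 z2) z0) (a (b z0 z2) z0)) (c (a (b z0 z2) z0) (a (b z0 z2) z0))) (d (c (a (b z2 (d (c (a z0 z2) (a z0 z2)) (c (a z0 z2) (a z0 z2)))) z0) (a (b z2 (d (c (a z0 z2) (a z0 z2)) (c (a z0 z2) (a z0 z2)))) z0)) (c (a (b z2 (d (c (a z0 z2) (a z0 z2)) (c (a z0 z2) (a z0 z2)))) z0) (a (b z2 (d (c (a z0 z2) (a z0 z2)) (c (a z0 z2) (a z0 z2)))) z0))))) (a z0 (b (d (c (a (b z0 z2) z0) (a (b z0 z2) z0)) (c (a (b z0 z2) z0) (a (b z0 z2) z0))) (d (c (a (b z2 (d (c z2 (a z0 z2)) z2)) z0) (a (b z2 (d (c (a z0 z2) (a z0 z2)) (c (a z0 z2) (a z0 z2)))) z0)) (c (a z2 z0) (a (b z2 (d (c z2 (a z0 z2)) z2)) z0)))))))) (c (b z0 (d (a z0 (c (b (d (a (c (b z0 z2) (b z0 z2)) z0) (a (c (b z0 z2) (b z0 z2)) z0)) z2) (b (d (a (b z0 z2) z0) (a (b z0 z2) z0)) z2))) (a z0 (c (b (d (a (c (b z0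 z2) (b z0 z2)) z0) (a (c (b z0 z2) (b z0 z2)) z0)) z2) (b (d (a (b z0 z2) z0) (a (b z0 z2) z0)) z2))))) (b z0 (d (a z0 (b (d (c (a (b z0 z2) z0) (a (b z0 z2) z0)) (c (a (b z0 z2) z0) (a (b z0 z2) z0))) (d (c z2 (a z2 z0)) z2))) (a z0 (b (d (c (a (b z0 z2) z0) (a (b z0 z2) z0)) (c (a (b z0 z2) z0) (a (b z0 z2) z0))) z2)))))) (d (a z0 (c (b (d (c (b (d (a z0 z2) (a z0 z2)) z0) (b (d (a z0 z2) (a z0 z2)) z0)) (c (b (d (a z0 z2) (a z0 z2)) z0) (b (d (a z0 z2) (a z0 z2)) z0))) z0) (b (d (b (d (a z0 z2) (a z0 z2)) z0) (b (d (a z0 z2) (a z0 z2)) z0)) z0))) (a z0 (c (b (d (c (b (d (a z0 z2) (a z0 z2)) z0) (b (d (a z0 z2) (a z0 z2)) z0)) (c (b (d (a z0 z2) (a z0 z2)) z0) (b (d (a z0 z2) (a z0 z2)) z0))) z0) (b (d (b (d (a z0 z2) (a z0 z2)) z0) (b (d (a z0 z2) (a z0 z2)) z0)) z0))))) _ _ (by decide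 +kernel)

theorem okB20 : CKB ⟨4097, 6145, 1024, 2048⟩ ⟨6145, 8193, 2048, 3072⟩ :=
  ckB_sound (b (d (b z0 (d (c (a (b (d z1 (c (b z0 z1) z1)) z1) (b (d (c (a (b z0 z3) z0) z3) (c (a (b z0 (d z3 (c (a z3 z0) z3))) z0) z3)) (d (c (a (b z3 (d z3 (c (a z1 z3) z3))) z0) z3) (c (a (b z3 (d (c (a z1 z3) z3) (c (a z1 z3) z3))) z0) z3)))) z0) (c (a (b (d (c (b z0 z1) z1) (c z0 z1)) z1) (b (d (c (a (b z0 (d (c (a z3 z0) z3) (c z2 z3))) z0) (a z3 z0)) (c (a (b z0 z2) z0) (a z3 z0))) (d (c (a (b (d (c (a (b z3 (d z3 (c z2 z3))) z0) z3) (c z2 z3)) (d (c (a z1 z3) z3) (c (a z0 z2) z3))) z0) z3) (c (a (b z2 (d (c (a z0 z2) (a z1 z3)) (c (a z0 z2) (a z1 z3)))) z0) z3)))) z1))) (b z0 (d (c (a (b (d (c z0 z1) z0) (d (c z0 z1) z0)) (b (d (c (a (b z0 z2) z0) (a (b z0 z3) z0)) (c (a (b z0 z2) z0) (a (b z0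 z3) z0))) (d (c (a z2 z0) z3) (c (a z2 z0) (a (b z3 (d z3 (c (a z1 z3) z3))) z0))))) (a z1 z3)) (c (a z0 (b (d (c (a (b z0 z2) z0) (a (b z0 (d z3 (c z2 z3))) z0)) (c (a (b z0 z2) z0) (a (b z0 z2) z0))) (d (c z2 (a (b (d z3 (c z2 z3)) (d (c (a z1 z3) z3) (c z2 z3))) z0)) z2))) (a z1 (b (d (c (a z3 z0) z3) (c (a z3 z0) z3)) z3)))))) (d (a z1 (b (d (c (b (d (a z1 z3) (a z1 z3)) (d z1 (a z1 (c (b z3 (d (a z1 z3) (a z1 z3))) z3)))) z0) (c (b (d (a z1 z3) (a z1 (c z2 z3))) (d (a z1 (c (b (d (a z3 z3) (a (c z2 z3) z3)) (d (a z1 z3) (a z1 z3))) z3)) (a z1 (c z2 z3)))) z1)) (d z1 (c (b (d z1 (a z1 (c (b (d (a z1 z3) (a z0 z2)) (d (a z1 z3) (a z0 z2))) (b z3 (d z3 (a z1 z3)))))) z1) z1)))) (a z1 (b (d (c (b (d (a (c z0 z1) (c z2 z3)) (a z0 z2)) (d (a z1 (c z2 z3)) z0)) z1) (c (b (d (a z0 z2) (a z0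 z2)) z0) z1)) (d (c (b (d (a z1 (c (b (d (a z0 z2) (a z0 z2)) (d (a z0 z2) (a z0 z2))) (b (d z3 (a z1 z3)) (d (a z1 z3) (a z1 z3))))) z0) (d z1 z0)) z1) (c z0 z1)))))) _ _ (by decide +kernel)

theorem okB21 : CKB ⟨6145, 8193, 1024, 2048⟩ ⟨4097, 8193, 2048, 3072⟩ :=
  ckB_sound (c (b z0 (d (c (b z0 z2) (b z0 z2)) (c (b z0 z2) (b z0 z2)))) (b z0 (d (b z0 z3) (b z0 z3)))) _ _ (by decide +kernel)

theorem okB22 : CKB ⟨4097, 6145, 1024, 2048⟩ ⟨4097, 6145, 3072, 4096⟩ :=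
  ckB_sound (b (d (c (b z0 (d (a z0 (c (b (d (a (c (b z0 z2) (b z0 z2)) z0) (a (c (b z0 z2) (b z0 z2)) z0)) z2) (b (d (a (b z0 z2) z0) (a (b z0 z2) z0)) z2))) (a z0 (c (b (d (a (c (b z0 z2) (b z0 z2)) z0) (a (c (b z0 z2) (b z0 z2)) z0)) z2) (b (d (a (b z0 z2) z0) (a (b z0 z2) z0)) z2))))) (b z0 (d (a z0 (b (d (c (a (b z0 z2) z0) (a (b z0 z2) z0)) (c (a (b z0 z2) z0) (a (b z0 z2) z0))) z2)) (a z0 (b (d (c (a (b z0 z2) z0) (a (b z0 z2) z0)) (c (a (b z0 z2) z0) (a (b z0 z2) z0))) z2))))) (c (b z0 (d (a z0 (c (b (d (a (c (b z0 z2) (b z0 z2)) z0) (a (c (b z0 z2) (b z0 z2)) z0)) z2) (b (d (a (b z0 z2) z0) (a (b z0 z2) z0)) z2))) (a z0 (c (b (d (a (c (b z0 z2) (b z0 z2)) z0) (a (c (b z0 z2) (b z0 z2)) z0)) z2) (b (d (a (b z0 z2) z0) (a (b z0 z2) z0)) z2))))) (b z0 (d (a z0 (b (d (c (a (b z0 z2)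 z0) (a (b z0 z2) z0)) (c (a (b z0 z2) z0) (a (b z0 z2) z0))) z2)) (a z0 (b (d (c (a (b z0 z2) z0) (a (b z0 z2) z0)) (c (a (b z0 z2) z0) (a (b z0 z2) z0))) z2)))))) (d (a z0 (c (b (d (c (b (d (a z0 z2) (a z0 z2)) z0) (b (d (a z0 z2) (a z0 z2)) z0)) (c (b (d (a z0 z2) (a z0 z2)) z0) (b (d (a z0 z2) (a z0 z2)) z0))) z0) (b (d (b (d (a z0 z2) (a z0 z2)) z0) (b (d (a z0 z2) (a z0 z2)) z0)) z0))) (a z0 (c (b (d (c (b (d (a z0 z2) (a z0 z2)) z0) (b (d (a z0 z2) (a z0 z2)) z0)) (c (b (d (a z0 z2) (a z0 z2)) z0) (b (d (a z0 z2) (a z0 z2)) z0))) z0) (b (d (b (d (a z0 z2) (a z0 z2)) z0) (b (d (a z0 z2) (a z0 z2)) z0)) z0))))) _ _ (by decide +kernel)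

theorem okB23 : CKB ⟨4097, 6145, 1024, 2048⟩ ⟨6145, 8193, 3072, 4096⟩ :=
  ckB_sound (b (d (b z0 (d (c (a z0 (b (d (c (a (b z0 z2) z0) (a (b z0 z2) z0)) (c (a (b z0 z2) z0) (a (b z0 z2) z0))) z2)) (a z1 (b (d (c (a (b z0 z3) z0) z3) (c (a (b z0 z3) z0) z3)) (d z3 (c (a z3 z0) z3))))) (c (a z0 (b (d (c (a (b z0 z2) z0) (a (b z0 z2) z0)) (c (a (b z0 z2) z0) (a (b z0 z2) z0))) z2)) (a (b (d (c (b z0 z1) z1) (c z0 z1)) z1) (b (d (c (a (b z0 (d z3 (c z2 z3))) z0) (a z3 z0)) (c (a (b z0 z2) z0) (a z3 z0))) (d (c (a (b z3 (d (c (a z1 z3) z3) (c z2 z3))) z0) z3) (c z2 z3))))))) (b z0 (d (c (a z0 (b (d (c (a (b z0 z2) z0) (a (b z0 z2) z0)) (c (a (b z0 z2) z0) (a (b z0 z2) z0))) z2)) (a z0 (b (d (c (a (b z0 z2) z0) (a (b z0 z3) z0)) (c (a (b z0 z2) z0) (a (b z0 z3) z0))) z2))) (c (a z0 (b (d (c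 (a (b z0 z2) z0) (a (b z0 z2) z0)) (c (a (b z0 z2) z0) (a (b z0 z2) z0))) z2)) (a z0 (b (d (c (a (b z0 z2) z0) (a (b z0 z2) z0)) (c (a (b z0 z2) z0) (a (b z0 z2) z0))) z2)))))) (d (a z0 (b (d (c (b (d (a z0 z2) (a z0 z2)) z0) (b (d (a z1 z3) (a z1 z3)) z1)) (c (b (d (a z0 z2) (a z0 z2)) z0) (b (d (a z1 z3) (a z1 z3)) (d (a z1 (c (b z3 (d (a z1 z3) (a z1 z3))) z3)) (a z1 (c z2 z3)))))) z0)) (a z0 (b (d (c (b (d (a z0 z2) (a z0 z2)) z0) (b (d (a z1 (c z2 z3)) (a z0 z2)) z0)) (c (b (d (a z0 z2) (a z0 z2)) z0) (b (d (a z0 z2) (a z0 z2)) z0))) z0)))) _ _ (by decide +kernel)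

theorem okB24 : CKB ⟨6145, 8193, 1024, 2048⟩ ⟨4097, 8193, 3072, 4096⟩ :=
  ckB_sound (c (b z0 (d (c (b z0 z2) (b z0 z2)) (c (b z0 z2) (b z0 z2)))) (b z0 (d (b z0 z2) (b z0 z2)))) _ _ (by decide +kernel)

theorem okB25 : CKB ⟨4097, 8193, 2048, 4096⟩ ⟨4097, 8193, 0, 2048⟩ :=
  ckB_sound (b (d z0 (a z0 (c (b (d (b z2 (d z0 (a (c (b z2 (d (a z0 z2) (a z0 z2))) (b z3 (d (a z1 z3) (a z1 z3)))) z2))) (c (b z2 (d (a z2 z2) z2)) (b z2 (d (a (b z2 (d (c (a z0 z2) (a z1 z3)) (c (a z0 z2) (a z1 z3)))) z2) (a (b z2 (d (c z2 (a z1 z3)) (c z2 (a z0 z2)))) z2))))) (d (b (d z0 (a (c (b (d (a z0 z2) (a z0 z2)) z0) (b (d (a z1 z3) (a z1 z3)) z1)) z2)) (d z0 (a z0 z2))) (c (b (d (a (c (b (d (a z0 z2) (a z0 z2)) z0) (b (d (a z0 z2) (a z0 z2)) z0)) z2) (a (c (b (d (a z0 z2) (a z0 z2)) z0) (b (d (a z0 z2) (a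 z0 z2)) z0)) z2)) (d (a z0 z2) (a z0 z2))) (b (d (a (b (d (c (a z0 z2) (a z1 z3)) (c (a z0 z2) (a z1 z3))) z0) z2) (a (b (d (c (a z0 z2) (a z1 z3)) (c (a z0 z2) (a z0 z2))) z0) z2)) (d (a z0 z2) (a z0 z2)))))) (b (d z0 z3) (d z0 (b (d z0 (a (c (b (d z3 (a z1 z3)) z1) z0) z3)) (d z0 (a z1 z3)))))))) (d z0 (a z0 (c z0 z1)))) _ _ (by decide +kernel)

theorem okB26 : CKB ⟨4097, 8193, 2048, 3072⟩ ⟨4097, 8193, 2048, 3072⟩ :=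
  ckB_sound (a z0 (c (b (d (c z2 (b z2 (d (a z2 z2) (a z2 z2)))) z2) (d (c (b (d (a (c (b (d (a z0 z2) (a z0 z2)) z0) (b (d (a z0 z2) (a z0 z2)) z0)) z2) (a (c (b (d (a z0 z2) (a z0 z2)) z0) (b (d (a z0 z2) (a z0 z2)) z0)) z2)) (d (a z0 z2) (a z0 z2))) (b (d (a (b (d (c (a z0 z2) (a z0 z2)) (c (a z0 z2) (a z0 z2))) z0) z2) (a (b (d (c (a z0 z2) (a z0 z2)) (c (a z0 z2) (a z0 z2))) z0) z2)) (d (a z0 z2) (a z0 z2)))) (c (b (d (a (c (b (d (a z0 z2) (a z0 z2)) z0) (b (d (a z0 z2) (a z0 z2)) z0)) z2) (a (c (b (d (a z0 z2) (a z0 z2)) z0) (b (d (a z0 z2) (a z0 z2)) z0)) z2)) (d (a z0 z2) (a z0 z2))) (b (d (a (b (d (c (a z0 z2) (a z0 z2)) (c (a z0 z2) (a z0 z2))) z0) z2) (a (b (d (c (a z0 z2) (a z0 z2)) (c (a z0 z2) (a z0 z2))) z0) z2)) (d (a z0 z2) (a z0 z2)))))) (b (d (b z3 (d (a (c (b z3 (d z3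 (a z1 z3))) z0) z3) (a (c (b (d z3 (a z3 z3)) (d (a z1 z3) (a z1 z3))) z3) z3))) (b (d z3 (a (c z2 z3) z0)) (d (a (c (b (d (a (c z2 z3) z3) z2) (d (a z1 z3) z2)) z3) z3) (a (c z2 z3) z3)))) (d (b (d (a (c (b (d (a z1 z3) (a z1 z3)) z1) z0) z3) (a (c (b (d (a z1 z3) (a z1 z3)) z1) z3) z3)) (d (a z1 z3) (a z1 z3))) (b (d (a (c (b (d (a z1 z3) (a z0 z2)) z1) (b z3 z1)) z3) (a (c (b (d (a z0 z2) (a z0 z2)) z0) (b (d z3 (a z1 z3)) z1)) z3)) (d (a z1 z3) (a z1 z3))))))) _ _ (by decide +kernel)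

theorem okB27 : CKB ⟨4097, 8193, 2048, 3072⟩ ⟨4097, 8193, 3072, 4096⟩ :=
  ckB_sound (a z0 (c (b z2 (d (c (b (d (a (c (b (d (a z0 z2) (a z0 z2)) z0) (b (d (a z0 z2) (a z0 z2)) z0)) z2) (a (c (b (d (a z0 z2) (a z0 z2)) z0) (b (d (a z0 z2) (a z0 z2)) z0)) z2)) (d (a z0 z2) (a z0 z2))) (b (d (a (b (d (c (a z0 z2) (a z0 z2)) (c (a z0 z2) (a z0 z2))) z0) z2) (a (b (d (c (a z0 z2) (a z0 z2)) (c (a z0 z2) (a z0 z2))) z0) z2)) (d (a z0 z2) (a z0 z2)))) (c (b (d (a (c (b (d (a z0 z2) (a z0 z2)) z0) (b (d (a z0 z2) (a z0 z2)) z0)) z2) (a (c (b (d (a z0 z2) (a z0 z2)) z0) (b (d (a z0 z2) (a z0 z2)) z0)) z2)) (d (a z0 z2) (a z0 z2))) (b (d (a (b (d (c (a z0 z2) (a z0 z2)) (c (a z0 z2) (a z0 z2))) z0) z2) (a (b (d (c (a z0 z2) (a z0 z2)) (c (a z0 z2) (a z0 z2))) z0) z2)) (d (a z0 z2) (a z0 z2))))))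 (b (d (b z2 (d (a (c z2 (b z3 (d z3 (a z1 z3)))) z2) (a z2 z2))) (b z2 (d (a z2 z2) (a z2 z2)))) (d (b (d (a (c (b (d (a z0 z2) (a z0 z2)) z0) (b (d (a z1 z3) (a z1 z3)) z1)) z2) (a (c (b (d (a z0 z2) (a z0 z2)) z0) (b (d (a z1 z3) (a z1 z3)) z1)) z2)) (d (a z0 z2) (a z0 z2))) (b (d (a (c (b (d (a z0 z2) (a z0 z2)) z0) (b (d (a z1 z3) (a z0 z2)) z0)) z2) (a (c (b (d (a z0 z2) (a z0 z2)) z0) (b (d (a z0 z2) (a z0 z2)) z0)) z2)) (d (a z0 z2) (a z0 z2))))))) _ _ (by decide +kernel)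

theorem okB28 : CKB ⟨4097, 8193, 3072, 4096⟩ ⟨4097, 8193, 2048, 4096⟩ :=
  ckB_sound (d (a z0 (c z0 (b (d (b (d z1 (a z1 z3)) z1) (b (d (a z1 z3) (a z1 z3)) (d z1 (a z1 (c z2 z3))))) z1))) (a z0 (c (b (d z0 (c z0 (b (d z0 (a z0 z2)) z0))) z0) (b (d (b (d (a z0 z2) (a z0 z2)) z0) (b (d (a z0 z2) (a z0 z2)) z0)) z0)))) _ _ (by decide +kernel)

theorem okB29 : CKB ⟨0, 8193, 0, 4096⟩ ⟨8193, 49152, 0, 4096⟩ :=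
  ckB_sound (a (b (d z0 (b z0 z1)) z1) (b (d z0 (b z0 (d (c (a (b (d z0 (c (b z0 z1) z0)) z1) (b z0 (d z0 (c (b z0 z3) z0)))) z0) (c (a (b (d (c (b z0 z1) z1) (c (b z0 (d (c (a z1 (b (d z3 (c (a z3 z0) z3)) z3)) z1) (c (a z1 (b (d (c (a z3 z0) z3) (c (a (b z0 z3) z0) z3)) z3)) z1))) z1)) (d z1 (c (a z1 (b (d z1 (c (b (d z1 (a z1 z3)) z1) z1)) z1)) z1))) (b z0 (d (c (b z0 z3) z3) (c (b z0 z3) (b z0 z3))))) (a z1 (b z0 z3)))))) (d z0 (b (d (c (a z1 (b z3 (d z0 z3))) z0) (c (a z1 (b z3 (d (c (b z3 (d (a z1 z3) (a z1 z3))) z3) (c (b (d (a (c (b z3 z1) z3) z3) (a (c (b (d (a z1 z3) (a z1 z3)) z1) z3) z3)) (d (a z1 z3) (a z1 z3))) z3)))) z1)) (d z1 (c (a z1 (b (d z1 (c (b (d z1 (a z1 z3)) z1) z1)) z1)) z1)))))) _ _ (by decide +kernel)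

end Vale.Agent.Lib.P154Q4
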