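import Vale.Agent.Lib.P154Q4.CkBDefs

namespace Vale.Agent.Lib.P154Q4

set_option maxRecDepth 100000
set_option exponentiation.threshold 1000

open Tr

theorem okB150 : CKB ⟨9216, 12288, 4608, 5120⟩ ⟨9600, 12288, 7168, 7680⟩ :=
  ckB_sound (b (d z2 (a z2 z2)) (d (a (c (b (d z2 (a z2 z2)) (d (a z0 z2) (a z0 z2))) (b z2 (d (a z0 z2) (a z0 z2)))) z2) (a (c (b (d (a (c (b z2 (d z2 (a z0 z2))) z2) z2) (a (c (b (d z2 (a z2 z2)) (d (a z0 z2) (a z0 z2))) (b z2 (d z2 (a z0 z2)))) z2)) (d (a (c (b (d (a z0 z2) (a z0 z2)) z0) z0) z2) (a (c (b (d (a z0 z2) (a z0 z2)) (d (a z0 z2) (a z0 z2))) (b (d (a z0 z2) (a z0 z2)) z0)) z2))) (b (d z2 (a z2 z2)) (d (a z0 z2) (a z0 z2)))) z2))) _ _ (by decide +kernel)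

theorem okB151 : CKB ⟨9216, 12288, 4608, 5120⟩ ⟨6144, 12288, 7680, 8192⟩ :=
  ckB_sound (b (d (a (c (b (d z2 z2) (d (a (c (b (d z2 z2) (d (a z2 z2) (a z2 z2))) z2) z2) (a (b (d z2 z2) (d (a (c (b z2 (d z2 z2)) z2) z2) (a z2 z2))) z2))) z2) z2) (a (b (d (a z2 z2) (a z2 z2)) (d (a (c (b (d z2 z2) (d (a z2 z2) (a z2 z2))) z2) z2) (a (b (d z2 z2) (d (a z2 z2) (a z2 z2))) z2))) z2)) (d (a (c (b (d (a (c (b (d (a (c (b (d z2 z2) (d (a z0 z2) (a z0 z2))) z2) z2) (a (b (d z2 z2) (d (a z0 z2) (a z0 z2))) z2)) (d (a (c (b (d z0 z0) z0) z0) z2) (a (b (d z0 z0) z0) z2))) (b (d z2 (a z2 z2)) (d (a z0 z2) (a z0 z2)))) z2) (a (b (d (a (c (b (d z2 z2) (d (a z0 z2) (a z0 z2))) z2) z2) (a (b (d z2 z2) (d (a z0 z2) (a z0 z2))) z2)) (d (a (c (b (d z0 z0) z0) z0) z2) (a (b (d z0 z0) z0) z2))) z2)) (d (a (c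 (b (d (a z0 z2) (a z0 z2)) (d (a z0 (c (b z2 (d z2 z2)) z2)) (a z0 (b z2 (d z2 z2))))) (b (d (a z0 z2) (a z0 z2)) (d (a z0 z2) (a z0 z2)))) z2) (a (b (d (a z0 z2) (a z0 z2)) (d (a z0 (c (b z2 (d z2 z2)) z2)) (a z0 (b z2 (d z2 z2))))) z2))) (b (d (a (c (b z2 (d (a z0 z2) (a z0 z2))) z2) z2) (a (c (b (d z2 (a z2 z2)) (d (a z0 z2) (a z0 z2))) (b z2 (d z2 (a z0 z2)))) z2)) (d (a (c (b (d (a z0 z2) (a z0 z2)) z0) z0) z2) (a (c (b (d (a z0 z2) (a z0 z2)) (d (a z0 z2) (a z0 z2))) (b (d (a z0 z2) (a z0 z2)) z0)) z2)))) z2) (a (b (d (a (c (b (d (a (c (b (d z2 z2) (d (a z0 z2) (a z0 z2))) z2) z2) (a (b (d z2 z2) (d (a z0 z2) (a z0 z2))) z2)) (d (a (c (b (d z0 z0) z0) z0) z2) (a (b (d z0 z0) z0) z2))) (b z2 (d (a z0 z2) (a z0 z2)))) z2) (a (b (d (a (c (b (d z2 z2) (d (a z0 z2) (a z0 z2))) z2) z2)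 (a (b (d z2 z2) (d (a z0 z2) (a z0 z2))) z2)) (d (a (c (b (d z0 z0) z0) z0) z2) (a z0 z2))) z2)) (d (a (c (b (d (a z0 z2) (a z0 z2)) (d (a z0 (c (b z2 (d z2 z2)) z2)) (a z0 (b z2 (d z2 z2))))) (b (d (a z0 z2) (a z0 z2)) (d z0 (a z0 z2)))) z2) (a (b (d (a z0 z2) (a z0 z2)) (d (a z0 (c (b z2 (d z2 z2)) z2)) (a z0 (b z2 (d z2 z2))))) z2))) z2))) _ _ (by decide +kernel)

theorem okB152 : CKB ⟨6144, 9216, 5120, 6144⟩ ⟨6144, 12288, 6144, 7168⟩ :=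
  ckB_sound z0 _ _ (by decide +kernel)

theorem okB153 : CKB ⟨9216, 12288, 5120, 5632⟩ ⟨6144, 9216, 6144, 7168⟩ :=
  ckB_sound (d (c (b (d (a (c (b (d (a z0 z2) (a z0 z2)) z0) (b (d (a z0 z2) (a z0 z2)) z0)) z2) (a (c (b (d (a z0 z2) (a z0 z2)) (d (a z0 z2) (a z0 z2))) (b (d (a z0 z2) (a z0 z2)) (d (a z0 z2) (a z0 z2)))) z2)) (d (a z0 z2) (a z0 z2))) (b (d (a (c (b (d (a z0 z2) (a z0 z2)) z0) (b (d (a z0 z2) (a z0 z2)) z0)) z2) (a (c (b (d (a z0 z2) (a z0 z2)) (d z0 (a z0 z2))) (b (d (a z0 z2) (a z0 z2)) z0)) z2)) (d (a z0 z2) (a z0 z2)))) (c (b (d (a (c (b (d (a z0 z2) (a z0 z2)) (d (a z0 z2) (a z0 z2))) (b (d (a z0 z2) (a z0 z2)) (d (a z0 z2) (a z0 z2)))) z2) (a (c (b (d (a z0 z2) (a (b (d z0 z0) z0) z2)) (d (a z0 z2) (a z0 (b z2 (d (a z2 z2) (a (b z2 (d z2 z2)) z2)))))) (b (d (a z0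 z2) (a z0 z2)) (d (a z0 z2) (a z0 z2)))) z2)) (d (a (c (b (d (a z0 z2) (a z0 (c (b z2 z0) (b z2 z0)))) z0) (b (d z0 (a z0 (c (b z2 z0) z2))) z0)) z2) (a (c (b (d (a z0 (c (b (d (a z0 z2) (a z0 z2)) (d (a z0 z2) (a z0 z2))) (b (d z2 (a z0 z2)) (d z0 (a z0 z2))))) (a z0 (b (d (a z0 z2) (a z0 z2)) (d (a z0 z2) (a z0 z2))))) (d z0 (a z0 (b (d (a z0 z2) (a z0 z2)) (d z0 z0))))) (b (d (a z0 (c (b z2 z0) (b z2 z0))) (a z0 (c (b (d (a z0 z2) (a z0 z2)) (d (a z0 z2) (a z0 z2))) (b (d z2 (a z0 z2)) (d z0 (a z0 z2)))))) z0)) z2))) (b (d (a (c (b (d (a z0 z2) (a z0 z2)) (d (a z0 z2) (a z0 z2))) (b (d (a z0 z2) (a z0 z2)) (d (a z0 z2) (a z0 z2)))) z2) (a (c (b (d (a z0 z2) (a z0 z2)) (d (a z0 z2) (a z0 z2))) (b (d (a z0 z2) (a z0 z2)) (d (a z0 z2) (a z0 z2)))) z2)) (d (a z0 z2) (a (c (b (d (a z0 (c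 (b z2 z0) z2)) (a z0 (c (b z2 z0) (b z2 z0)))) z0) (b (d z0 (a z0 (b z2 z0))) z0)) z2))))) _ _ (by decide +kernel)

theorem okB154 : CKB ⟨9216, 12288, 5632, 6144⟩ ⟨6144, 9216, 6144, 7168⟩ :=
  ckB_sound (d (c (b (d (a z0 z2) (a z0 z2)) (d (a z0 (c (b z2 z0) (b z2 z0))) (a z0 (c (b (d (a z0 z2) (a z0 z2)) (d z0 (a z0 z2))) (b (d z2 (a z0 z2)) (d z0 (a z0 z2))))))) (b (d (a z0 z2) (a z0 z2)) (d (a z0 (c (b z2 z0) (b z2 z0))) (a z0 (c (b z2 z0) (b z2 z0)))))) (c (b (d (a z0 (c (b z2 (d z2 (a z2 z2))) z2)) (a z0 (c (b (d z2 (a (b z2 (d z2 z2)) z2)) (d (a (c (b (d z2 (a z0 z2)) (d (a z0 z2) (a z0 z2))) (b z2 (d (a z0 z2) (a z0 z2)))) z2) (a (b (d (c (a z0 z2) z2) (a z0 z2)) (d (c (a z0 z2) (a z0 z2)) (a z0 z2))) z2))) (b z2 (d (a (c (b z2 (d z2 (a z0 z2))) z2) z2) (a (c (b z2 (d (a z0 z2) (a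 z0 z2))) (b z2 (d (a z0 z2) (a z0 z2)))) z2)))))) (d (a z0 (c (b (d (a z0 z2) (a z0 z2)) (d (a z0 z2) (a z0 z2))) (b (d (a z0 z2) (a z0 z2)) (d (a z0 z2) (a z0 z2))))) (a z0 (c (b (d (a z0 z2) (a (b (d z0 (a z0 z2)) z0) z2)) (d (a z0 z2) (a z0 (b z2 (d z2 z2))))) (b (d (a z0 z2) (a z0 z2)) (d (a z0 z2) (a z0 z2))))))) (b (d (a z0 z2) (a z0 (c (b z2 (d z2 (a (c (b z2 (d z2 (a z0 z2))) z2) z2))) z2))) (d (a z0 (c (b (d (a z0 z2) (a z0 z2)) (d (a z0 z2) (a z0 z2))) (b (d z2 (a z0 z2)) (d z0 (a z0 z2))))) (a z0 (c (b (d (a z0 z2) (a z0 z2)) (d (a z0 z2) (a z0 z2))) (b (d (a z0 z2) (a z0 z2)) (d (a z0 z2) (a z0 z2))))))))) _ _ (by decide +kernel)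

theorem okB155 : CKB ⟨9216, 12288, 5120, 6144⟩ ⟨9216, 12288, 6144, 7168⟩ :=
  ckB_sound (b (d (b (d (a (c (b (d z2 (a z0 z2)) z0) z0) z2) (a (c (b (d (a z0 z2) (a z0 z2)) z0) (b (d (a z0 z2) (a z0 z2)) z0)) z2)) (d (a z0 z2) (a z0 z2))) (b (d (a (c (b (d (a z0 z2) (a z0 z2)) (d z0 (a z0 z2))) (b (d (a z0 z2) (a z0 z2)) z0)) z2) (a (c (b (d (a z0 z2) (a z0 z2)) (d (a z0 z2) (a z0 z2))) (b (d (a z0 z2) (a z0 z2)) (d z0 (a z0 z2)))) z2)) (d (a z0 z2) (a z0 z2)))) (d (b (d (a z0 z2) (a z0 z2)) (d z0 (a z0 (c (b z2 z0) (b z2 z0))))) (b (d (a z0 z2) (a z0 z2)) (d (a z0 (c (b z2 z0) (b z2 z0))) (a z0 (c (b (d (c (a z0 z2) z2) (c (a z0 z2) (a z0 z2))) (d (c (a z0 z2) z0) (c (a z0 z2) (a z0 z2)))) (b z2 z0))))))) _ _ (by decide +kernel)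

theorem okB156 : CKB ⟨6144, 9216, 5120, 6144⟩ ⟨6144, 12288, 7168, 8192⟩ :=
  ckB_sound (b (d (c (a z0 (b (d z0 z0) z0)) z0) (a z0 (b (d z0 z0) (d z0 z0)))) (d z0 z0)) _ _ (by decide +kernel)

theorem okB157 : CKB ⟨9216, 12288, 5120, 5376⟩ ⟨6144, 9600, 7168, 7680⟩ :=
  ckB_sound (d (c (a (b (d (c (a (b (d (c (a z0 (b (d z2 z2) z0)) z0) (a z0 (c (b (d z2 z2) z0) z0))) (d z0 z0)) z2) (a z0 z2)) (a (c (b (d (a z0 (c (b (d z2 (a z0 z2)) z0) z0)) (a z0 (b (d (a z0 z2) z0) z0))) (d z0 z0)) (b (d z0 (a z0 (c (b (d z2 (a z0 z2)) z0) z0))) z0)) z2)) (d (c (a z0 (b (d z2 z2) (d (c (a (b z2 (d z2 z2)) z2) z2) (a (c (b z2 (d z2 z2)) z2) z2)))) (a z0 z2)) (a z0 (c (b (d z2 z2) (d (a (c (b z2 (d z2 (a z0 z2))) z2) z2) (a (b (d z2 z0) (d (a z0 z2) z0)) z2))) (b z2 (d z2 (a (c (b z2 (d z2 (a z0 z2)))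 z2) z2))))))) z2) (a (b (d (a z0 z2) (a z0 z2)) (d (a z0 z2) (a z0 z2))) z2)) (a (b (d (c (a (b (d (c (a z0 (b (d (c (a z0 z2) z2) (a z0 z2)) (d z0 z0))) z0) (a z0 (c (b (d (a z0 z2) (a z0 z2)) (d z0 z0)) (b (d z2 (a z0 z2)) z0)))) (d z0 z0)) z2) (a z0 z2)) (a (c (b (d (a z0 (c (b (d (a z0 z2) (a z0 z2)) (d z0 z0)) (b (d z2 (a z0 z2)) z0))) (a z0 (b (d (a z0 z2) z0) (d z0 z0)))) (d z0 z0)) (b (d z0 (a z0 (c (b (d (a z0 z2) (a z0 z2)) z0) z0))) z0)) z2)) (d (c (a z0 (b (d z2 z2) (d (c (a (b (d z2 z2) (d (c (a z0 z2) z2) (a z0 z2))) z2) z2) (a (c (b (d z2 z2) (d (a z0 z2) (a z0 z2))) (b z2 (d z2 (a z0 z2)))) z2)))) (a z0 z2)) (a z0 (c (b (d (a z2 z2) (a z2 z2)) (d (a (c (b (d z2 z2) (d (a z0 z2) (a z0 z2))) (b z2 (d z2 (a z0 z2)))) z2) (a (b (d z2 z0) (d (a z0 z2) z0)) z2))) (b z2 (d z2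 (a (c (b (d z2 z2) (d (a z0 z2) (a z0 z2))) z2) z2))))))) z2)) _ _ (by decide +kernel)

theorem okB158 : CKB ⟨9216, 12288, 5376, 5632⟩ ⟨6144, 9600, 7168, 7680⟩ :=
  ckB_sound (d (c (a (b (d (c (a z0 (b (d (c (a z0 z2) (a z0 z2)) (a z0 z2)) (d (c (a z0 z2) (a z0 z2)) (a z0 z2)))) (a z0 (b (d (c (a z0 z2) z2) (c (a z0 z2) (a z0 z2))) (d (c (a z0 z2) (a z0 z2)) (c (a z0 z2) (a z0 z2)))))) (a z0 (c (b (d (a z0 z2) (a z0 z2)) (d (a z0 z2) (a z0 z2))) (b (d (a z0 z2) (a z0 z2)) (d (a z0 z2) (a z0 z2)))))) (d (c (a z0 (b (d (c (a z0 z2) z0) (a z0 z2)) (d z0 z0))) z0) (a z0 (c (b (d (a z0 (c (b z2 (d z2 z2)) z2)) (a z0 (b z2 (d z2 z0)))) (d z0 z0)) (b (d z0 (a z0 z2)) z0))))) (b z2 (d z2 z2))) (a (b (d (a z0 (c (b z2 (d z0 (a z0 z2))) (b z2 z0))) (a z0 (c (b (d (a z0 z2) (a z0 z2)) (d (a z0 z2)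 (a z0 z2))) (b (d z2 (a z0 z2)) (d z0 (a z0 z2)))))) z0) z2)) (a (b (d (c (a z0 (b (d (c (a z0 z2) (a z0 z2)) (a (c (b (d z0 z0) z0) z0) z2)) (d (c (a z0 z2) (a z0 z2)) (a z0 z2)))) (a z0 (b (d (c (a z0 z2) (a z0 z2)) (c (a z0 z2) (a z0 z2))) (d (c (a z0 z2) (a z0 z2)) (c (a z0 z2) (a z0 z2)))))) (a z0 (c (b (d (a (c (b (d z0 z0) z0) z0) z2) (a (b (d z0 z0) z0) z2)) (d (a z0 z2) (a z0 z2))) (b (d (a z0 z2) (a z0 z2)) (d (a z0 z2) (a z0 z2)))))) (d (c (a z0 (b (d (c (a z0 (b z2 (d z2 z2))) (a z0 z2)) (a z0 (c (b z2 (d z2 z2)) z2))) (d (c (a z0 (b (d z0 z0) z0)) z0) (a z0 (c (b (d z0 z0) z0) z0))))) (a z0 (b (d z0 (c (a z0 z2) z0)) z0))) (a z0 (c (b (d (a z0 (c (b z2 (d z2 z2)) z2)) (a z0 (b z2 (d z2 z0)))) (d (a z0 (c (b (d z0 z0) z0) z0)) (a z0 (b (d z0 z0) z0)))) (b (d (a z0 z2) (a z0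 (c (b z2 (d z2 z2)) z2))) z0))))) (b z2 (d z2 z2)))) _ _ (by decide +kernel)

theorem okB159 : CKB ⟨9216, 12288, 5120, 5632⟩ ⟨9600, 12288, 7168, 7680⟩ :=
  ckB_sound (b (d (a (c (b (d (a z0 z2) (a z0 z2)) (d (a z0 z2) (a z0 z2))) (b (d (a z0 z2) (a z0 z2)) (d (a z0 z2) (a z0 z2)))) z2) (a (c (b (d (a z0 z2) (a z0 z2)) (d (a z0 z2) (a z0 z2))) (b (d (a z0 z2) (a z0 z2)) (d (a z0 z2) (a z0 z2)))) z2)) (d (a (c (b (d z0 (a z0 (c (b z2 z0) z2))) z0) z0) z2) (a (c (b (d (a z0 (c (b (d z2 (a z0 z2)) (d z0 (a z0 z2))) (b z2 z0))) (a z0 (c (b (d (a z0 z2) (a z0 z2)) (d (a z0 z2) (a z0 z2))) (b (d z2 (a z0 z2)) (d z0 (a z0 z2)))))) (d z0 (a z0 (c (b (d z0 (a z0 z2)) z0) z0)))) (b (d z0 (a z0 (c (b z2 z0) z2))) z0)) z2))) _ _ (by decide +kernel)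

theorem okB160 : CKB ⟨9216, 12288, 5120, 5376⟩ ⟨6144, 12288, 7680, 8192⟩ :=
  ckB_sound (d (a (c (b (d (a (c (b (d (a z0 (c (b (d (a z0 z2) (a z0 z2)) (d z0 z0)) z0)) (a z0 (b (d (a z0 z2) (a z0 z2)) (d z0 z0)))) (d z0 z0)) z0) (c (b z2 (d z2 z2)) z2)) (a (b (d (a z0 (c (b (d (a z0 z2) (a z0 z2)) (d z0 z0)) z0)) (a z0 (b (d (a z0 z2) (a z0 z2)) (d z0 z0)))) (d z0 z0)) (b z2 (d z2 z2)))) (d (a (c (b (d z0 z0) z0) z0) (c (b (d (a z2 z2) (a z2 z2)) (d (a (c (b (d z2 z2) (d (a z0 z2) (a z0 z2))) z2) z2) (a (b (d z2 z2) (d (c (a z0 z2) z2) (a z0 z2))) z2))) (b z2 (d z2 (a z2 z2))))) (a (b (d z0 z0) z0) (b (d (a z2 z2) (a z2 z2)) (d (a (c (b (d z2 z2) (d (a z0 z2) (a z0 z2))) z2) z2) (a (b (d z2 z2) (d (c (a z0 z2) z2) (a z0 z2))) z2)))))) (b (d (a z0 z2) (a z0 z2)) (d (a z0 z2) (a z0 z2))))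 z2) (a (b (d (a (c (b (d (a z0 (c (b (d (a z0 z2) (a z0 z2)) (d z0 z0)) z0)) (a z0 (b (d (a z0 z2) (a z0 z2)) (d z0 z0)))) (d z0 z0)) z0) (c (b z2 (d z2 z2)) z2)) (a (b (d (a z0 (c (b (d (a z0 z2) (a z0 z2)) (d z0 z0)) z0)) (a z0 (b (d z2 z2) (d z0 z0)))) (d z0 z0)) (b z2 (d z2 z2)))) (d (a (c (b (d z0 z0) z0) z0) (c (b (d (a z2 z2) (a z2 z2)) (d (a (c (b (d z2 z2) (d (a z0 z2) (a z0 z2))) z2) z2) (a (b (d z2 z2) (d (a z0 z2) (a z0 z2))) z2))) z2)) (a (b (d z0 z0) z0) (b (d (a z2 z2) (a z2 z2)) (d (a (c (b (d z2 z2) (d (a z0 z2) (a z0 z2))) z2) z2) (a (b (d z2 z2) (d z2 z2)) z2)))))) z2)) _ _ (by decide +kernel)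

theorem okB161 : CKB ⟨9216, 12288, 5376, 5632⟩ ⟨6144, 12288, 7680, 8192⟩ :=
  ckB_sound (d (a (c (b (d (a z0 (c (b (d (a (c (b (d z0 z0) z0) z0) z2) (a (b (d z0 z0) z0) z2)) (d (a z0 z2) (a z0 z2))) (b (d (a z0 z2) (a z0 z2)) (d (a z0 z2) (a z0 z2))))) (a z0 (b (d (a (c (b (d z0 z0) z0) z0) z2) (a (b (d z0 z0) z0) z2)) (d (a z0 z2) (a z0 z2))))) (d (a z0 (c (b (d (a z0 (c (b (d z2 z2) (d z2 z2)) z2)) (a z0 (b (d z2 z2) (d z2 z2)))) (d (a z0 (c (b (d z0 z0) z0) z0)) (a z0 (b (d z0 z0) z0)))) (b (d z0 (a z0 z2)) z0))) (a z0 (b (d (a z0 (c (b (d z2 z2) (d z2 z2)) z2)) (a z0 (b (d z2 z2) (d z2 z2)))) (d (a z0 (c (b (d z0 z0) z0) z0)) (a z0 (b (d z0 z0) z0))))))) (b (d (a z0 (c (b (d z2 (a z0 z2)) (d z0 (a z0 z2))) (b z2 z0))) (a z0 (c (b (d (a z0 z2) (a z0 z2)) (d (a z0 z2) (a z0 z2))) (b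 (d z2 (a z0 z2)) (d z0 (a z0 z2)))))) (d z0 (a z0 (c (b (d z0 (a z0 z2)) z0) z0))))) (c (b (d z2 z2) (d z2 (a z2 z2))) z2)) (a (b (d (a z0 (c (b (d (a (c (b (d z0 z0) z0) z0) z2) (a (b (d z0 z0) z0) z2)) (d (a z0 z2) (a z0 z2))) (b (d (a z0 z2) (a z0 z2)) (d (a z0 z2) (a z0 z2))))) (a z0 (b (d (a z0 z2) (a z0 z2)) (d (a z0 z2) (a z0 z2))))) (d (a z0 (c (b (d (a z0 (c (b z2 (d z2 z2)) z2)) (a z0 (b z2 (d z2 z2)))) (d (a z0 (c (b (d z0 z0) z0) z0)) (a z0 (b (d z0 z0) z0)))) z0)) (a z0 (b (d (a z0 (c (b z2 (d z2 z2)) z2)) (a z0 (b z2 (d z2 z2)))) (d (a z0 (c (b (d z0 z0) z0) z0)) z0))))) (b (d z2 z2) (d (a z2 z2) (a z2 z2))))) _ _ (by decide +kernel)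

theorem okB162 : CKB ⟨9216, 12288, 5632, 6144⟩ ⟨6144, 9600, 7168, 7680⟩ :=
  ckB_sound (b (d (c (a (b (d z0 z0) z0) (b (d (c (a (b z2 (d z2 z2)) z2) z2) (a (c (b z2 (d z2 (a z2 z2))) z2) z2)) (d (c (a (b (d (c (a z0 z2) z2) (a z0 z2)) (d (c (a z0 z2) (a z0 z2)) (a z0 z2))) z2) (a (b z2 (d (c (a z0 z2) (a z0 z2)) (c (a z0 z2) (a z0 z2)))) z2)) (a (c (b (d (a z0 z2) (a z0 z2)) (d (a z0 z2) (a z0 z2))) (b (d (a z0 z2) (a z0 z2)) (d (a z0 z2) (a z0 z2)))) z2)))) (a z0 (b z2 (d (c (a (b z2 (d z2 (c (a z0 z2) z2))) z2) (a z2 z2)) (c (a (b (d z2 (c (a z0 z2) z2)) (d (c (a z0 z2) (a z0 z2)) (c (a z0 z2) (a z0 z2)))) z2) (a (b z2 (d z2 (a z0 z2))) z2)))))) (a (b (d z0 (a z0 (c (b (d z0 z0) z0) z0))) (d z0 z0)) (b (d (c (a (b (d z2 z2) (d (c (a z2 z2) z2) (a (c (b z2 (d z2 z2)) z2) z2))) z2) z2)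 (a (c (b (d z2 z2) (d (a (c (b z2 (d z2 z2)) z2) z2) (a (b z2 (d z2 z0)) z2))) (b z2 (d z2 (a z2 z2)))) z2)) (d (c (a (b (d (c (a z0 z2) (a z0 z2)) (a z0 z2)) (d (c (a z0 z2) (a z0 z2)) (a z0 z2))) z2) (a (b (d z2 (c (a z0 z2) z2)) (d (c (a z0 z2) (a z0 z2)) (c (a z0 z2) (a z0 z2)))) z2)) (a (c (b (d (a (c (b (d z0 z0) z0) z0) z2) (a (b (d z0 z0) z0) z2)) (d (a z0 z2) (a z0 z2))) (b (d (a z0 z2) (a z0 z2)) (d (a z0 z2) (a z0 z2)))) z2))))) (d (c (a z0 (b (d (c (a (b (d (c (a z0 z2) z0) (a z0 z2)) (d z0 z0)) z2) (a z0 z2)) (a (c (b (d (a z0 z2) (a z0 z2)) (d z0 z0)) (b (d z0 (a z0 z2)) z0)) z2)) (d (c (a z0 (b z2 (d z2 z2))) (a z0 z2)) (a z0 (c (b z2 (d z2 z2)) z2))))) (a z0 (b (d (c (a z0 z2) (a z0 z2)) (c (a z0 z2) (a z0 z2))) (d (c (a z0 z2) (a z0 z2)) (c (a z0 z2) (a z0 z2)))))) (a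 z0 (b (d (c (a (b (d (c (a z0 z2) z0) (a z0 z2)) (d z0 z0)) z2) (a z0 z2)) (a (c (b (d (a z0 z2) (a z0 z2)) (d z0 z0)) (b (d z0 (a z0 z2)) z0)) z2)) (d (c (a z0 (b z2 (d z2 z2))) (a z0 z2)) (a z0 (c (b (d z2 z2) (d (a z2 z2) (a z2 z2))) z2))))))) _ _ (by decide +kernel)

theorem okB163 : CKB ⟨9216, 12288, 5632, 6144⟩ ⟨9600, 12288, 7168, 7680⟩ :=
  ckB_sound (b (d (a z0 (c (b z2 (d z2 (a z2 z2))) z2)) (a z0 (c (b z2 (d (a (c (b z2 (d (a z0 z2) (a z0 z2))) z2) z2) (a (c (b (d z2 (a z0 z2)) (d (a z0 z2) (a z0 z2))) (b z2 (d z2 (a z0 z2)))) z2))) (b z2 (d z2 (a z2 z2)))))) (d (a z0 (c (b (d (a z0 z2) (a z0 z2)) (d (a z0 z2) (a z0 z2))) (b (d (a z0 z2) (a z0 z2)) (d z0 (a z0 z2))))) (a z0 (c (b (d (a z0 z2) (a z0 z2)) (d (a z0 z2) (a z0 z2))) (b (d (a z0 z2) (a z0 z2)) (d (a z0 z2) (a z0 z2)))))))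 _ _ (by decide +kernel)

theorem okB164 : CKB ⟨9216, 12288, 5632, 6144⟩ ⟨6144, 12288, 7680, 8192⟩ :=
  ckB_sound (b (d (a (c (b (d (a z0 (c (b (d z0 z0) z0) z0)) (a z0 (b (d z0 z0) z0))) (d z0 z0)) z0) (c (b (d (c (a (b (d z2 z2) (d (c (a (b z2 (d z2 z2)) z2) z2) (a (b z2 (d z2 z2)) z2))) z2) z2) (a (b (d z2 z2) (d (c (a (b z2 (d z2 z2)) z2) z2) (a (b z2 (d z2 z2)) z2))) z2)) (d (c (a (b (d (c (a (b (d z0 z0) z0) z2) (a z0 z2)) (a (b (d z0 z0) z0) z2)) (d (c (a z0 z2) (a z0 z2)) (a z0 z2))) z2) (a (b (d z2 (a z0 z2)) (d (a z0 z2) (a z0 z2))) z2)) (a (b (d (c (a (b (d z0 z0) z0) z2) (a z0 z2)) (a (b (d z0 z0) z0) z2)) (d (c (a z0 z2) (a z0 z2)) (a z0 z2))) z2))) (b z2 (d (a (c (b z2 (d (a z0 z2) (a z0 z2))) z2) z2) (a (c (b (d z2 (a z0 z2)) (d (a z0 z2) (a z0 z2))) (b z2 (d z2 (a z0 z2))))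 z2))))) (a (b (d (a z0 (c (b (d z0 z0) z0) z0)) (a z0 (b (d z0 z0) z0))) (d z0 z0)) (b (d (a (c (b (d z2 z2) (d (a (c (b z2 (d z2 z2)) z2) z2) (a (b z2 (d z2 z2)) z2))) z2) z2) (a (b (d z2 z2) (d (a (c (b z2 (d z2 z2)) z2) z2) (a z2 z2))) z2)) (d (a (c (b (d (a (c (b (d z0 z0) z0) z0) z2) (a z0 z2)) (d (a z0 z2) (a z0 z2))) (b (d z2 (a z0 z2)) (d (a z0 z2) (a z0 z2)))) z2) (a (b (d (a z0 z2) (a z0 z2)) (d (a z0 z2) (a z0 z2))) z2))))) (d (a z0 (c (b (d (c (a (b (d (c (a z0 (b z2 (d z2 z2))) z0) (a z0 (b z2 (d z2 z2)))) (d z0 z0)) z2) (a z0 z2)) (a (b (d (c (a z0 (b z2 (d z2 z2))) z0) (a z0 z2)) (d z0 z0)) z2)) (d (c (a z0 (b (d z2 z2) (d (c (a z2 z2) z2) (a z2 z2)))) (a z0 z2)) (a z0 (b (d z2 z2) (d (c (a z2 z2) z2) (a z2 z2)))))) (b (d (a z0 z2) (a z0 z2)) (d (a z0 z2) (a z0 z2))))) (a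 z0 (b (d (a (c (b (d (a z0 z2) (a z0 z2)) (d z0 z0)) z0) z2) (a (b (d (a z0 z2) (a z0 z2)) (d z0 z0)) z2)) (d (a z0 (c (b (d z2 z2) (d (c (a z2 z2) z2) z2)) z2)) (a z0 (b (d z2 z2) (d z2 z2)))))))) _ _ (by decide +kernel)

end Vale.Agent.Lib.P154Q4
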