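import Vale.Agent.Lib.P154Q4.CkBDefs

namespace Vale.Agent.Lib.P154Q4

set_option maxRecDepth 100000
set_option exponentiation.threshold 1000

open Tr

theorem okB165 : CKB ⟨6144, 12288, 6144, 8192⟩ ⟨6144, 12288, 4096, 8192⟩ :=
  ckB_sound (d (b z0 (d (c (b z0 z0) (b z1 z1)) (c (b z0 z0) (b z0 z0)))) (b (d (a z0 (c (b (d z0 (c (b (d z0 (a z0 (c (b (d (a z0 (c (b z2 z0) (b z2 z0))) (a z0 (b (d (c (a z0 z2) z2) (a z0 z2)) (d (c (a z0 z2) z0) (a z0 z2))))) (d z0 z0)) (b (d z0 (a z0 (c (b z2 z0) (b z2 z0)))) z0)))) z0) z0)) z0) z0)) (a (b (d z0 z0) (d z0 z0)) (b (d (c (b (d (c (a z0 (b (d (c (a z0 (b (d (c (a z0 z2) z2) (a z0 z2)) (d (c (a z0 z2) z0) (a z0 z2)))) (a z0 (b z2 z0))) (a z0 (c (b (d (a z0 z2) (a z0 z2)) (d (a z0 z2) (a z0 z2))) (b (d z2 (a z0 z2)) (d z0 (a z0 z2)))))) (d z0 (a z0 (c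 (b (d z0 z0) z0) z0))))) (a z0 (b (d (c (a z0 z2) z0) (c (a z0 (b z2 z0)) (a z0 z2))) z0))) (a z0 (b (d (c (a z0 (b (d (c (a z0 z2) z2) (a z0 z2)) (d (c (a z0 z2) z0) (a z0 z2)))) (a z0 (b z2 z0))) (a z0 (c (b (d (a z0 z2) (a z0 z2)) (d (a z0 z2) (a z0 z2))) (b (d z2 (a z0 z2)) (d z0 (a z0 z2)))))) (d (c (a z0 (b (d z0 z0) z0)) z0) (a z0 (c (b (d z0 z0) z0) z0)))))) (d z0 z0)) (b (d z0 (a z0 (c (b (d (a z0 z2) (a z0 (c (b z2 z0) z2))) z0) z0))) z0)) (b (d (a z0 (c (b (d (c (a z0 (b (d (c (a z0 z2) z2) (a z0 z2)) (d (c (a z0 z2) z0) (a z0 z2)))) (a z0 (b z2 z0))) (a z0 (b (d (c (a z0 z2) z2) (a z0 z2)) (d (c (a z0 z2) z0) (a z0 z2))))) (d (c (a z0 (b (d z0 z0) z0)) z0) (a z0 (b (d z0 z0) z0)))) (b (d z0 (a z0 (c (b z2 z0) z2))) z0))) (a z0 (b (d (a z0 (c (b (d (c (a z0 z2) z2) (a z0 z2)) (d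 (c (a z0 z2) z0) (a z0 z2))) (b z2 z0))) (a z0 (b (d (a z0 z2) (a z0 z2)) (d (a z0 z2) (a z0 z2))))) (d (a z0 (c (b (d z0 z0) z0) z0)) (a z0 (b (d z0 z0) z0)))))) (d (a z0 (c (b (d z0 z0) z0) z0)) (a z0 (b (d z0 z0) z0))))) (d z0 (b (d z0 z0) z0))))) (d (c (b z0 z0) (b z0 z0)) (b (d (a (c (b z0 z0) z0) z0) (a (b z0 z0) z0)) (d (c (b z0 z0) z0) (b z0 z0)))))) _ _ (by decide +kernel)

theorem okB166 : CKB ⟨0, 12288, 4096, 8192⟩ ⟨0, 12288, 8192, 12288⟩ :=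
  ckB_sound (a (b (d (a (b (d (a z0 z0) z0) (d (b (d z0 z0) (d z0 z0)) z0)) (b (d (b (d z0 z0) (d z0 z0)) z0) (d (b (d z0 z0) (d z0 z0)) z0))) z0) (d (b (d (b (d (a (b z0 z0) z0) z0) (d (b z0 z0) z0)) z0) z0) z0)) (b (d (b (d (a (b (d (a (b (d z0 z0) (d z0 z0)) (b (d (a (b (d (a z0 (b (d (a z0 z2) z0) (d z0 z0))) z0) (d z0 z0)) (b (d z2 z0) (d (b (d z2 z0) (d z2 z0)) z0))) z0) (d (a (b (d z0 z0) z0) (b (d (b (d (a (b z2 (d z2 z0)) z2) z0) (d (a z0 z2) z0)) z0) (d (b (d (a z0 z2) z0) (d (a z0 z2) z0)) z0))) z0))) z0) (d (a z0 (b (d (a z0 (b (d (b (d (a z0 (b z2 (d z2 z0))) z0) (d z0 z0)) z0) (d (b (d z0 z0) z0) z0))) z0) (d (a z0 (b (d z0 z0) (d z0 z0))) z0))) z0)) (b (d (b (d z2 z0) (d (a (b z2 (d z2 z0)) z2) z0)) z0) (d (b (d (a (b (d (a z2 z2) z0) (d (a (b (d z2 z0) (d (a z2 z2) z0)) z2)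 z0)) z2) z0) (d (a (b (d (a (b (d (a (b (d z2 z0) (d z2 z0)) z2) z0) (d (a z0 z2) z0)) z2) z0) (d (a (b (d (a z0 z2) z0) (d (a z0 (b z2 (d z2 z0))) z0)) z2) z0)) z2) z0)) z0))) z0) (d (a (b (d (a z0 (b (d z0 z0) (d z0 z0))) z0) (d z0 z0)) (b (d (b (d (a (b (d (a (b (d (a z0 (b (d z2 z0) z0)) z0) (d z0 z0)) (b z2 (d z2 z0))) z0) (d (a z0 (b (d z2 z0) (d (a (b (d z2 z0) (d z2 z0)) z2) z0))) z0)) z2) z0) (d (a (b (d (a z0 (b (d (a z0 z2) z0) (d (a z0 z2) z0))) z0) (d (a z0 (b (d (a z0 (b z2 (d z2 z0))) z0) (d z0 z0))) z0)) (b (d z2 z0) (d (a z2 z2) z0))) z0)) z0) (d (b (d (a (b (d (a z0 (b (d z0 z0) z0)) z0) (d z0 z0)) (b (d (a (b (d z2 z0) (d (a z2 z2) z0)) z2) z0) (d (a (b (d (a z0 z2) z0) (d (a z0 z2) z0)) z2) z0))) z0) (d (a z0 (b (d (a (b (d (a z0 z2) z0) (d z0 z0)) z2) z0) (d (a z0 (b z2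 (d z2 z0))) z0))) z0)) z0))) z0)) z0) (d (b (d (a (b (d z0 z0) (d (a z0 z0) z0)) (b (d (b (d (a z0 (b (d (a z0 (b (d (a z0 z2) z0) (d z0 z0))) z0) (d z0 z0))) z0) (d z0 z0)) z0) (d (b (d z0 z0) z0) z0))) z0) (d (b (d (a (b (d z0 z0) (d z0 z0)) z0) z0) (d (b (d z0 z0) z0) z0)) z0)) z0))) _ _ (by decide +kernel)

theorem okB167 : CKB ⟨0, 12288, 8192, 12288⟩ ⟨0, 12288, 4096, 12288⟩ :=
  ckB_sound (d (c (b (d (c (b (d (c (b z0 z0) (b z0 z0)) (b z0 z0)) z0) (b (d (b z0 z0) (b z0 z0)) z0)) (b (d (b (d z0 z0) z0) z0) z0)) z0) (b (d (b (d (c (b z0 z0) (b z1 z0)) (c (b z0 z0) (b z0 z0))) z0) (b (d (c (b z0 z0) (b z0 z0)) (b (d (c (b z0 z0) z0) (b z0 z0)) z0)) z0)) z0)) (b (d (b (d (b (d (b z0 z0) z0) z0) z0) z0) z0) z0)) _ _ (by decide +kernel)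

theorem okB168 : CKB ⟨0, 6144, 4096, 8192⟩ ⟨12288, 24576, 4096, 8192⟩ :=
  ckB_sound (b (d z1 (a (b z1 (d z1 (c z0 z1))) (b (d z1 (c z0 z1)) (d z1 (c z0 z1))))) (d (b z1 z0) (b (d (c (b z1 z1) z1) (c z0 z1)) z0))) _ _ (by decide +kernel)

theorem okB169 : CKB ⟨6144, 12288, 4096, 6144⟩ ⟨12288, 24576, 4096, 6144⟩ :=
  ckB_sound (b (d (a z1 z3) (a z1 z3)) (d (a z1 (b z3 z1)) (a z1 (b (d z3 (c (b z3 (d (a z1 z3) (a z1 z3))) z3)) (d z1 (c (b (d z1 (a z1 z3)) z1) z1)))))) _ _ (by decide +kernel)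

theorem okB170 : CKB ⟨6144, 12288, 4096, 5120⟩ ⟨12288, 24576, 6144, 8192⟩ :=
  ckB_sound (d (a (c (b (d (a z1 (c (b (d (c (a z1 z3) z3) (c (a z1 z3) (a z1 z3))) z1) z1)) (a z1 (c (b (d (c (a z0 z2) (a z1 z3)) (c (a z0 z2) (a z1 z3))) z0) (b (d z3 (a z1 z3)) z1)))) (d z1 (a z1 (c z0 z1)))) z1) (c (b z3 (d (c (b z3 (d z3 (a (c (b z3 (d z3 (a z1 z3))) z3) z3))) z3) (c (b z2 (d (a (c z2 z3) z3) (a z2 z2))) z3))) z3)) (c (a (b (d (c (a z0 (b (d (c (a z0 z2) (a z0 z2)) (c (a z0 z2) (a z0 z2))) (d z0 (c (a z0 (b z2 z0)) z0)))) (a z1 (b (d (c (a z1 z3) z3) (c (a z1 z3) z3)) z1))) (c (a z0 (b (d (c (a z0 z2) (a z0 z2)) (c (a z0 z2) (a z0 z2))) (d (c (a z0 (b z2 z0)) z0) (c (a z0 (b (d z2 (c (b z2 (d (a z0 z2) (a z0 z2))) z2)) (d (c (b (d (a z0 z2) (a z0 z2)) z0) z0) (c (b (d (a z0 z2) (a z0 z2)) (d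 z0 (a z0 z2))) (b (d (a z0 z2) (a z0 z2)) z0))))) (a z0 (b z2 z0)))))) (a z0 (b (d (c (a z0 z2) (a z1 z3)) (c (a z0 z2) (a z1 z3))) z0)))) z0) (b z2 (d (c (b z2 (d (a (c (b z2 (d z2 (a z0 z2))) z2) z2) (a (c (b z2 (d (a z0 z2) (a z0 z2))) z2) z2))) (b z3 (d z3 (a (c (b z3 (d z3 (a z1 z3))) z3) z3)))) (c (b (d z2 (a z2 z2)) (d (a (c (b (d z2 (a z2 z2)) (d (a z0 z2) (a z0 z2))) (b z2 (d (a z0 z2) (a z0 z2)))) z2) (a (c (b (d (a (c (b z2 (d z2 (a z0 z2))) z2) z2) (a (c (b z2 (d (a z0 z2) (a z0 z2))) z2) z2)) (d (a (c (b (d (a z0 z2) (a z0 z2)) z0) z0) z2) (a (c (b (d (a z0 z2) (a z0 z2)) z0) z0) z2))) (b z2 (d (a z0 z2) (a z0 z2)))) z2))) (b z2 (d (a (c z2 z3) z3) (a z2 z2))))))) (a z1 z3))) _ _ (by decide +kernel)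

theorem okB171 : CKB ⟨6144, 12288, 5120, 6144⟩ ⟨12288, 24576, 6144, 7168⟩ :=
  ckB_sound (a z1 (c (b (d (c (b (d (a z1 z3) (a (c (b (d (a z1 z3) (a z1 z3)) z1) z1) z3)) (d (a z1 z3) (a z1 z3))) z3) (c (b (d (a (c (b (d (a z0 z2) (a z0 z2)) z0) (b (d z3 (a z1 z3)) z1)) z3) (a (c (b (d (a z0 z2) (a z0 z2)) z0) (b (d (a z1 z3) (a z0 z2)) (d z1 z0))) z2)) (d (a (c z0 z1) z3) (a z0 z2))) (b (d z3 (a z1 z3)) (d (a z1 z3) (a z1 z3))))) (d (c (b (d (a z1 z3) (a z1 z3)) (d z1 (a z1 (c (b (d z3 (a z1 z3)) z1) z3)))) z1) (c (b (d (a z1 (c z2 z3)) (a z0 z2)) (d (a z1 (c (b z2 z0) (b z3 z1))) (a z0 (c (b z2 z0) (b (d z3 z2) z1))))) (b (d (a z1 z3) (a z1 z3)) z1)))) (b z3 z1))) _ _ (by decide +kernel)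

theorem okB172 : CKB ⟨6144, 12288, 5120, 6144⟩ ⟨12288, 24576, 7168, 8192⟩ :=
  ckB_sound (c (a z0 (b (d (c (b (d (a (c (b (d (a z0 z2) (a z0 z2)) (d z0 (a z0 z2))) (b (d (a z0 z2) (a z0 z2)) z0)) z2) (a (c (b (d (a z0 z2) (a z0 z2)) (d (a z0 z2) (a z0 z2))) (b (d (a z0 z2) (a z0 z2)) z0)) z2)) (d (a z0 z2) (a z0 z2))) (b (d (a z1 z3) (a (c (b (d (a z1 z3) (a z1 z3)) z1) z1) z3)) (d (a z1 z3) (a z1 z3)))) (c (b (d (a (c (b (d (a z0 z2) (a z0 z2)) (d (a z0 z2) (a z0 z2))) (b (d (a z0 z2) (a z0 z2)) (d (a z0 z2) (a z0 z2)))) z2) (a (c (b (d (a z0 z2) (a z0 z2)) (d (a z0 z2) (a z0 z2))) (b (d (a z0 z2) (a z0 z2)) (d (a z0 z2) (a z0 z2)))) z2)) (d (a (c (b (d z0 (a z0 (c (b z2 z0) z2))) z0) z0) z2) (a (c (b (d (a z0 (c (b z2 z0) z2)) (a z0 (c (b (d (a z0 z2) (a z0 z2)) (d (a z0 z2) (a z0 z2)))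 (b z2 z0)))) z0) z0) z2))) (b (d (a (c (b (d (a z0 z2) (a z0 z2)) z0) z1) z3) (a (c (b (d (a z0 z2) (a z0 z2)) z0) (b (d (a z1 z3) (a z1 z3)) (d z1 (a z1 z3)))) z2)) (d (a (c z0 z1) z3) (a z0 z2))))) (d (c (b (d (a z0 z2) (a z0 z2)) (d (a z0 (c (b z2 z0) (b z2 z0))) (a z0 (c (b (d (a z0 z2) (a z0 z2)) (d z0 (a z0 z2))) (b z2 z0))))) (b (d (a z1 z3) (a z1 z3)) (d z1 (a z1 (c (b (d z3 (a z1 z3)) z1) z3))))) (c (b (d (a z0 (c (b z2 (d z2 (a z2 z2))) z2)) (a z0 (c (b z2 (d (a (c (b z2 (d z2 (a z0 z2))) z2) z2) (a (c (b z2 (d (a z0 z2) (a z0 z2))) z2) z2))) z2))) (d (a z0 (c (b (d (a z0 z2) (a z0 z2)) (d (a z0 z2) (a z0 z2))) (b (d z2 (a z0 z2)) z0))) (a z0 (c (b (d (a z0 z2) (a z0 z2)) (d (a z0 z2) (a z0 z2))) (b (d (a z0 z2) (a z0 z2)) (d z0 (a z0 z2))))))) (b (d (a z1 (c z2 z3)) (a z0 z2)) (d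 (a z1 (c (b z2 z0) z3)) (a z0 (c (b z2 z0) (b (d z3 (a z1 z3)) z1))))))))) (a z1 (b (d z3 (c (b (d z3 (a z1 z3)) (d (a z1 z3) (a z1 z3))) z3)) (d z1 (c (b (d z1 (a z1 z3)) z1) z1))))) _ _ (by decide +kernel)

theorem okB173 : CKB ⟨6144, 12288, 6144, 8192⟩ ⟨12288, 24576, 4096, 8192⟩ :=
  ckB_sound (d (b z1 (d z1 (b z1 z1))) (b (d (a z1 (c (b (d z1 (c z0 z1)) z1) z1)) (c (a z0 (b (d z0 (c (b (d z0 (a z0 (c (b (d z0 (a z0 (c (b z2 z0) z2))) z0) z0))) z0) z0)) z0)) z1)) (d (c (b z1 z1) z1) (c (b z0 z0) (b z1 z1))))) _ _ (by decide +kernel)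

theorem okB174 : CKB ⟨0, 6144, 4096, 8192⟩ ⟨12288, 24576, 8192, 12288⟩ :=
  ckB_sound (b (d (a (b (d (a z0 z0) (a z0 (b (d z0 z0) (d z0 z0)))) (d (c (b (d z0 z0) (d z0 z0)) z1) (b (d z0 z0) (d z0 z0)))) (b (d (c (b (d z0 z0) (d z0 z0)) z1) (b (d z0 z0) (d z0 (a z0 z0)))) (d (c (b (d z0 z0) (d z0 z0)) z1) (b (d z0 (a z0 z0)) (d (a z0 z0) (a z0 z0)))))) z0) (d (b (d (c (b (d (a (c (b z0 z0) z0) z0) (a (b z0 z0) z0)) (d (c (b z0 z0) z0) (b (d z0 z0) z0))) (b (d z1 z0) z1)) (b (d (a (b z0 z0) z0) (a z0 z0)) (d (b (d z0 z0) z0) (b (d z0 z0) z0)))) z0) z0)) _ _ (by decide +kernel)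

theorem okB175 : CKB ⟨6144, 9216, 4096, 5120⟩ ⟨12288, 18432, 8192, 9216⟩ :=
  ckB_sound (b (d (c (a (b (d z0 z0) (d z0 z0)) (b (d (c (a (b (d (c (a z0 (b (d (c (a z0 z2) z2) (a z0 z2)) (d z0 z0))) z0) (a z0 (b (d z2 z2) (d z0 z0)))) (d z0 z0)) (b (d z2 z2) (d (c (b (d z2 z2) (d z2 z2)) z2) (b z2 (d z2 z2))))) (a z0 z2)) (a (b (d (c (a z0 (b (d z2 z2) z0)) z0) z0) (d z0 z0)) (b (d z2 z2) (d (c (b z2 (d z2 z2)) z2) (b z2 (d z2 z2)))))) (d (c (a (b (d z0 z0) z0) (b (d (c (b (d (a (c (b z2 (d z2 z2)) z2) z2) (a (b z2 (d z2 z2)) z2)) (d (a z0 z2) (a z0 z2))) z2) (b (d (a z2 z2) (a z2 z2)) (d (a z0 z2) (a z0 z2)))) (d (c (b (d (a z0 z2) (a z0 z2)) (d (a z0 z2) (a z0 z2))) (b (d (a z0 z2) (a z0 z2)) z0)) (b (d (a z0 z2) (a z0 z2)) (d (a z0 z2) (a z0 z2)))))) (a z0 (b z2 (d z0 (c (b (d (a z0 z2) (a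 z0 z2)) z0) z0))))) (a (b (d z0 z0) z0) (b (d (c (b (d (a z2 z2) z2) (d (a z0 z2) (a z0 z2))) z2) (b (d z2 z2) (d (a z0 z2) (a z0 z2)))) (d (c (b (d (a z0 z2) (a z0 z2)) (d (a z0 z2) (a z0 z2))) z0) (b (d (a z0 z2) (a z0 z2)) (d (a z0 z2) z0)))))))) (a z0 (b (d (c (a z0 z2) (a z0 z2)) (c (a z0 z2) (a z0 z2))) (d z0 (c (a z0 (b z2 z0)) z0))))) (a (b (d z0 z0) (d z0 z0)) (b (d (c (a (b (d z0 z0) (d z0 z0)) (b (d z2 z2) (d z2 z2))) (a z0 z2)) (a (b (d z0 z0) (d z0 z0)) (b (d z2 z2) (d z2 z2)))) (d (c (a (b (d z0 z0) z0) (b (d (c (b (d z2 z2) (d z2 z2)) z2) (b (d z2 z2) (d z2 z2))) (d (c (b (d (a z0 z2) (a z0 z2)) (d z0 z0)) z0) (b (d z2 z2) (d z0 z0))))) z0) (a z0 (b (d (b z2 (d z2 z2)) z2) (d (b (d z2 z2) z0) z0))))))) (d (c (a z0 (b (d (c (a z0 (b (d (c (b (d (a z0 (c (b z2 (d z2 z2)) z2)) (a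 z0 (b z2 (d z2 z2)))) (d z0 z0)) z0) (b (d (a z0 (c (b z2 (d z2 z2)) z2)) (a z0 z2)) (d z0 z0))) (d (c (b (d z0 z0) z0) z0) (b (d z0 z0) z0)))) z0) (a z0 (b (d (c (b (d z0 z0) (d z0 z0)) z0) (b (d z0 z0) (d z0 z0))) (d z0 z0)))) (d (c (a z0 (b (d z0 z0) (d z0 z0))) z0) (a z0 (b (d z0 z0) z0))))) z0) (a (b (d z0 z0) z0) (b (d (c (a z0 (b (d (c (b (d z0 z0) z0) z0) z0) (d z0 z0))) z0) (a z0 (b (d z0 z0) (d z0 z0)))) (d (c (a z0 (b (d z0 z0) z0)) z0) z0))))) _ _ (by decide +kernel)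

theorem okB176 : CKB ⟨9216, 12288, 4096, 5120⟩ ⟨12288, 18432, 8192, 9216⟩ :=
  ckB_sound (b (d (c (b (d z2 z2) (d (a (c (b z2 (d z2 z2)) z2) z2) (a (b z2 (d z2 z2)) z2))) z2) (b (d z2 z2) (d (a (c (b z2 (d z2 z2)) z2) z2) (a (b z2 (d z2 z2)) z2)))) (d (c (b (d (a (c (b (d (a z2 z2) (a z2 z2)) (d (a (c (b (d z2 z2) (d (a z2 z2) z2)) z2) z2) (a (b (d z2 z2) (d z2 z2)) z2))) z2) z2) (a (b (d (a z2 z2) z2) (d (a (c (b (d z2 z2) (d z2 z2)) z2) z2) (a (b z2 (d z2 z2)) z2))) z2)) (d (a (c (b (d (a (c (b (d (a (c (b (d z2 z2) (d z2 z2)) z2) z2) (a (b z2 (d z2 z2)) z2)) (d (a z0 z2) (a z0 z2))) (b z2 (d z2 (a z0 z2)))) z2) (a (b (d (a (c (b z2 (d z2 z2)) z2) z2) (a (b z2 (d z2 z2)) z2)) (d (a z0 z2) (a z0 z2))) z2)) (d (a (c (b (d (a z0 z2) (a z0 z2)) (d (a z0 (c (b z2 (d z2 z2)) z2)) (a z0 z2))) (b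 (d (a z0 z2) (a z0 z2)) z0)) z2) (a (b (d (a z0 z2) (a z0 z2)) (d (a z0 z2) (a z0 z2))) z2))) (b (d (a z2 z2) (a (c (b z2 (d z2 (a z0 z2))) z2) z2)) (d (a z0 z2) (a (c (b (d (a z0 z2) (a z0 z2)) z0) z0) z2)))) z2) (a (b (d (a (c (b (d (a z2 z2) (a z2 z2)) (d (a z0 z2) (a z0 z2))) z2) z2) (a (b (d z2 z2) (d (a z0 z2) (a z0 z2))) z2)) (d (a (c (b (d (a z0 z2) (a z0 z2)) (d (a z0 z2) (a z0 z2))) z0) z2) (a (b (d (a z0 z2) (a z0 z2)) (d z0 z0)) z2))) z2))) (b (d z2 (a z2 z2)) (d (a (c (b z2 (d (a z0 z2) (a z0 z2))) z2) z2) (a (c (b (d z2 (a z2 z2)) (d (a z0 z2) (a z0 z2))) z2) z2)))) (b (d (a (c (b (d z2 z2) (d (a (c (b z2 (d z2 z2)) z2) z2) (a z2 z2))) z2) z2) (a (b (d z2 z2) (d (a z2 z2) z2)) z2)) (d (a (c (b (d (a (c (b (d z2 z2) (d (a z0 z2) z2)) z2) z2) (a (b (d z2 z2) (d z2 z2)) z2)) (d (a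 (c (b (d (a z0 z2) (a z0 z2)) (d z0 z0)) z0) z2) (a (b (d (a z0 z2) z2) z0) z2))) (b z2 (d z2 (a z0 z2)))) z2) (a (b (d (a (b z2 (d z2 z2)) z2) (a z2 z2)) (d (a z0 z2) (a z0 z2))) z2))))) _ _ (by decide +kernel)

theorem okB177 : CKB ⟨6144, 12288, 4096, 5120⟩ ⟨18432, 24576, 8192, 9216⟩ :=
  ckB_sound (a (b (d (a z1 (c (b (d (c (a z1 z3) z3) (c (a z0 z2) z3)) (d z1 (c z0 z1))) z1)) (a z0 (c (b (d (c (a z0 z2) (a z1 z3)) (c (a z0 z2) z2)) z0) z1))) (d z1 z0)) (b (d z3 z2) (d (c (b (d z3 (a z3 z3)) (d (a z3 z3) (a (c z2 z3) z3))) z3) (c (b (d z2 (a z2 z2)) (d (a z2 z2) (a (c (b (d z2 (a z2 z2)) (d z2 (a z0 z2))) z2) z2))) z3)))) _ _ (by decide +kernel)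

theorem okB178 : CKB ⟨6144, 12288, 4096, 5120⟩ ⟨12288, 24576, 9216, 10240⟩ :=
  ckB_sound (a (b (d (a (b (d z0 z0) (d z0 z0)) (b (d (c (a (b (d z0 z0) z0) (b z2 (d z2 z2))) z2) (c (a z0 z2) z2)) (d (c (a z0 (b (d z2 z2) (d z0 z0))) z0) (c (a z0 (b (d z2 z2) (d z0 z0))) z0)))) (a (b (d z0 z0) (d z0 z0)) (b (d (a z0 z2) z0) (d z0 z0)))) (d (a (b (d z0 z0) z0) (b (d (c (a z0 (b (d z0 z0) z0)) z0) z0) (d z0 z0))) (a z0 (b (d z0 z0) (d z0 z0))))) (b (d (b (d z2 z2) (d (a z2 z2) (a z2 z2))) (b (d z2 z0) (d (a z2 z2) z0))) (d (b (d (a (c (b (d z2 z2) (d z2 z2)) z2) z2) (a (c (b z2 (d z2 z2)) z2) z2)) (d (a (c (b (d (a z2 z2) z2) (d (a z0 z2) (a z0 z2))) z2) z2) (a (c (b (d z2 z2) (d z2 z2)) z2) z2))) (b (d (a z2 z2) z0) (d (a (b (d z2 z2) (d z2 z2)) z2) z0))))) _ _ (by decide +kernel)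

theorem okB179 : CKB ⟨6144, 9216, 5120, 6144⟩ ⟨12288, 18432, 8192, 9216⟩ :=
  ckB_sound (b (d (c (a z0 (b (d z0 z0) (d z0 z0))) z0) (a z0 (b (d z0 z0) (d z0 z0)))) (d z0 (a z0 (b (d z0 z0) z0)))) _ _ (by decide +kernel)

end Vale.Agent.Lib.P154Q4
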