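import Vale.Agent.Lib.P154Q4.CkBDefs

namespace Vale.Agent.Lib.P154Q4

set_option maxRecDepth 100000
set_option exponentiation.threshold 1000

open Tr

theorem okB180 : CKB ⟨9216, 12288, 5120, 5632⟩ ⟨12288, 18432, 8192, 9216⟩ :=
  ckB_sound (d (c (b (d (a (c (b (d (a (c (b (d (a z0 (c (b (d z2 z2) z0) z0)) (a z0 (b (d z2 z2) z0))) (d z0 z0)) z0) (c (b z2 (d z2 z2)) z2)) (a (b (d z0 z0) (d z0 z0)) (b z2 (d z2 z2)))) (d (a z0 (c (b (d z2 z2) (d (a (c (b (d z2 z2) (d z2 z2)) z2) z2) (a (b z2 (d z2 z2)) z2))) z2)) (a z0 (b (d z2 z2) (d (a (c (b z2 (d z2 z2)) z2) z2) (a (b z2 (d z2 z2)) z2)))))) (b (d (a z0 z2) (a z0 z2)) (d (a z0 z2) (a z0 z2)))) z2) (a (b (d (a (c (b (d z0 z0) (d z0 z0)) z0) z2) (a (b (d z0 z0) z0) z2)) (d (a z0 (c (b (d z2 z2) (d (a z2 z2) (a z2 z2))) z2)) (a z0 (b (d z2 z2)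 (d z2 z2))))) z2)) (d (a (c (b (d (a z0 (c (b (d (a z0 z2) (a z0 z2)) (d (a z0 z2) (a z0 z2))) (b (d z2 (a z0 z2)) (d z0 (a z0 z2))))) (a z0 (b (d (a z0 z2) (a z0 z2)) (d (a z0 z2) (a z0 z2))))) (d (a z0 (c (b (d (a z0 (c (b z2 (d z2 z2)) z2)) (a z0 z2)) (d z0 z0)) z0)) (a z0 (b (d (a z0 z2) (a z0 z2)) (d z0 z0))))) (b (d (a z0 (c (b z2 z0) z2)) (a z0 (c (b z2 z0) z2))) z0)) (c (b (d z2 z2) (d (a z2 z2) (a z2 z2))) z2)) (a (b (d (a z0 (c (b (d (a z0 z2) (a z0 z2)) (d (a z0 z2) (a z0 z2))) (b z2 z0))) (a z0 (b (d (a z0 z2) (a z0 z2)) (d (a z0 z2) z0)))) (d (a z0 (c (b (d z0 z0) (d z0 z0)) z0)) (a z0 (b (d z0 z0) z0)))) (b (d z2 z2) (d z2 z2))))) (b (d (a (c (b (d (a z0 z2) (a z0 z2)) (d z0 (a z0 z2))) (b (d (a z0 z2) (a z0 z2)) z0)) z2) (a (c (b (d (a z0 z2) (a z0 z2)) (d (a z0 z2) (a z0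 z2))) (b (d (a z0 z2) (a z0 z2)) z0)) z2)) (d (a z0 z2) (a z0 z2)))) (b (d (a (c (b (d (a z0 z2) (a z0 z2)) (d (a z0 (c (b z2 (d z2 z2)) z2)) (a z0 (b z2 (d z2 z2))))) (b (d (a z0 z2) (a z0 z2)) (d z0 (a z0 z2)))) z2) (a (b (d (a z0 z2) (a z0 z2)) (d (a z0 z2) (a z0 z2))) z2)) (d (a (c (b (d (a z0 (c (b (d (a z0 z2) z2) (d z0 z0)) z2)) (a z0 (b (d z2 z2) (d z0 z0)))) (d (a z0 (c (b (d z0 z0) z0) z0)) z0)) z0) (c (b (d z2 z2) (d z2 z2)) z2)) (a (b (d (a z0 (b (d z2 z2) z0)) z0) (d z0 z0)) (b z2 (d z2 z2)))))) _ _ (by decide +kernel)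

theorem okB181 : CKB ⟨9216, 12288, 5632, 6144⟩ ⟨12288, 18432, 8192, 9216⟩ :=
  ckB_sound (d (c (b (d (a (c (b (d (a z0 (c (b (d z0 z0) z0) z0)) z0) (d z0 z0)) z0) (c (b (d (a (c (b (d z2 z2) (d (a z2 z2) (a z2 z2))) z2) z2) (a (b (d z2 z2) (d z2 z2)) z2)) (d (a (c (b (d (a z0 z2) (a z0 z2)) (d (a z0 z2) (a z0 z2))) (b z2 (d (a z0 z2) (a z0 z2)))) z2) (a (b (d (a z0 z2) (a z0 z2)) (d (a z0 z2) (a z0 z2))) z2))) (b z2 (d (a z2 z2) (a (c (b z2 (d z2 (a z0 z2))) z2) z2))))) (a (b (d z0 z0) (d z0 z0)) (b (d (a (c (b z2 (d z2 z2)) z2) z2) (a (b z2 (d z2 z2)) z2)) (d (a (c (b (d (a z0 z2) (a z0 z2)) (d (a z0 z2) (a z0 z2))) z2) z2) (a (b (d z2 z2) (d (a z0 z2) (a z0 z2))) z2))))) (d (a z0 (c (b (d (a (c (b (d (a z0 z2) (a z0 z2)) (d z0 z0)) z0) z2) (a (b (d z0 z0) (d z0 z0)) z2)) (d (a z0 (c (b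 z2 (d z2 z2)) z2)) (a z0 (b z2 (d z2 z2))))) (b (d (a z0 z2) (a z0 z2)) (d (a z0 z2) (a z0 z2))))) (a z0 (b (d (a (c (b (d z0 z0) z0) z0) z2) (a (b (d z0 z0) z0) z2)) (d (a z0 (c (b z2 (d z2 z2)) z2)) (a z0 z2)))))) (b (d (a z0 z2) (a z0 (c (b z2 (d z2 (a z2 z2))) z2))) (d (a z0 (c (b (d z2 (a z0 z2)) z0) (b z2 z0))) (a z0 (c (b (d (a z0 z2) (a z0 z2)) (d z0 (a z0 z2))) (b z2 z0)))))) (b (d (a (c (b (d z0 z0) z0) z0) (c (b (d (a z2 z2) (a z2 z2)) (d (a (c (b (d z2 z2) (d (a z0 z2) z2)) z2) z2) (a (b (d z2 z2) (d z2 z2)) z2))) z2)) (a (b (d z0 z0) z0) (b (d z2 z2) (d (a (b z2 (d z2 z2)) z2) (a z2 z2))))) (d (a z0 (c (b (d (a z0 z2) (a z0 z2)) (d (a z0 z2) (a z0 z2))) (b (d z2 (a z0 z2)) z0))) (a z0 (b (d (a z0 z2) (a z0 z2)) (d (a z0 z2) z0)))))) _ _ (by decide +kernel)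

theorem okB182 : CKB ⟨6144, 12288, 5120, 6144⟩ ⟨18432, 24576, 8192, 9216⟩ :=
  ckB_sound (a z1 (b (d (c (b (d (a z1 z3) (a (c z0 z1) z3)) (d (a z1 z3) (a z1 z3))) z3) (c (b (d (a z0 z2) (a (c (b (d z2 (a z0 z2)) (d z0 (a z0 z2))) z0) z2)) (d (a z0 z2) (a z0 z2))) (b (d z3 (a z1 z3)) (d (a z1 z3) (a z1 z3))))) (d (c (b (d (a z1 z3) (a z1 z3)) (d z1 (a z1 (c z2 z3)))) z1) (c (b (d (a z0 z2) (a z0 z2)) (d z0 (a z0 (c (b (d z2 (a z0 z2)) z0) z2)))) z1)))) _ _ (by decide +kernel)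

theorem okB183 : CKB ⟨6144, 12288, 5120, 6144⟩ ⟨12288, 24576, 9216, 10240⟩ :=
  ckB_sound (a (b (d (a z0 (b (d z0 z0) (d z0 z0))) (a z0 (b (d z0 z0) (d z0 z0)))) (d (a z0 z0) (a z0 z0))) (b (d (b (d (a (c (b (d (a z0 z2) (a z0 z2)) (d z0 z0)) z0) z2) (a (c (b (d (a z0 z2) z2) (d z0 z0)) z0) z2)) (d (a (c (b (d z0 z0) (d z0 z0)) z0) (c (b z2 (d z2 z2)) z2)) (a z0 z2))) (b (d (a z0 z2) z0) (d (a z0 z2) z0))) (d (b (d (a z0 (c (b (d z2 z2) (d z2 z2)) z2)) (a z0 (c (b z2 (d z2 z2)) z2))) (d (a z0 (c (b (d (c (a z0 z2) z2) z2) (d z0 z0)) z2)) (a z0 (c (b (d z2 z2) z0) z2)))) (b (d (a z0 z2) z0) (d z0 z0))))) _ _ (by decide +kernel)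

theorem okB184 : CKB ⟨6144, 12288, 4096, 6144⟩ ⟨12288, 24576, 10240, 12288⟩ :=
  ckB_sound z0 _ _ (by decide +kernel)

theorem okB185 : CKB ⟨6144, 12288, 6144, 8192⟩ ⟨12288, 24576, 8192, 12288⟩ :=
  ckB_sound (d (b (d (c (a (b (d z0 z0) (d (c (a z0 z0) z0) (a (b z0 (d z0 z0)) z0))) (b (d (c (b (d (a z0 (c (b (d (a z0 (c (b (d (a z0 z2) (a z0 z2)) (d z0 z0)) z2)) (a z0 (b (d (a z0 z2) z2) (d z0 z0)))) (d z0 z0)) z0)) (a z0 (b (d (a z0 (c (b (d z2 z2) (d z0 z0)) z2)) (a z0 (b (d z2 z2) z0))) (d z0 z0)))) (d z0 z0)) z0) (b (d (a z0 (c (b (d (a z0 (c (b (d z2 z2) z0) z2)) z0) (d z0 z0)) z0)) (a z0 (b (d z0 z0) z0))) (d z0 z0))) (d (c (b (d z0 z0) z0) z0) (b (d z0 z0) z0)))) (a z1 (b (d z1 z0) z1))) (a (b (d (a z0 z0) (a z0 z0)) (d (a (b z0 (d z0 z0)) z0) (a (b z0 (d z0 z0)) z0))) (b (d (b (d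 z0 z0) (d z0 z0)) (b (d z0 z0) (d z0 z0))) (d z0 z0)))) (d (c (b (d (a (c (b (d z0 z0) (d z0 z0)) z0) z0) (a (b (d z0 z0) (d z0 z0)) z0)) (d (c (b (d z0 z0) z0) z0) (b (d z0 z0) z0))) (b (d (a z1 z1) (a z0 z0)) (d z1 z0))) (b (d (a (b (d z0 z0) (d z0 z0)) z0) (a (b (d z0 z0) (d z0 z0)) z0)) (d (b (d z0 z0) z0) (b (d z0 z0) z0))))) z0) _ _ (by decide +kernel)

theorem okB186 : CKB ⟨0, 12288, 8192, 12288⟩ ⟨12288, 24576, 4096, 12288⟩ :=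
  ckB_sound (d (b (d (b (d (b z1 z0) (b z1 z0)) z0) (b (d (c (b z1 z0) (b z1 z0)) (c (b z0 z0) (b z1 z0))) z0)) z0) (b (d (b (d (c (b (d (c (b z0 z0) z0) (b z0 z0)) z0) (b z1 z0)) (b (d (b z0 z0) z0) z0)) z0) z0) z0)) _ _ (by decide +kernel)

theorem okB187 : CKB ⟨12288, 24576, 4096, 6144⟩ ⟨0, 6144, 4096, 8192⟩ :=
  ckB_sound (d (c z2 (b z2 z2)) (b (d z2 z0) (d (b z2 (d z2 z2)) z0))) _ _ (by decide +kernel)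

theorem okB188 : CKB ⟨12288, 24576, 6144, 8192⟩ ⟨0, 6144, 4096, 6144⟩ :=
  ckB_sound (c (b (d (c (a (b z2 (d (c (a z0 z2) (a z0 z2)) (c (a (b z2 z0) z2) (a (b z2 z0) z2)))) z2) (a (b z2 (d (a z0 z2) (a (c (b z2 z0) (b z2 z0)) z2))) z2)) (a (b (d z2 (a (b z2 (d z2 z2)) z2)) (d (c (a (b (d z2 (a z0 z2)) z0) z2) (a (b z2 z0) z2)) (a (b (d (c (a z0 z2) (a z0 z2)) (a z0 z2)) (d (c (a z0 z2) z0) (a z0 z2))) z2))) (b z2 (d z2 (b z2 z2))))) (d (c (a (b (d (c (a z0 z2) (a z0 z2)) (a z0 z2)) (d (c (a z0 (b z2 z0)) (a z0 (b z2 z0))) (a z0 (c (b z2 z0) (b z2 z0))))) (b z2 (d z2 (c (a z2 (b z2 z2)) (a z2 (b z2 z2)))))) (a (b (d (a z0 z2) (a z0 z2)) (d (a z0 (c (b z2 z0) (b z2 z0))) (a z0 (c (b z2 z0) (b z2 z0))))) (b z2 (d z2 (c (a z2 (b z2 z2)) (a z2 (b z2 z2))))))) (a (b (d (c (a z0 z2) (a z0 z2))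 (a (b (d z0 (a z0 (b (d z0 z0) z0))) z0) z2)) (d (c (a z0 (b z2 z0)) (a z0 (b z2 z0))) (a z0 (b z2 (d z0 (a z0 z2)))))) (b (d (c (b z2 z2) (b z2 z2)) (b (d z2 z2) (d z2 (a z2 (b z2 z2))))) (d (c (a z2 (b (d z2 z2) (d z2 (c (b z2 z2) z2)))) (a z2 (b z2 z2))) (a z2 (b (d (c (b z2 z2) z2) (b z2 z2)) (d (c (b z2 z2) z2) (b z2 z2))))))))) (b (d (a (b z2 (d (c (a z0 z2) (a z0 z2)) (c (a (b z2 z0) z2) (a z0 z2)))) z2) (a (b z2 (d (c (a (b z2 z0) z2) (a (b z2 z0) z2)) (c (a (b (d (c (a z0 z2) (a z0 z2)) (c (a z0 z2) (a z0 z2))) z0) z2) (a (b (d z2 (c (a z0 z2) (a z0 z2))) z0) z2)))) (b z2 z2))) (d (a (b (d (c (a z0 z2) (a z0 z2)) (c (a z0 z2) (a z0 z2))) (d (c (a z0 (b z2 z0)) (a z0 (b z2 z0))) (c (a z0 (b z2 z0)) (a z0 (b z2 z0))))) (b z2 z2)) (a (b (d (c (a z0 z2) (a z0 z2)) (c (a z0 z2) (a z0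 z2))) (d (c (a z0 (b z2 z0)) (a z0 (b z2 z0))) (c (a z0 (b z2 z0)) (a z0 (b z2 z0))))) (b (d z2 (c (b z2 z2) (b z2 z2))) (d (c (a z2 (b z2 z2)) (a z2 (b z2 z2))) (c (a z2 (b z2 z2)) (a z2 (b z2 z2))))))))) _ _ (by decide +kernel)

theorem okB189 : CKB ⟨12288, 24576, 6144, 8192⟩ ⟨0, 6144, 6144, 8192⟩ :=
  ckB_sound (b (d (a (b (d (c (a (b z2 (d (c (a (b z2 (d z2 z2)) z2) z2) (a (b z2 (d (c (a z0 z2) z2) (a z0 z2))) z2))) z2) (a (b z2 (d z2 (c (a z2 z2) z2))) z2)) (a (b (d z2 z2) (d (c (a (b (d z2 z2) (d (c (a z0 z2) (a z0 z2)) (a z0 z2))) z2) (a (b z2 (d z2 (a z0 z2))) z2)) (a (b (d z2 z0) (d (a z0 z2) z0)) z2))) z2)) (d (c (a (b (d (c (a z0 z2) (a z0 z2)) (a (b (d z0 z0) z0) z2)) (d (c (a z0 z2) (a z0 z2)) (a z0 (b z2 (d z0 z0))))) z2) (a (b (d (c (a z0 z2) (a z0 z2)) (c (a z0 z2) (a z0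 z2))) (d z0 (c (a z0 z2) (a z0 z2)))) z2)) (a (b (d (c (a (b (d z0 z0) z0) z2) (a z0 z2)) (a (b (d (a z0 z2) z0) z0) z2)) (d (c (a z0 (b z2 (d z0 z0))) (a z0 z2)) (a z0 (b (d z2 z0) (d z0 z0))))) z2))) (b (d z2 (b z2 z2)) (d (c (b z2 (d z2 z2)) (b z2 z2)) (b (d z2 z2) (d z2 z2))))) z0) (d (a (b (d (c (a (b (d (c (a z0 (b (d z0 (a z0 z2)) z0)) z0) (a z0 (b (d (c (a z0 z2) z0) (a z0 z2)) z0))) z0) z2) (a (b (d z0 (a z0 (c (b (d z0 (c (a z0 z2) z0)) z0) z0))) z0) z2)) (a (b (d (a z0 (c (b (d (a z0 z2) (a z0 z2)) z0) (b (d z0 (a z0 z2)) z0))) (a z0 (b (d (a z0 z2) z0) z0))) z0) z2)) (d (c (a z0 (b (d z2 z2) (d (c (a z0 z2) z0) (a z0 z2)))) (a z0 (b z2 z0))) (a z0 (b (d z2 z2) (d (a z0 z2) (a z0 z2)))))) (b (d (c (b (d z2 (a z2 (b z2 z2))) (d (c (a z2 (b z2 z2)) z2) (a z2 (b z2 z2)))) (b z2 z2))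 (b (d (a z2 (c (b z2 z2) z2)) (a z2 (b z2 z2))) (d (a z2 (c (b z2 z2) z2)) (a z2 (b z2 z2))))) (d (c (a z2 (b (d (c (b z2 z2) z2) (b z2 z2)) (d (c (b z2 z2) z2) (b z2 z2)))) (a z2 (b z2 z2))) (a z2 (b (d (c (b z2 z2) z2) (b z2 z2)) (d (c (b z2 z2) z2) z2)))))) z0)) _ _ (by decide +kernel)

theorem okB190 : CKB ⟨12288, 24576, 4096, 6144⟩ ⟨6144, 12288, 4096, 8192⟩ :=
  ckB_sound (d (b z2 (d z2 (c z2 (b z2 z2)))) (b (d (c z2 (b z2 z2)) (b z2 z2)) (d (c (b z2 z2) (b z2 z2)) (b (d z2 z2) (d (c (a (b z2 (d z2 z2)) (b z2 z2)) z2) (a (b z2 (d z2 z2)) (b z2 z2))))))) _ _ (by decide +kernel)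

theorem okB191 : CKB ⟨12288, 24576, 6144, 8192⟩ ⟨6144, 12288, 4096, 6144⟩ :=
  ckB_sound (b (d (c (a (b z2 (d (c (a z0 z2) (a z0 z2)) (c (a z0 z2) (a z0 z2)))) (b z2 z2)) (a (b z3 (d (a z1 z3) (a z1 z3))) (b z3 z3))) (c (a (b z2 (d (c (a (b z2 z0) z2) (a (b z2 z0) z2)) (c (a (b z2 z0) z2) (a (b z2 z0) z2)))) (b z2 z2)) (a (b z2 (d (a (b (d (c z2 z3) (c z2 z3)) z1) z3) (a (b z2 z0) z2))) (b z2 z2)))) (d (a (c (b (d (a z0 z2) (a z0 z2)) (d z0 (a z0 (c (b z2 z0) (b z2 z0))))) (b (d (a z1 z3) (a z1 z3)) (d z1 (a z1 (b z3 z1))))) (c (b z2 z2) (b z3 z3))) (a (c (b (d (a z0 z2) (a z0 z2)) (d (a z0 (c (b z2 z0) (b z2 z0))) (a z0 (c (b z2 z0) (b z2 z0))))) (b (d (a z1 z3) (a z0 z2)) (d (a z1 (b z3 z1)) (a z0 (b z2 z0))))) (c (b (d z2 (c (b z2 z2) z2)) (d z2 (c (a z2 (b z2 z2)) (a z2 (b z2 z2)))))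 (b z2 z2))))) _ _ (by decide +kernel)

theorem okB192 : CKB ⟨12288, 24576, 6144, 7168⟩ ⟨6144, 12288, 6144, 7168⟩ :=
  ckB_sound (c (a (b (d z2 (c (a (b z2 (d (c (a z2 z2) z2) (c (a (b (d z2 (a z2 z2)) (d (c (a z0 z2) (a z0 z2)) (a z0 z2))) z2) (a (b z2 (d z2 (a z0 z2))) z2)))) z2) (a (b z2 (d z2 (a z2 z2))) z2))) (d (c (a (b (d (c (a z0 z2) (a z0 z2)) (c (a z0 z2) (a z0 z2))) z0) z2) (a (b (d (a z0 z2) (a z0 z2)) z0) z2)) (c (a (b (d (c (a z0 z2) (a z0 z2)) (c (a (b (d z0 (a z0 z2)) z0) z2) (a z0 z2))) (d (c (a z0 z2) (a z0 z2)) (c (a z0 (b z2 (d z0 (a z0 z2)))) (a z0 z2)))) z2) (a (b (d (a z0 z2) (a z0 z2)) (d z0 (a z0 z2))) z2)))) (b z2 (d z2 (c (b z2 z2) (b z2 z2))))) (a (b z2 (d (a (b (d z2 (c (a z0 z2) z2)) z0) z2) (a (b (d (c (a z0 z2) (a z0 z2)) (c (a z0 z2) (a z0 z2))) z0) z2)))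 (b z2 (d z2 (b z2 z2))))) _ _ (by decide +kernel)

theorem okB193 : CKB ⟨12288, 24576, 6144, 7168⟩ ⟨6144, 12288, 7168, 8192⟩ :=
  ckB_sound (a (b (d (c (a (b (d (c (a (b z2 (d z2 z2)) z2) z2) (a (b z2 (d z2 z2)) z2)) (d (c (a (b (d (c (a (b z2 (d z2 z2)) z2) z2) (a (c (b z2 (d z2 z2)) z2) z2)) (d (c (a z0 z2) (a z0 z2)) (a z0 z2))) z2) (a (b z2 (d z2 (c (a z0 z2) z2))) z2)) (a (b (d (c (a (b z2 (d z2 z2)) z2) z2) (a (c (b z2 (d z2 z2)) z2) z2)) (d (c (a z0 z2) (a z0 z2)) (a z0 z2))) z2))) z2) (a (b z2 (d z2 (c (a (b z2 (d z2 (c (a z0 z2) z2))) z2) z2))) z2)) (a (b (d (c (a (b z2 (d z2 z2)) z2) z2) (a (b z2 (d z2 z2)) z2)) (d (c (a (b (d (c (a (b z2 (d z2 z2)) z2) z2) (a (b z2 (d z2 z2)) z2)) (d (c (a z0 z2) (a z0 z2)) (a z0 z2))) z2) (a (b z2 (d z2 (c (a z0 z2) z2))) z2)) (a (b (d (c (a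 (b z2 (d z2 z2)) z2) z2) (a (b z2 (d z2 z2)) z2)) (d (c (a z0 z2) (a z0 z2)) (a z0 z2))) z2))) z2)) (d (c (a (b (d (c (a (b (d (c (a z0 z2) z0) (a z0 z2)) z0) z2) (a z0 z2)) (a (b (d (c (a z0 z2) z0) (a z0 (c (b z2 z0) z2))) z0) z2)) (d (c (a z0 (b (d z2 z2) (d (c (a z0 z2) z0) (a z0 z2)))) (a z0 z2)) (a z0 (b (d z2 z2) (d (c (a z0 z2) z0) (a z0 z2)))))) z2) (a (b (d (c (a z0 z2) (a z0 z2)) (c (a z0 z2) (a z0 z2))) (d (c (a z0 z2) z0) (c (a z0 z2) z0))) z2)) (a (b (d (c (a (b (d (c (a z0 (b z2 z0)) z0) (a z0 z2)) (d z0 z0)) z2) (a z0 z2)) (a (b (d (c (a z0 z2) z0) (a z0 z2)) z0) z2)) (d (c (a z0 (b (d z2 z2) (d (c (a z0 z2) z0) z0))) (a z0 z2)) (a z0 (b (d z2 z2) (d z0 z0))))) z2))) (b (d (c (b z2 (d z2 z2)) z2) (b z2 z2)) (d (c (b (d z2 z2) (d z2 z2)) (b z2 z2)) (b (d z2 z2) (d z2 z2)))))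 _ _ (by decide +kernel)

theorem okB194 : CKB ⟨12288, 24576, 7168, 8192⟩ ⟨6144, 12288, 6144, 8192⟩ :=
  ckB_sound (d (a (c (b (d (a z0 z2) (a (c (b (d z0 (a z0 (c (b (d (a z0 z2) (a z0 z2)) z0) (b (d z0 (a z0 z2)) z0)))) z0) z0) z2)) (d (a z0 (c (b z2 z0) (b z2 z0))) (a z0 (c (b z2 (d z0 (a z0 z2))) (b z2 z0))))) (b (d (a z0 z2) (a z0 z2)) (d (a z0 (b z2 z0)) (a z0 (b z2 z0))))) (c (b (d (c (b z2 z2) (b z2 z2)) (c (b z2 z2) (b z2 z2))) (d (c (a z2 (b z2 z2)) (a z2 (b z2 z2))) (c (a z2 (b z2 z2)) (a z2 (b z2 z2))))) (b (d (b z2 z2) (b z2 z2)) (d (a z2 (b z2 z2)) (a z2 (b z2 z2)))))) (a (b (d (c (a (b (d (c (a z0 (b (d (c (a z0 z2) (a z0 z2)) (a z0 z2)) z0)) z0) (a z0 (b (d (c (a z0 z2) z0) (a z0 z2)) z0))) z0) (b z2 (d z2 z2))) (a z0 z2)) (a (b (d (c (a z0 (b (d (c (a z0 z2) z0) (a z0 z2))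 z0)) z0) (a z0 (b (d (c (a z0 z2) z0) (a z0 z2)) z0))) z0) (b z2 (d z2 z2)))) (d (c (a z0 (b (d z2 z2) (d (c (a z0 z2) z0) z0))) (a z0 (b z2 z0))) (a z0 (b (d z2 z2) (d z0 z0))))) (b (d (c (b (d z2 z2) (d z2 z2)) (b z2 z2)) (b (d z2 z2) z2)) (d (c (a z2 (b (d z2 z2) (d z2 z2))) (a z2 (b z2 z2))) (a z2 (b z2 z2)))))) _ _ (by decide +kernel)

end Vale.Agent.Lib.P154Q4
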