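import Vale.Agent.Lib.P154Q4.CkBDefs

namespace Vale.Agent.Lib.P154Q4

set_option maxRecDepth 100000
set_option exponentiation.threshold 1000

open Tr

theorem okB210 : CKB ⟨24576, 49152, 8192, 12288⟩ ⟨6144, 12288, 4096, 8192⟩ :=
  ckB_sound (b (d (b (d (c (b z2 z2) (b z3 z3)) (c (b (d z2 (c (b z2 z2) z2)) z2) (b z2 z2))) (d (c (b z2 z2) (b z3 z3)) (c (b z2 z2) (b z2 z2)))) (b (d (c (b (d (c (b z2 z2) (b z2 z2)) (c (b z2 z2) (b z2 z2))) (d (c (b z2 z2) z2) (c (b z2 z2) z2))) (b z2 z2)) (b (d (c (b z2 z2) z2) (b z2 z2)) (d (c (b z2 z2) z2) z2))) (d (c (b z2 z2) (b z2 z2)) (b (d z2 z2) z2)))) (d (b (d (c (b (d (c (a (b z0 z0) z2) (a (b z0 z0) z2)) (c (a (b z0 z0) z2) (a (b z0 z0) z2))) (d (c (b z2 z2) (b z2 z2)) (c (b z2 z2) (b z2 z2)))) (b (d (a (b z1 z1) z3) (a (b z1 z1) z3)) (d (b z3 z3) (b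 z3 z3)))) (c (b (d (c (a (b z0 z0) z2) (a (b z0 z0) z2)) (c z2 (a z0 z2))) (d (c (b z2 z2) (b z2 z2)) (c z2 (b z2 z2)))) (b (d (a (b z1 z1) z3) (a (b z0 z0) z2)) (d (b z3 z3) (b z2 z2))))) (d (c (b (d (c (b z2 z2) (b z2 z2)) (c (b z2 z2) (b z2 z2))) (d (c (b z2 z0) (b z2 z0)) (c (b z2 z0) (b z2 z0)))) (b (d (b z3 z3) (b z3 z3)) (d (b z3 z1) (b z3 z1)))) (c (b (d (c (b z2 z2) (b z2 z2)) (c (b z2 z2) (b z2 z2))) (d (c (b z2 z0) (b z2 z0)) (c (b z2 z0) (b z2 z0)))) (b (d (b z3 z3) (b z2 z2)) (d (b z3 z1) (b z2 z0)))))) (b (d (c (b z2 z2) (b z2 (d (b z2 z2) z2))) (b z2 z2)) (d (c (b (d (c (b z2 z2) (b z2 z2)) (c (b z2 z2) (b z2 z2))) (d (c (b z2 z0) (b z2 z0)) (c (b z2 z0) (b z2 z0)))) (b (d (b z2 z2) (b z2 z2)) (d (b z2 z0) (b z2 z0)))) (b (d (c (b z2 z2) (b z2 z2)) (b z2 z2)) (d (c (b z2 z0)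 (b z2 z0)) (b z2 z0))))))) _ _ (by decide +kernel)

theorem okB211 : CKB ⟨24576, 49152, 8192, 12288⟩ ⟨0, 12288, 8192, 12288⟩ :=
  ckB_sound (b (d (b (d (b (d z2 z0) z2) z0) (d (b z2 z2) z0)) z0) (d (b (d (b z2 z2) z0) (d (b (d (b z2 z2) z0) (d (b z2 z0) z0)) z0)) z0)) _ _ (by decide +kernel)

theorem okB212 : CKB ⟨24576, 49152, 4096, 8192⟩ ⟨12288, 24576, 4096, 12288⟩ :=
  ckB_sound (d (b z0 (d (b z0 (d (b z0 z3) (b z0 z3))) (b z0 (d (c (b z0 z3) (b z0 z3)) (c (b z0 z2) (b z0 z3)))))) (b z0 (d (b z0 (d (c (b z0 (d (c (b z0 z2) z2) z2)) (b z0 z3)) (b z0 z2))) z0))) _ _ (by decide +kernel)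

theorem okB213 : CKB ⟨24576, 49152, 8192, 12288⟩ ⟨12288, 24576, 4096, 8192⟩ :=
  ckB_sound (b (d (b (d (b z3 z3) (b z3 z3)) (d (b z3 (d z3 z3)) (b z3 z3))) (b (d (c (b z3 z3) (b z3 z3)) (c (b z2 z2) (b z3 (d z3 z3)))) (d (c (b z3 z3) (b z3 (d z3 z3))) (c (b z2 z2) (b (d z3 z3) (d (a z1 z3) (a (c z1 (b z3 z1)) z3))))))) (d (b (d (b (d (c (a (b z1 z1) z3) (a (b z1 z1) z3)) (c (a (b z1 z1) z3) (a (b z1 z1) z3))) (d (c (b z3 z3) (b z3 z3)) (c (b z3 z3) (b z3 z3)))) (b (d (c (a z1 z3) (a (b z1 z1) z3)) (c z3 (a (b z1 z1) z3))) (d (c (b z3 z3) (b z3 z3)) (c (b z3 z3) (b z3 z3))))) (d (b (d (c (b z3 z3) (b z3 z3)) (c (b z3 z3) (b z3 z3))) (d (c (b z3 z1) (b z3 z1)) (c (b z3 z1) (b z3 z1)))) (b (d (c (b z3 z3) (b z3 z3)) (c (b z3 z3) (b z3 z3))) (d (c (b z3 z1) (b z3 z1)) (c (b z3 z1) (b z3 z1))))))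 (b (d (c (b z3 (d (c (b z3 z3) (b z3 z3)) (c (b z2 z2) (b z3 z3)))) (b (d (a (b z1 z1) z3) (a (b z1 z1) z3)) (d (b z3 z3) (b z3 z3)))) (c (b z2 (d (c z2 (b z3 z3)) z2)) (b (d (a (b z1 (d z1 z1)) z3) (c z3 (a (b (d z1 z1) (d z1 (b z1 z1))) z3))) (d (b (d z3 (c z3 (a (b z1 z1) z3))) (d (c z3 (b z3 z3)) (c z3 (b z3 z3)))) (c (b z3 z3) (b (d (a (b z1 z1) z3) (a (b z1 z1) z3)) (d (b z3 z3) (b z3 z3)))))))) (d (c (b (d (c (b z3 z3) (b z3 z3)) (c (b z2 z2) (b z3 z3))) (d (c (b z3 z1) (b z3 z1)) (c (b z2 z0) (b z3 z1)))) (b (d (b z3 z3) (b z3 z3)) (d (b z3 z1) (b z3 z1)))) (c (b (d (c (b z2 z2) (b z3 z3)) (c (b z2 z2) (b z2 z2))) (d (c (b z2 z0) (b z3 z1)) (c (b z2 z0) (b z2 z0)))) (b (d (b (d (c z3 (b z3 z3)) (c z3 (b z3 z3))) (d (c z3 (b z3 z3)) (c z3 (b z3 z3)))) (c (b z3 z3) (b (d (b z3 z3) (b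 z3 z3)) (d (b z3 z3) (b z3 z3))))) (d (b (d z3 (c z3 (b z3 z3))) (d z1 (c z1 (b z3 z1)))) (c (b z3 z1) (b (d (b z3 z3) (b z3 z3)) (d (b z3 z1) (b z3 z1))))))))))) _ _ (by decide +kernel)

theorem okB214 : CKB ⟨24576, 49152, 8192, 12288⟩ ⟨12288, 24576, 8192, 12288⟩ :=
  ckB_sound (b (d (b (d (c (b (d z2 z2) z2) (b z3 z3)) (b z2 z2)) (d (c (b z2 z2) (b z3 z3)) (b z2 z2))) z0) (d (b (d (c (b z2 z2) (b (d (c z3 (a (b z1 z1) z3)) (c z2 (a (b z1 z1) z3))) (d (c (b z3 z3) (b (d (a (b z1 z1) z3) z3) (d (b z3 z3) (b z3 z3)))) (c (b z2 z2) (b z3 z3))))) (b z2 (d (b z2 z2) z2))) (d (c (b (d (c (b z2 z2) (b z2 z2)) (b z2 z2)) (d (c (b z2 z0) (b z2 z0)) (b z2 z0))) (b (d (c (b z3 z3) (b (d (b z3 z3) (b z3 z3)) (d (b z3 z3) (b z3 z3)))) (c (b z2 z2) (b z3 (d (b z3 z3) z3)))) (d (c (b z3 z1) (b (d (b z3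 z3) (b z3 z3)) (d (b z3 z1) (b z3 z1)))) (c (b z2 z0) (b (d (b z3 z3) (b z3 z3)) (d (b z3 z1) (b z3 z1))))))) (b (d (b z2 z2) (b z2 z2)) (d (b z2 (d (c z0 (b z2 z0)) z0)) (b z2 z0))))) z0)) _ _ (by decide +kernel)

theorem okB215 : CKB ⟨24576, 49152, 4096, 8192⟩ ⟨24576, 49152, 4096, 12288⟩ :=
  ckB_sound (d (b z0 (d z0 (b z0 (d z0 (b z0 z3))))) (b z0 (d (b z0 (d (b z0 z3) z3)) (b z0 (d (b z0 (d z3 z3)) (b z0 (d (b z0 (d z3 z3)) (b z0 (d z3 (b z0 (d z3 z2))))))))))) _ _ (by decide +kernel)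

theorem okB216 : CKB ⟨24576, 49152, 8192, 12288⟩ ⟨24576, 49152, 4096, 8192⟩ :=
  ckB_sound (b (d z0 (b (d z0 (b z3 (d z0 z3))) (d z0 (b (d z0 z3) (d z0 (a (b z3 z1) z3)))))) (d z0 (b (d z0 (b (d z0 (a (b (d z0 z1) (d z0 (b z1 z1))) z3)) (d z0 (b (d z0 (a (b z1 z1) z3)) (d z0 (b z3 z3)))))) (d z0 (b (d z0 (b (d z0 (b z3 z3)) (d z0 (b z3 z3)))) (d z0 (b (d z0 (b z3 z3)) (d z0 (b z3 z1))))))))) _ _ (by decide +kernel)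

theorem okB217 : CKB ⟨24576, 49152, 8192, 10240⟩ ⟨24576, 49152, 8192, 10240⟩ :=
  ckB_sound (b (d (b z3 (d z3 z3)) (b z3 (d z3 z3))) (d (b (d z3 z3) (d (a (b z3 (d z1 z1)) z3) (a (b (d z3 z3) (d (b z1 z1) (b z1 z1))) (b z3 (d z3 z3))))) (b (d (b z3 (d z3 z3)) (c z2 (b (d z3 z3) (d z3 z3)))) (d (a (b (d z3 (c z3 (a z1 z3))) (d (c z1 (b z1 (d z1 z1))) (c z1 (b (d z1 z1) (d z1 z1))))) (b (d z3 z3) (d z3 z3))) (a (c z0 (b (d (a z1 z3) (a (c z1 (b z1 (d z1 z1))) z3)) (d (b (d z1 z1) (d z1 z1)) (c z1 (b (d z1 z1) (d z1 z1)))))) (c z2 (b (d z3 z3) (d (a z3 z3) (a (c z3 (b z3 (d z3 z3))) z3))))))))) _ _ (by decide +kernel)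

theorem okB218 : CKB ⟨24576, 49152, 8192, 9216⟩ ⟨24576, 49152, 10240, 12288⟩ :=
  ckB_sound (d (b (d z3 z3) (d z3 (b (d z3 z3) (d z3 z3)))) (b (d (b (d z3 z3) (d z3 z3)) (b (d z3 (b (d z3 z2) (d z3 z2))) (d (b (d z3 z3) (d z3 z3)) (b (d z3 z2) (d z3 z2))))) (d (b (d z3 z3) (d z3 (b z3 (d z3 z3)))) (b (d (b (d z3 z3) (d z3 z3)) (b (d z3 (a z2 (b z2 (d z3 z2)))) (d z3 (a z2 (b (d z3 z2) (d z3 z2)))))) (d (b (d z3 z3) (d z3 z3)) (b (d z3 (a (b (d z3 z2) (d z3 z2)) (b (d z3 z2) (d z3 z2)))) (d z3 (a (b (d z3 z2) (d z3 z2)) (b (d z3 z2) (d z3 z2)))))))))) _ _ (by decide +kernel)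

theorem okB219 : CKB ⟨24576, 49152, 9216, 10240⟩ ⟨24576, 49152, 10240, 11264⟩ :=
  ckB_sound (b (d (c z2 (b (d z3 z3) (d z3 (a z3 z3)))) (b (d z3 z3) (d (a z3 z3) (a z3 z3)))) (d (a (c z0 (b (d (a (b z1 (d z1 z1)) z3) (a (b z1 (d z1 z1)) (b z3 (d z3 z3)))) (d (b (d z1 z1) (d z1 (a z1 z1))) (b (d z1 z1) (d (c z1 (a z1 z1)) (c z1 (a z1 z1))))))) (c z2 (b (d z3 z3) (d (a (b z3 (d z3 z3)) z3) (a (b (d z3 z3) (d z3 z3)) z3))))) (a (b (d (a (c z0 (b (d z1 z1) (d z1 z1))) (c z2 (b z3 (d z3 z3)))) (a (b (d z1 z1) (d z1 z1)) (b z3 (d z3 z3)))) (d (c z0 (b (d z1 z1) (d (a z1 z1) (a z1 z1)))) (b (d z1 z1) (d (c z0 (a z1 z1)) (c z0 (a z1 z1)))))) (b (d z3 z3) (d (c z2 (a (b (d z3 z3) (d z3 z3)) (b z3 (d z3 z3)))) (a (b (d z3 z3) (d z3 z3)) (b z3 (d z3 z3)))))))) _ _ (by decide +kernel)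

theorem okB220 : CKB ⟨24576, 49152, 9216, 9728⟩ ⟨24576, 49152, 11264, 12288⟩ :=
  ckB_sound (d (b (d z3 (a (b (d z3 z3) (d z3 z3)) (b z3 (d z3 z3)))) (d (a (b (d z3 z3) (d z3 z3)) z3) (a (b (d z3 z3) (d z3 z3)) (b (d z3 z3) (d z3 z3))))) (b (d (a (b (d z3 z3) (d z3 z3)) (b (d z3 z3) (d z3 z3))) (a (b (d z3 (a z2 (b (d z3 z2) (d z3 z2)))) (d z3 (a z2 (b (d z3 z2) (d z3 z2))))) (b (d z3 (b (d z3 z2) (d z3 z2))) (d z3 (a (b (d z3 z2) (d z3 z2)) (b (d z3 z2) (d z3 z2))))))) (d (a (b (d z3 z3) (d z3 z3)) (b (d z3 z3) (d z3 z3))) (a (b (d z3 (a (b (d z3 z2) (d z3 z2)) (b (d z3 z2) (d z3 z2)))) (d z3 (a (b (d z3 z2) (d z1 z0)) (b (d z3 z2) (d z3 z2))))) (b (d (a z3 z3) (a (b (d z3 z2) (d z3 z2)) (b (d z3 z2) (d z3 z2)))) (d (a (b z3 (d z3 z3)) (b z3 (d z3 z3))) (a (b (d z3 z2) (d z3 z2)) (b (d z3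 z2) (d z3 z2))))))))) _ _ (by decide +kernel)

theorem okB221 : CKB ⟨24576, 49152, 9728, 10240⟩ ⟨24576, 49152, 11264, 12288⟩ :=
  ckB_sound (d (a (b (d (a (b (d z1 z1) (d z1 z1)) (b (d z3 z3) (d z3 z3))) (a (b (d z1 z1) (d z1 z1)) (b (d z3 z3) (d z3 z3)))) (d (b (d z1 (a z1 z3)) (d z1 (a z1 z1))) (b (d (a z1 z3) (a z1 z3)) (d (a z1 z1) (a (b z1 z1) z1))))) (b (d (b z3 (d z3 z3)) (b (d z3 z3) (d z3 z3))) (d (a (b (d z3 z3) (d z3 z3)) (b z3 (d z3 z3))) (a (b (d z3 z3) (d z3 z3)) (b (d z3 z3) (d z3 z3)))))) (a (b (d (a (b (d z1 z1) (d z1 (a z1 z1))) (b (d z3 z3) (d z3 z3))) (a (b (d z1 (a z0 (b (d z3 z2) (d z1 z0)))) (d (a (b z1 z1) z1) (a (b (d z1 z0) (d z1 z0)) (b (d z1 z0) (d z1 z0))))) (b (d (a z3 (b (d z3 z3) (d z3 z3))) (a (b (d z3 z2) (d z3 z2)) (b (d z3 z2) (d z3 z2)))) (d (a (b z3 (d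 z3 z3)) (b (d z3 z3) (d z3 z3))) (a (b (d z3 z2) (d z3 z2)) (b (d z3 z2) (d z3 z2))))))) (d (b (d (a (b z1 z1) z3) (a (b (d z1 z1) (d z1 z1)) (b z3 (d z1 z1)))) (d (a (b z1 z1) z1) (a (b (d z1 z1) (d z1 z1)) (b (d z1 z1) (d z1 z1))))) (b (d (a (b (d z1 z1) (d z1 z1)) (b (d z3 z3) (d z1 z1))) (a (b (d z1 z0) (d z1 z0)) (b (d z3 z2) (d z1 z0)))) (d (a (b (d z1 z1) (d z1 z1)) (b (d z1 z1) (d z1 z1))) (a (b (d z1 z0) (d z1 z0)) (b (d z1 z0) (d z1 z0))))))) (b (d (b (d z3 z3) (d z3 (a z3 z3))) (b (d (a (b (d z3 z3) (d z3 z3)) (b (d z3 z3) (d z3 z3))) (a (b (d z3 z2) (d z3 z2)) (b (d z3 z2) (d z3 z2)))) (d (a (b (d z3 z3) (d z3 z3)) (b (d z3 z3) (d z3 z3))) (a (b (d z3 z2) (d z3 z2)) (b (d z3 z2) (d z3 z2)))))) (d (a (b (d z3 (a z3 z3)) (d (a z3 z3) (a (b (d z3 z3) (d z3 z3)) (b (d z3 z3) (d z3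 z3))))) (b (d z3 z3) (d z3 (b (d z3 z3) (d z3 z3))))) (a (b (d (a (b (d z3 z3) (d z3 z3)) (b (d z3 z3) (d z3 z3))) (a (b (d z3 z2) (d z3 z2)) (b (d z3 z2) (d z3 z2)))) (d (a (b (d z3 z3) (d z3 z3)) (b (d z3 z3) (d z3 z3))) (a (b (d z3 z2) (d z3 z2)) (b (d z3 z2) (d z3 z2))))) (b (d (b (d z3 z3) (d z3 z3)) (b (d z3 z2) (d z3 (a z2 z2)))) (d (b (d z3 z3) (d z3 z3)) (b (d z3 (a z2 (b z2 (d z3 z2)))) (d z3 (a (b z2 (d z3 z2)) (b (d z3 z2) (d z3 z2)))))))))))) _ _ (by decide +kernel)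

theorem okB222 : CKB ⟨24576, 49152, 10240, 11264⟩ ⟨24576, 49152, 8192, 9216⟩ :=
  ckB_sound (b (d (a (b (d (a (b z1 z1) z3) (a (b z1 z1) z3)) (d (b z1 z1) (b z1 z1))) (b z3 (d z3 z3))) (a (b (d (a (b z1 z1) z3) (a (b (d z1 z1) (d z1 z1)) z3)) (d (b (d z1 z1) (d z1 z1)) (b (d z1 z1) (d z1 (c z1 (b z1 z0)))))) (b (d z3 z3) (d (b z3 (d z3 z3)) (b z3 (d z3 z3)))))) (d (b (d (a (b z1 z1) z3) (a (b (d z1 z1) (d z1 z1)) z3)) (d (b (d z3 z3) (d z3 z3)) (b (d z3 (a (b z3 z1) z3)) (d (a z1 z3) (a (b z3 z1) z3))))) (b (d (a (b (d z1 (c z1 (a (b z1 z1) z3))) (d (c z1 (b z1 z1)) (c z1 (b z1 z1)))) z3) (a (b (d (c z1 (a (b z1 z1) z3)) (c z1 (a (b z1 z1) z3))) (d (c z1 (b z1 z1)) (c z1 (b z1 z1)))) z3)) (d (b (d (a (c z1 (b z3 z1)) z3) (c z3 (a (b z3 z1) z3))) (d (a (c z1 (b z3 z1)) z3) (c z3 (a (b z3 z1)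 z3)))) (b (d (c z3 (a (b z3 z1) z3)) (c z3 (a (b z3 z1) z3))) (d (c z3 (a (b z3 z1) z3)) (c z3 (a (b z3 z1) z3)))))))) _ _ (by decide +kernel)

theorem okB223 : CKB ⟨24576, 49152, 10240, 10752⟩ ⟨24576, 49152, 9216, 10240⟩ :=
  ckB_sound (d (a (b (d (c z1 (a (b (d z1 z1) (d z1 z1)) (b z3 (d z3 z3)))) (c z1 (a (b (d z1 z1) (d z1 (c z1 (b z1 z1)))) (b z3 (d z3 z3))))) (d (c z1 (b (d (b z1 z1) (c z1 (b z1 z1))) (d (b z1 z0) (c z1 (b z1 z0))))) (c z1 (b (d (c z1 (b z1 z1)) (c z1 (b z1 z1))) (d (c z1 (b z1 z0)) (c z1 (b z1 z0))))))) (b (d z3 z3) (d (c z3 (b (d z3 z3) (d (a z3 z3) (a z3 z3)))) (c z3 (b (d z3 z3) (d (a (c z3 (b z3 z1)) z3) (a (c z3 (b z3 (d z1 z1))) z3))))))) (c (a (b z0 z0) z2) (a (b (d (a (b (d (c z1 (a z1 z1)) (c z1 (a z1 z1))) (d (c z1 (b z1 z1)) (c z1 (b z1 z1)))) (b (d z3 z3)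 (d z3 z3))) (a (c z1 (b (d (a (b z1 z1) z1) (a (b z1 z1) z1)) (d (b z1 z1) (b z1 z1)))) (c z3 (b (d z3 z3) (d z3 z3))))) (d (b (d (c z1 (b z1 z1)) (c z1 (b z1 (d z1 z1)))) (d (c z1 (b z1 z0)) (c z1 (b (d z1 z1) z0)))) (c z1 (b (d (b (d z1 z1) (d z1 z1)) (b (d z1 z1) (d z1 z1))) (d (b (d z1 z1) z0) (b (d z1 z1) z0)))))) (b (d (b z3 (d z3 z3)) (c z3 (b z3 (d z3 z3)))) (d (b (d z3 z3) (d (a (c z3 (b z3 (d z1 z1))) z3) (a (c z3 (b z3 (d z1 z1))) z3))) (c z3 (b (d z3 z3) (d (a (b z3 (d z1 z1)) z3) (a (b (d z3 z3) (d z1 z1)) z3))))))))) _ _ (by decide +kernel)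

theorem okB224 : CKB ⟨24576, 49152, 10752, 11264⟩ ⟨24576, 49152, 9216, 9728⟩ :=
  ckB_sound (b (d (c z3 (a (b (d (a (b z1 z1) z3) (c z1 (a (b z1 z1) z3))) (d (b z1 z1) (c z1 (b (d z1 z1) (d z1 z1))))) (b z3 (d z3 z3)))) (c z3 (a (b (d (c z1 (a (b (d z1 z1) (d z1 z1)) z3)) (c z1 (a (b (d z1 z1) (d z1 z1)) z3))) (d (c z1 (b (d z1 z1) (d z1 z1))) (c z1 (b (d z1 z1) (d z1 z1))))) (b (d z3 z3) (d z3 z3))))) (d (c (b z3 z3) (b (d (a (b (d z3 z3) (d z1 z1)) z3) (a (c z1 (b (d z3 z3) (d z1 z1))) z3)) (d (a (b (d z3 z3) (d z1 z1)) z3) (a (c z1 (b (d z3 z3) (d z1 z1))) z3)))) (c (b z3 z3) (b (d (a (c z1 (b (d z3 z3) (d z1 z1))) z3) (c z3 (a (b (d z3 (a z1 z3)) (d z1 (c z1 (b z1 z1)))) z3))) (d (a (c z1 (b (d z3 z3) (d z1 z1))) z3) (c z3 (a (b (d (a z1 z3) (c z3 (a (b z1 z1) z3))) (d (c z1 (b z1 z1))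 (c z1 (b z1 z1)))) z3))))))) _ _ (by decide +kernel)

end Vale.Agent.Lib.P154Q4
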