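import Vale.Agent.Lib.P154Q4.CkBDefs

namespace Vale.Agent.Lib.P154Q4

set_option maxRecDepth 100000
set_option exponentiation.threshold 1000

open Tr

theorem okB225 : CKB ⟨24576, 49152, 10752, 11264⟩ ⟨24576, 49152, 9728, 10240⟩ :=
  ckB_sound (c (b z2 (d (c z2 (b z3 z3)) z2)) (b (d (a (b (d (a (c z1 (b (d z1 z1) (d z1 z1))) z3) (c z1 (a (b (d z1 z1) (d z1 z1)) z3))) (d (c z1 (b (d z1 z1) (d z1 z1))) (c z1 (b (d z1 (c z1 (a z1 z3))) (d z1 (c z1 (b z1 z1))))))) (b (d z3 z3) (d z3 (c z3 (a z3 z3))))) (a (c (b z1 z1) (b (d (a (b (d z1 z1) (d z1 z1)) z3) (a (b (d z1 z1) (d z1 z1)) (b z3 (d z3 z3)))) (d (b (d (a z1 z3) (c z1 (a (b z1 z1) z3))) (d (b z1 z1) (c z1 (b z1 z1)))) (b (d (c z1 (a (b z1 z1) z3)) (c z1 (a (b z1 z1) z3))) (d (c z1 (b z1 z1)) (c z1 (b z1 z1))))))) (c z3 (b (d z3 z3)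 (d (a (b z3 (d z3 z3)) z3) (a (b z3 (d z3 z3)) z3)))))) (d (b (d (a (c z1 (b (d (a z1 z3) (a (c z1 (b z1 z1)) z3)) (d (b z1 z1) (c z1 (b z1 z1))))) z3) (a (c z1 (b (d (a (c z1 (b z1 z1)) z3) (a (c z1 (b z1 z1)) z3)) (d (c z1 (b z1 z1)) (c z1 (b z1 z1))))) z3)) (d (a (c z1 (b (d (a (b z1 z1) z3) (a (c z1 (b z1 z1)) z3)) (d (b z1 z1) (c z1 (b z1 z1))))) z3) (c z3 (a (b (d (a (c z1 (b z1 z1)) z3) (c z3 (a (b z1 z1) z3))) (d (c z1 (b z1 z1)) (c z1 (b z1 z1)))) z3)))) (c (b z3 z3) (b (d (a (b (d (a (b z1 z1) z3) (a (c z1 (b z1 z1)) z3)) (d (b z1 z1) (c z1 (b z1 z1)))) z3) (a (b (d (c z3 (a (b z1 z1) z3)) (c z3 (a (b z1 z1) z3))) (d (c z1 (b z1 z1)) (c z1 (b z1 z1)))) (b z3 (d z3 z3)))) (d (a (b (d (a (b z1 z1) z3) (c z3 (a (b z1 z1) z3))) (d (b z1 z1) (c z1 (b z1 z1)))) z3) (a (b (d (c z3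 (a (b z1 z1) z3)) (c z3 (a (b z1 z1) z3))) (d (c z1 (b z1 z1)) (c z1 (b z1 z1)))) (b z3 (d z3 z3))))))))) _ _ (by decide +kernel)

theorem okB226 : CKB ⟨24576, 49152, 11264, 12288⟩ ⟨24576, 49152, 8192, 9216⟩ :=
  ckB_sound (b (d (b (d (b (d z3 z3) (d z3 z3)) (b (d (a z1 z3) (a (b z3 z1) z3)) (d (b z3 z3) (b z3 z3)))) (d (b (d z3 z3) z3) (b (d z3 (b z3 z3)) (d z3 (b z3 z3))))) (b (d (b (d (c z3 (a (b z3 z1) z3)) (c z3 (a (b z3 z1) z3))) (d (c z3 (b z3 z3)) (c z3 (b z3 z3)))) (b (d (c z3 (a (b z3 z1) z3)) (c z3 (a (b z3 z1) z3))) (d (c z3 (b z3 z3)) (c z3 (b z3 z3))))) (d (b (d (c z3 (b z3 z3)) (c z3 (b z3 z3))) (d (c z3 (b z3 z3)) (c z3 (b z3 z3)))) (b (d (c z3 (b z3 z3)) (c z3 (b z3 z3))) (d (c z3 (b z3 z3)) (c z3 (b z3 z3))))))) (d (b (d (b z3 z3) (b (d z3 z3) z3)) (d (b z3 z1) (b z3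 z1))) (b (d (b (d (c z3 (b z3 z3)) (c z3 (b z3 z3))) (d z3 z3)) (b (d (c z3 (b z3 z3)) (c z3 (b z3 z3))) (d (c z3 (b z3 z3)) (c z3 (b z3 z3))))) (d (b z3 z1) (b (d z3 z3) z1))))) _ _ (by decide +kernel)

theorem okB227 : CKB ⟨24576, 49152, 11264, 11776⟩ ⟨24576, 49152, 9216, 9728⟩ :=
  ckB_sound (b (d (c (b z3 z3) (b (d (a (b (d z3 z3) (d z1 z1)) z3) (c z3 (a (b (d z3 z3) (d z1 z1)) z3))) (d (b (d z3 z3) (d z3 z3)) (c z3 (b (d z3 z3) (d z3 z3)))))) (c (b z3 z3) (b (d (c z3 (a (b (d z3 (c z3 (a z1 z3))) (d z1 z1)) z3)) (c z3 (a (b (d (c z3 (a (b z1 z1) z3)) (c z3 (a (b z1 z1) z3))) (d (c z1 (b z1 z1)) (c z1 (b z1 z1)))) z3))) (d (c z3 (b (d z3 (a z1 z3)) (d z3 z3))) (c z3 (b (d (a (c z1 (b z3 z1)) z3) (a (c z1 (b z3 z1)) z3)) (d (a z1 z3) (c z3 (a (b z3 z1) z3))))))))) (d (c (b z3 z3) (b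 (d (b z3 z3) (c z3 (b (d z3 z3) (d z3 z3)))) (d (b z3 z3) (c z3 (b z3 z3))))) (c (b z3 z3) (b (d (c z3 (b (d z3 z3) (d z3 z3))) (c z3 (b (d z3 (c z3 (a z1 z3))) (d z3 z3)))) (d (c z3 (b (d z3 z3) z3)) (c z3 (b (d z3 z3) (d z3 z3)))))))) _ _ (by decide +kernel)

theorem okB228 : CKB ⟨24576, 49152, 11264, 11776⟩ ⟨24576, 49152, 9728, 10240⟩ :=
  ckB_sound (c (b (d (c z2 (b z3 z3)) z2) (d (c z2 (b z3 z3)) z2)) (b (d (b (d (c (a z1 z3) (a (b (d (a (b z1 z1) z3) (a (c z1 (b z1 z1)) z3)) (d (b z1 z1) (c z1 (b z1 z1)))) z3)) (c z3 (a (b (d (a (c z1 (b z1 z1)) z3) (c z3 (a (b z1 z1) z3))) (d (c z1 (b z1 z1)) (c z1 (b z1 z1)))) z3))) (d (c (b z3 z3) (b (d (a (b z3 z1) z3) (a (c z1 (b z3 z1)) z3)) (d (a (b z3 z1) z3) (a (c z1 (b z3 z1)) z3)))) (c z3 (b (d (a (c z1 (b z3 z1)) z3) (a (c z1 (b z3 z1))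 z3)) (d (a (c z1 (b z3 z1)) z3) (c z3 (a (b z3 z1) z3))))))) (c (b z3 z3) (b (d (a (b (d (a (b z1 z1) z3) (c z3 (a (b z1 z1) z3))) (d (b z1 z1) (c z1 (b z1 z1)))) z3) (a (b (d (c z3 (a (b z1 z1) z3)) (c z3 (a (b z1 z1) z3))) (d (c z1 (b z1 z1)) (c z1 (b z1 z1)))) z3)) (d (b (d (a (b z3 z1) z3) (a (c z1 (b z3 z1)) z3)) (d (a (b z3 z1) z3) (c z3 (a (b z3 z1) z3)))) (b (d (c z3 (a (b z3 z1) z3)) (c z3 (a (b z3 z1) z3))) (d (c z3 (a (b z3 z1) z3)) (c z3 (a (b z3 z1) z3)))))))) (d (b (d (c (b z3 z3) (b (d (a (b z3 z1) z3) (a (c z1 (b z3 z1)) z3)) (d (a z1 z3) (c z3 (a z1 z3))))) (c z3 (b (d (a (c z1 (b z3 z1)) z3) (c z3 (a (b z3 z1) z3))) (d (a (c z1 (b z3 z1)) z3) (c z3 (a (b z3 z1) z3)))))) (d (c (b z3 z3) (b (d z3 z3) (d z3 z3))) (c z3 (b (d z3 (c z3 (b z3 z3))) (d z3 z3))))) (c (b z3 z3)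 (b (d (b (d (a (b z3 z1) z3) (c z3 (a (b z3 z1) z3))) (d (a (b z3 z1) z3) (c z3 (a (b z3 z1) z3)))) (b (d (c z3 (a (b z3 z1) z3)) (c z3 (a (b z3 z1) z3))) (d (c z3 (a (b z3 z1) z3)) (c z3 (a (b z3 z1) z3))))) (d (b (d (b z3 z3) (c z3 (b z3 z3))) (d z3 z3)) (b (d (c z3 (b z3 z3)) (c z3 (b z3 z3))) (d z3 z3)))))))) _ _ (by decide +kernel)

theorem okB229 : CKB ⟨24576, 49152, 11776, 12288⟩ ⟨24576, 49152, 9216, 10240⟩ :=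
  ckB_sound (d (b (d (c (b z3 z3) (b (d (b z3 z3) (c z3 (b z3 z3))) (d (b z3 z3) (c z3 (b z3 z3))))) (c (b z3 z3) (b (d (c z3 (b z3 z3)) (c z3 (b z3 z3))) (d (c z3 (b z3 z3)) (c z3 (b z3 z3)))))) (d (c (b z3 z1) (b (d (b z3 z3) (c z3 (b z3 z3))) (d z1 z1))) (c (b z3 z1) (b (d (c z3 (b z3 z3)) (c z3 (b z3 z3))) (d z1 z1))))) (c (b (d (c z2 (b z3 z3)) (b z2 z2)) (d (c (b z2 z0) (b z3 z1)) (b z2 z0))) (b (d (b (d (c z3 (b (d z3 z3) z3)) (c z3 (b (d z3 z3) z3))) (d (c z3 (b z3 z3)) (c z3 (b z3 z3)))) (c (b z3 z3) (b (d (b (d z3 z3) (d z3 z3)) (b (d z3 z3) (d z3 z3))) (d (b z3 z3) (b z3 z3))))) (d (b (d (c z3 (b z3 z3)) (c z3 (b z3 z3))) (d z1 z1)) (c (b z3 z1) (b (d (b z3 z3) (b z3 z3)) (d z1 z1))))))) _ _ (by decide +kernel)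

theorem okB230 : CKB ⟨24576, 49152, 10240, 10752⟩ ⟨24576, 49152, 10240, 11264⟩ :=
  ckB_sound (d (a (c (b z0 z0) (b (d (a (b (d (a (b z1 z1) z1) (c z1 (a (b z1 z1) z1))) (d (b z1 z1) (c z1 (b z1 z1)))) (b (d z3 z3) (d z3 (c z3 (b z3 z1))))) (a (b (d (c z1 (a (b z1 z1) z1)) (c z1 (a (b z1 z1) z1))) (d (c z1 (b z1 z1)) (c z1 (b z1 z1)))) (b (d z3 z3) (d (c z3 (b z3 (d z1 z1))) (c z3 (b z3 (d z1 z1))))))) (d (b (d (b (d z1 z1) (d z1 z1)) (c z1 (b (d z1 z1) (d z1 z1)))) (d (b (d z1 z1) z0) (c z1 (b (d z1 z1) z0)))) (b (d (c z1 (b (d z1 z1) (d z1 z1))) (c z1 (b (d z1 z1) (d z1 z1)))) (d (c z1 (b (d z1 z1) z0)) (c z1 (b (d z1 z1) z0))))))) (c z2 (b (d (b (d z3 z3) (d z3 z3)) (b (d z3 z3) (d z3 z3))) (d (b (d (a z3 z3) (a z3 z3)) (d (a (b (d z3 z3) (d z1 z1)) z3) (a (c z3 (b (d z3 z3) (d z1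 z1))) z3))) (b (d (a z3 z3) (c z3 (a z3 z3))) (d (a (c z3 (b (d z3 z3) (d z1 z1))) z3) (a (c z3 (b (d z3 z3) (d z1 z1))) z3))))))) (a (b (d (c z0 (a (b (d (a (b z1 z1) z1) (c z1 (a (b z1 z1) z1))) (d (b z1 z1) (c z1 (b z1 (d z1 z1))))) (b (d z3 z3) (d (b z3 (d z1 z1)) (c z3 (b z3 (d z1 z1))))))) (a (b (d (c z0 (a (b z1 z1) z1)) (c z0 (a (b z1 z1) z1))) (d (c z0 (b z1 (d z1 z1))) (c z0 (b z1 (d z1 z1))))) (b (d z3 z3) (d (c z2 (b z3 (d z1 z1))) (c z2 (b z3 (d z1 z1))))))) (d (c z0 (b (d (b (d z1 z1) (d z1 z1)) (c z1 (b (d z1 z1) (d z1 z1)))) (d (b (d z1 z1) z0) (c z1 (b (d z1 z1) z0))))) (b (d (c z0 (b (d z1 z1) (d z1 z1))) (c z0 (b (d z1 z1) (d z1 z1)))) (d (c z0 (b (d z1 z1) z0)) (c z0 (b (d z1 z1) z0)))))) (b (d (c z2 (b (d z3 z3) (d z3 z3))) (b (d z3 z3) (d z3 z3))) (d (c z2 (b (d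 (a (b z3 (d z3 z3)) z3) (a (c z3 (b z3 (d z3 z3))) z3)) (d (a (b (d z3 z3) (d z1 z1)) z3) (a (c z3 (b (d z3 z3) (d z1 z1))) z3)))) (b (d (a (c z2 (b z3 (d z3 z3))) z3) (a (c z2 (b z3 (d z3 z3))) z3)) (d (a (c z2 (b (d z3 z3) (d z1 z1))) z3) (a (c z2 (b (d z3 z3) (d z1 z1))) z3))))))) _ _ (by decide +kernel)

theorem okB231 : CKB ⟨24576, 49152, 10752, 11264⟩ ⟨24576, 49152, 10240, 10752⟩ :=
  ckB_sound (c (b (d (a (c z0 (b z1 z1)) z2) z2) (d (c z2 (b z3 z3)) z2)) (b (d (a (b (d (a (b (d z1 z1) (d z1 z1)) (b z3 (d z3 z3))) (c z1 (a (b (d z1 z1) (d (b z1 z1) (c z1 (b z1 z1)))) (b z3 (d z3 z3))))) (d (b (d (c z1 (a (b z1 z1) z3)) (c z1 (a (b z1 z1) z3))) (d (c z1 (b z1 z1)) (c z1 (b z1 z1)))) (c z1 (b (d (a (b z1 z1) z3) (c z1 (a (b z1 z1) z3))) (d (b z1 z1) (c z1 (b z1 z1))))))) (b (d z3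 z3) (d (a (b (d z3 z3) (d z3 z3)) z3) (c z3 (a (b (d z3 z3) (d z3 z3)) z3))))) (a (b (d (c z1 (a (b (d z1 z1) (d (c z1 (b z1 z1)) (c z1 (b z1 z1)))) (b (d z3 z3) (d z3 z3)))) (c z1 (a (b (d z1 z1) (d (c z1 (b z1 z1)) z1)) (b (d z3 z3) (d z3 z3))))) (d (c z1 (b (d (c z1 (a (b z1 z1) z3)) (c z1 (a (b z1 z1) z3))) (d (c z1 (b z1 z1)) (c z1 (b z1 z1))))) (c z1 (b (d (c z1 (a (b z1 z1) z3)) (c z1 (a (b z1 z1) z3))) (d (c z1 (b z1 z1)) (c z1 (b z1 z1))))))) (b (d z3 z3) (d (c z3 (a (b (d z3 z3) (d z3 z3)) z3)) (c z3 (a (b (d z3 z3) (d z3 z3)) z3)))))) (d (b (d (a (b (d (a (c z1 (b z1 z1)) z3) (c z3 (a (b z1 z1) z3))) (d (c z1 (b z1 z1)) (c z1 (b z1 z1)))) (b z3 (d z3 z3))) (a (c z1 (b (d (a (b z1 z1) z3) (a (c z1 (b z1 z1)) z3)) (d (b z1 z1) (c z1 (b z1 z1))))) (c z3 (b z3 (d z3 z3))))) (d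 (a (b (d (c z3 (a (b z1 z1) z3)) (c z3 (a (b z1 z1) z3))) (d (c z1 (b z1 z1)) (c z1 (b z1 z1)))) (b z3 (d z3 z3))) (a (c z1 (b (d (a (b z1 z1) z3) (a (c z1 (b z1 z1)) z3)) (d (b z1 z1) (c z1 (b z1 z1))))) (c z3 (b z3 (d z3 z3)))))) (b (d (c z3 (a (b (d (a (c z1 (b z1 z1)) z3) (c z3 (a (b z1 z1) z3))) (d (c z1 (b z1 z1)) (c z1 (b z1 z1)))) (b z3 (d z3 z3)))) (c z3 (a (b (d (a (c z1 (b z1 z1)) z3) (c z3 (a (b z1 z1) z3))) (d (c z1 (b z1 z1)) (c z1 (b z1 z1)))) (b (d z3 z3) (d z3 z3))))) (d (c z3 (a (b (d (a (c z1 (b z1 z1)) z3) (c z3 (a (b z1 z1) z3))) (d (c z1 (b z1 z1)) (c z1 (b z1 z1)))) (b z3 (d z3 z3)))) (c z3 (a (b (d (c z3 (a (b z1 z1) z3)) (c z3 (a (b z1 z1) z3))) (d (c z1 (b z1 z1)) (c z1 (b z1 z1)))) (b (d z3 z3) (d z3 z3))))))))) _ _ (by decide +kernel)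

theorem okB232 : CKB ⟨24576, 49152, 10752, 11264⟩ ⟨24576, 49152, 10752, 11264⟩ :=
  ckB_sound (b (d (a (c (b z0 z0) (b (d (a (b (d z1 z1) (d z1 z1)) (b (d z3 z3) (d z3 z3))) (a (c z1 (b (d z1 z1) (d z1 z1))) (c z3 (b (d z3 z3) (d z3 z3))))) (d (b (d (a (b z1 z1) z3) (c z1 (a (b z1 z1) z3))) (d (b z1 z1) (c z1 (b z1 z1)))) (c z1 (b (d (a (b z1 z1) z3) (a (b z1 z1) z3)) (d (b z1 z1) (b z1 z1))))))) (c z2 (b (d z3 z3) (d (a (b (d z3 z3) (d z3 z3)) z3) (a (c z3 (b (d z3 z3) (d z3 z3))) (c z3 (b z3 (d z3 z3)))))))) (a (b (d (c z0 (a (b (d z1 z1) (d z1 z1)) (b (d z3 z3) (d z3 z3)))) (c z0 (a (b (d z1 z1) (d z1 z1)) (b (d z3 z3) (d z3 z3))))) (d (c z0 (b (d (a (b z1 z1) z3) (c z1 (a z1 z3))) (d (b z1 z1) (c z1 (b z1 z1))))) (c z0 (b (d (a z1 z3) (c z1 (a z1 z3))) (d (b z1 z1) (c z1 (b z1 z1)))))))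 (b (d (c z2 (b z3 (d z3 z3))) (c z2 (b z3 (d z3 z3)))) (d (c z2 (a (b (d z3 z3) (d z3 z3)) (b z3 (d z3 z3)))) (c z2 (a (b (d z3 z3) (d z3 z3)) (b z3 (d z3 z3)))))))) (d (c (b z2 z2) (b (d (a (b (d (a (b z1 z1) z3) (a (c z1 (b z1 z1)) z3)) (d (b z1 z1) (c z1 (b z1 z1)))) (b (d z3 z3) (d z3 z3))) (a (c z1 (b (d (a (b z1 z1) z3) (a (b z1 z1) z3)) (d (b z1 z1) (b z1 z1)))) (c z3 (b (d z3 z3) (d z3 z3))))) (d (a (b (d (a (b z1 z1) z3) (c z3 (a (b z1 z1) z3))) (d (b z1 z1) (c z1 (b z1 z1)))) (b (d z3 z3) (d z3 z3))) (a (c z1 (b (d (a (b z1 z1) z3) (a (b z1 z1) z3)) (d (b z1 z1) (b z1 z1)))) (c z3 (b (d z3 z3) (d z3 z3))))))) (b (d (a (c z0 (b (d (a (b z1 z1) z3) (a (c z1 (b z1 z1)) z3)) (d (b z1 z1) (c z1 (b z1 z1))))) (c z2 (b (d z3 z3) (d z3 z3)))) (a (c z0 (b (d (a (b z1 z1) z3) (a (c z1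 (b z1 z1)) z3)) (d (b z1 z1) (c z1 (b z1 z1))))) (c z2 (b (d z3 z3) (d z3 z3))))) (d (c z2 (a (b (d (a (b z1 z1) z3) (c z3 (a (b z1 z1) z3))) (d (b z1 z1) (c z1 (b z1 z1)))) (b (d z3 z3) (d z3 z3)))) (a (c z0 (b (d (a (b z1 z1) z3) (a (c z1 (b z1 z1)) z3)) (d (b z1 z1) (c z1 (b z1 z1))))) (c z2 (b (d z3 z3) (d z3 z3)))))))) _ _ (by decide +kernel)

theorem okB233 : CKB ⟨24576, 49152, 10240, 10752⟩ ⟨24576, 49152, 11264, 11776⟩ :=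
  ckB_sound (a (b (d (a (b (d (c z0 (a (b z1 z1) z1)) (a (b z1 z1) z1)) (d (c z0 (b (d z1 z1) (d z1 z1))) (b (d z1 z1) (d z1 z1)))) (b (d z3 z3) (d (c z2 (b z3 (d z1 z1))) (b (d z3 z3) (d z1 z1))))) (a (b (d (a (b z1 z1) z1) (a (b (d z1 z1) (d z1 z1)) (b z1 (d z1 z1)))) (d (b (d z1 z1) (d z1 z1)) (b (d z1 z1) (d z1 z1)))) (b (d z3 (b z3 (d z3 z3))) (d (b (d z3 z3) (d z1 z1)) (b (d z3 z3) (d z1 z1)))))) (d (b (d (c z0 (b (d z1 z1) (d z1 z1))) (b (d z1 z1) (d z1 z1))) (d (c z0 (b (d z1 z1) z0)) (b (d z1 z1) z0))) (b (d (b (d z1 z1) (d z1 z1)) (b (d z1 z1) (d z1 z1))) (d (b (d z1 z1) z0) (b (d z1 z1) z0))))) (b (d (b (d z3 z3) (d z3 z3)) (b (d z3 z3) (d z3 (a z3 z3)))) (d (b (d (a (c z2 (b z3 (d z3 z3))) z3) (a (b z3 (d z3 z3)) z3)) (d (a (c z2 (b (d z3 z3) (d z1 z1))) (c z2 (b z3 (d z3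 z3)))) (a (b (d z3 z3) (d z1 z1)) (b z3 (d z3 z3))))) (b (d (a (b z3 (d z3 z3)) z3) (a (b (d z3 z3) (d z3 z3)) z3)) (d (a (b (d z3 z3) (d z1 z1)) (b z3 (d z3 z3))) (a (b (d z3 z3) (d z1 z1)) (b z3 (d z3 z3)))))))) _ _ (by decide +kernel)

theorem okB234 : CKB ⟨24576, 31698, 10240, 10752⟩ ⟨24576, 49152, 11776, 12288⟩ :=
  ckB_sound (b (d (a (b (d (a (b (d z1 z1) (d z1 z1)) (b (d z1 z1) (d z1 z1))) (a (b (d z1 z1) (d z1 z1)) (b (d z1 z1) (d z1 z1)))) (d (b (d z1 z1) (d z1 z1)) (b (d z1 z1) (d z1 z1)))) (b (d (b (d z3 z3) (d z3 z3)) (b (d z3 z3) (d z3 z3))) (d (b (d z3 z3) (d z1 z1)) (b (d z3 z3) (d z1 z1))))) (a (b (d (a (b (d z1 z1) (d z1 z1)) (b (d z1 z1) (d z1 z1))) (a (b (d z1 z0) (d z1 z0)) (b (d z1 z0) (d z1 z0)))) (d (b (d z1 z1) (d z1 z1)) (b (d z1 (b z0 z0)) (d z1 (b z0 z0)))))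 (b (d (b (d z3 z3) (d z3 z3)) (b (d z3 (a z2 (b (d z3 z2) (d z3 z2)))) (d z3 (a z2 (b (d z3 z2) (d z3 z2)))))) (d (b (d z3 z3) (d z1 z1)) (b (d z3 (a z0 (b (d z3 z2) (d z3 z2)))) (d (a z1 z3) (a (b z0 (d z1 z0)) (b (d z3 z2) (d z3 z2))))))))) (d (b (d (b (d z1 z1) (d z1 z1)) (b (d z1 z1) (d z1 z1))) (d (b (d z1 z1) z0) (b (d z1 z1) z0))) (b (d (b (d z1 (a z1 z1)) (d z1 (a (b z1 z1) z1))) (b (d (a (b z1 z1) z1) (a (b (d z1 z0) (d z1 z0)) (b (d z3 z2) (d z1 z0)))) (d (a (b (d z1 z1) (d z1 z1)) z1) (a (b (d z1 z0) (d z1 z0)) (b (d z1 z0) (d z1 z0)))))) (d (b (d z1 (b z1 z1)) z0) (b (d (b (d z1 z1) (d z1 z1)) (b (d z1 z0) (d z1 z0))) z0))))) _ _ (by decide +kernel)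

theorem okB235 : CKB ⟨31698, 49152, 10240, 10752⟩ ⟨24576, 49152, 11776, 12288⟩ :=
  ckB_sound (b (d (b (d z3 (b (d z3 z3) (d z3 z3))) (d (a (b z3 (d z3 z3)) z3) (a (b (d z3 z3) (d z3 z3)) (b (d z3 z3) (d z3 z3))))) (b (d (b (d z3 z3) (d z3 z3)) (b (d z3 (a (b (d z3 z2) (d z3 z2)) (b (d z3 z2) (d z3 z2)))) (d z3 (a (b (d z3 z2) (d z3 z2)) (b (d z3 z2) (d z3 z2)))))) (d (a (b (d z3 z3) (d z3 z3)) (b (d z3 z3) (d z3 z3))) (a (b (d z3 (a (b (d z3 z2) (d z3 z2)) (b (d z3 z2) (d z3 z2)))) (d z3 (a (b (d z3 z2) (d z3 z2)) (b (d z3 z2) (d z3 z2))))) (b (d z3 (b (d z3 z2) (d z3 z2))) (d z3 (a (b (d z3 z2) (d z3 z2)) (b (d z3 z2) (d z3 z2))))))))) (d (b (d (a (b (d z3 z3) (d z3 z3)) (b z3 (d z3 z3))) (a (b (d z3 z3) (d z3 z3)) (b (d z3 z3) (d z3 z3)))) (d (a (b (d z3 z3) (d z1 z1)) (b (d z3 z3)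 (d z3 z3))) (a (b (d z3 z3) (d (a z1 z3) (a (b z1 z1) z3))) (b (d z3 z3) (d z3 z3))))) (b (d (a (b (d z3 z3) (d z3 z3)) (b (d z3 z3) (d z3 z3))) (a (b (d (a z3 z3) (a (b (d z3 z2) (d z3 z2)) (b (d z3 z2) (d z3 z2)))) (d (a (b (d z3 z3) (d z3 z3)) (b (d z3 z3) (d z3 z3))) (a (b (d z3 z2) (d z3 z2)) (b (d z3 z2) (d z3 z2))))) (b (d (a z3 z3) (a (b (d z3 z2) (d z3 z2)) (b (d z3 z2) (d z3 z2)))) (d (a (b (d z3 z3) (d z3 z3)) (b z3 (d z3 z3))) (a (b (d z3 z2) (d z3 z2)) (b (d z3 z2) (d z3 z2))))))) (d (a (b (d (a z1 z3) (a (b z1 (d z1 z1)) z3)) (d (a (b z1 z1) z3) (a (b (d z1 z1) (d z1 z1)) (b z3 (d z3 z3))))) (b (d z3 z3) (d z3 (a z3 z3)))) (a (b (d (a (b (d z1 z1) (d z1 z1)) (b (d z3 z3) (d z3 z3))) (a (b (d z1 z0) (d z1 z0)) (b (d z3 z2) (d z3 z2)))) (d (a (b (d z1 z1) (d z1 z1)) (b (d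 z3 z3) (d z3 z3))) (a (b (d z1 z0) (d z1 z0)) (b (d z3 z2) (d z3 z2))))) (b (d (a (b (d z3 z3) (d z3 z3)) (b z3 (d z3 z3))) (a (b (d z3 z2) (d z3 z2)) (b (d z3 z2) (d z3 z2)))) (d (a (b (d z3 z3) (d z3 z3)) (b (d z3 z3) (d z3 z3))) (a (b (d z3 z2) (d z3 z2)) (b (d z3 z2) (d z3 z2)))))))))) _ _ (by decide +kernel)

theorem okB236 : CKB ⟨24576, 49152, 10752, 11264⟩ ⟨24576, 49152, 11264, 11776⟩ :=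
  ckB_sound (b (d (a (b (d (a (c z0 (b (d z1 z1) (d z1 z1))) (c z2 (b (d z3 z3) (d z3 z3)))) (a (b (d z1 z1) (d z1 z1)) (b (d z3 z3) (d z3 z3)))) (d (c z0 (b (d (a z1 z3) z1) (d z1 z1))) (b (d z1 z1) (d z1 z1)))) (b (d (c z2 (b z3 (d z3 z3))) (b z3 (d z3 z3))) (d (c z2 (a (b (d z3 z3) (d z3 z3)) (b z3 (d z3 z3)))) (a (b (d z3 z3) (d z3 z3)) (b z3 (d z3 z3)))))) (a (b (d (a (b (d z1 z1) (d z1 z1)) (b (d z3 z3) (d z3 z3))) (a (b (d z1 z1) (d z1 z1)) (b (d z3 z3) (d z3 z3)))) (d (b (d z1 z1) (d z1 z1)) (b (d z1 z1) (d z1 z1)))) (b (d (b z3 (d z3 z3)) (b z3 (d z3 z3))) (d (a (b (d z3 z3) (d z3 z3)) (b z3 (d z3 z3))) (a (b (d z3 z3) (d z3 z3)) (b z3 (d z3 z3))))))) (d (b (d (a (c z0 (b (d (a (b z1 z1) z3) (a (c z1 (b z1 z1)) z3)) (d (b z1 z1) (c z1 (b z1 z1))))) (c z2 (b (d z3 z3) (d z3 z3))))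 (a (b (d (c z2 (a (b z1 z1) z3)) (a (c z0 (b z1 z1)) z3)) (d (c z0 (b z1 z1)) (c z0 (b z1 z1)))) (b (d z3 z3) (d z3 z3)))) (d (a (c z0 (b (d (a (b z1 z1) z3) (a (c z1 (b z1 z1)) z3)) (d (b z1 z1) (c z1 (b z1 z1))))) (c z2 (b (d z3 z3) (d z3 z3)))) (a (b (d (c z2 (a (b z1 z1) z3)) (c z2 (a (b z1 z1) z3))) (d (c z0 (b z1 z1)) (c z0 (b z1 z1)))) (b (d z3 z3) (d z3 z3))))) (b (d (a (b (d (a (c z0 (b z1 z1)) z3) (a (c z0 (b z1 z1)) z3)) (d (c z0 (b z1 z1)) (c z0 (b z1 z1)))) (b (d z3 z3) (d z3 z3))) (a (b (d (a (b z1 z1) z3) (a (b z1 z1) z3)) (d (b z1 z1) (b z1 z1))) (b (d z3 z3) (d z3 z3)))) (d (a (b (d (a (c z0 (b z1 z1)) z3) (a (c z0 (b z1 z1)) z3)) (d (c z0 (b z1 z1)) (c z0 (b z1 z1)))) (b (d z3 z3) (d z3 z3))) (a (b (d (a (b z1 z1) z3) (a (b z1 z1) z3)) (d (b z1 z1) (b z1 z1))) (b (d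 z3 z3) (d z3 z3))))))) _ _ (by decide +kernel)

theorem okB237 : CKB ⟨24576, 49152, 10752, 11008⟩ ⟨24576, 49152, 11776, 12032⟩ :=
  ckB_sound (a (b (d (a (b (d z1 z1) (d z1 z1)) (b (d z3 z3) (d z3 z3))) (a (b (d (a z1 z1) (a (b z1 z1) z1)) (d (b z1 z1) (b z1 z1))) (b (d z3 z3) (d z3 z3)))) (d (b (d (a z1 z3) (a (b z1 z1) z3)) (d (b z1 z1) (b z1 z1))) (b (d (a (b z1 z1) z3) (a (b (d z1 z1) (d z1 z1)) z3)) (d (b (d z1 z1) z1) (b (d z1 z1) (d z1 z1)))))) (b (d (b (d z3 z3) (d z3 z3)) (b (d z3 z3) (d z3 z3))) (d (a (b (d z3 z3) (d z3 z3)) (b (d z3 z3) (d z3 z3))) (a (b (d z3 z3) (d (a z3 z3) (a (b z3 (d z1 z1)) z3))) (b (d z3 z3) (d z3 z3)))))) _ _ (by decide +kernel)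

theorem okB238 : CKB ⟨24576, 49152, 10752, 11008⟩ ⟨24576, 49152, 12032, 12288⟩ :=
  ckB_sound (a (b (d (a (b (d (a (b (d z1 z1) (d z1 z1)) z1) (a (b (d z1 z1) (d z1 z1)) (b (d z3 z3) (d z1 z1)))) (d (b (d z1 z1) (d z1 z1)) (b (d z1 z1) (d z1 z1)))) (b (d z3 (a (b z3 (d z3 z3)) z3)) (d (a (b z3 (d z1 z1)) z3) (a (b (d z3 z3) (d z1 z1)) (b (d z3 z3) (d z3 z3)))))) (a (b (d (a (b (d z1 z1) (d z1 z1)) (b (d z3 z3) (d z1 z1))) (a (b (d z1 z0) (d z1 z0)) (b (d z3 z2) (d z1 z0)))) (d (b (d z1 z1) (d z1 z1)) (b (d z1 z0) (d z1 z0)))) (b (d (a (b (d z3 z3) (d z3 z3)) (b (d z3 z3) (d z3 z3))) (a (b (d z3 z2) (d z3 z2)) (b (d z3 z2) (d z3 z2)))) (d (a (b (d z3 z3) (d z1 z1)) (b (d z3 z3) (d z3 z3))) (a (b (d z3 z2) (d z1 z0)) (b (d z3 z2) (d z3 z2))))))) (d (b (d (a (b (d z1 z1) (d z1 z1)) (b (d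 z3 z3) (d z1 z1))) (a (b (d z1 z1) (d z1 z1)) (b (d z3 z3) (d z1 z1)))) (d (b (d z1 z1) (d z1 z1)) (b (d z1 z1) (d z1 z1)))) (b (d (a (b (d z1 z1) (d z1 z1)) (b (d z3 z3) (d z1 z1))) (a (b (d z1 z0) (d z1 z0)) (b (d z3 z2) (d z1 z0)))) (d (b (d z1 z1) (d z1 z1)) (b (d z1 (a z0 z0)) (d z1 (b z0 z0))))))) (b (d (b (d z3 z3) (d z3 (a (b z3 (d z3 z3)) z3))) (b (d (b (d z3 z3) (d z3 z3)) (b (d z3 z2) (d z3 z2))) (d (a (b (d z3 z3) (d z3 z3)) (b (d z3 z3) (d z3 z3))) (a (b (d z3 z2) (d z3 z2)) (b (d z3 z2) (d z3 z2)))))) (d (a (b (d (a z3 z3) (a (b (d z3 z3) (d z3 z3)) (b z3 (d z3 z3)))) (d (a (b (d z3 z3) (d z1 z1)) (b z3 (d z3 z3))) (a (b (d z3 z3) (d z1 z1)) (b (d z3 z3) (d z3 z3))))) (b (d z3 z3) (d z3 (b (d z3 z3) (d z3 z3))))) (a (b (d (a (b (d z3 z3) (d z3 z3)) (b (d z3 z3) (d z3 z3)))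 (a (b (d z3 z2) (d z3 z2)) (b (d z3 z2) (d z3 z2)))) (d (a (b (d z3 z3) (d z1 z1)) (b (d z3 z3) (d z3 z3))) (a (b (d z3 z2) (d z1 z0)) (b (d z3 z2) (d z3 z2))))) (b (d (b (d z3 z3) (d z3 z3)) (b (d z3 z2) (d z3 z2))) (d (b (d z3 z3) (d z3 z3)) (b (d z3 z2) (d z3 z2)))))))) _ _ (by decide +kernel)

theorem okB239 : CKB ⟨24576, 49152, 11008, 11264⟩ ⟨24576, 49152, 11776, 12288⟩ :=
  ckB_sound (d (b (d (a (b (d (a (b z1 z1) z3) (a (b (d z1 z1) z1) z3)) (d (b z1 z1) (b (d z1 z1) (d z1 z1)))) (b (d z3 z3) (d z3 z3))) (a (b (d (a (b (d z1 z1) (d z1 z1)) z3) (a (b (d z1 z1) (d z1 z1)) (b z3 (d z3 z3)))) (d (b (d z1 z1) (d z1 z1)) (b (d z1 z1) (d z1 z1)))) (b (d z3 z3) (d z3 (a z3 z3))))) (d (a (b (d (a (b z1 z1) z3) (a (b (d z1 z1) (d z1 z1)) z3)) (d (b z1 z1) (b (d z1 z1) (d z1 z1)))) (b (d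 z3 z3) (d z3 z3))) (a (b (d (a (b (d z1 z1) (d z1 z1)) z3) (a (b (d z1 z1) (d z1 z1)) (b z3 (d z3 z3)))) (d (b (d z1 z1) (d z1 z1)) (b (d z1 z1) (d z1 z1)))) (b (d z3 z3) (d z3 (a z3 z3)))))) (b (d (a (b (d (a (b (d z1 z1) (d z1 z1)) (b (d z3 z3) (d z3 z3))) (a (b (d z1 z1) (d z1 z1)) (b (d z3 z3) (d z3 z3)))) (d (b (d z1 z1) (d z1 z1)) (b (d z1 z1) (d z1 z1)))) (b (d z3 (b (d z3 z3) (d z3 z3))) (d (a (b (d z3 z3) (d z3 z3)) z3) (a (b (d z3 z3) (d z3 z3)) (b z3 (d z3 z3)))))) (a (b (d (a (b (d z1 z1) (d z1 z1)) (b (d z3 z3) (d z3 z3))) (a (b (d (a z1 z3) (a (b z0 z0) z2)) (d z1 (b z0 z0))) (b (d z3 z2) (d z3 z2)))) (d (b (d z1 z1) (d z1 z1)) (b (d (a (b z1 z1) z3) (a (b (d z1 z1) z0) z2)) (d (a (b z1 z1) z1) (a (b z0 z0) z0))))) (b (d (b (d z3 z3) (d z3 z3)) (b (d z3 z2) (d z3 z2))) (d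 (a (b (d z3 z3) (d z3 z3)) (b (d z3 z3) (d z3 z3))) (a (b (d z3 z2) (d z3 z2)) (b (d z3 z2) (d z3 z2))))))) (d (a (b (d (a (b (d z1 z1) (d z1 z1)) (b (d z3 z3) (d z3 z3))) (a (b (d z1 z1) (d z1 z1)) (b (d z3 z3) (d z3 z3)))) (d (b (d z1 z1) (d z1 z1)) (b (d z1 z1) (d z1 z1)))) (b (d z3 (b (d z3 z3) (d z3 z3))) (d (a (b (d z3 z3) (d z3 z3)) z3) (a (b (d z3 z3) (d z3 z3)) (b z3 (d z3 z3)))))) (a (b (d (a (b (d z1 z1) (d z1 z1)) (b (d z3 z3) (d z3 z3))) (a (b (d (a (b z1 z1) z3) (a (b (d z1 z1) z0) z2)) (d (b z1 z1) (b (d z1 z1) (d z1 z1)))) (b (d z3 z2) (d z3 z2)))) (d (b (d z1 z1) (d z1 z1)) (b (d (a (b z1 z1) z3) (a (b (d z1 z1) (d z1 z1)) z2)) (d (b z1 z1) (b (d z1 z1) (d z1 z1)))))) (b (d (b (d z3 z3) (d z3 z3)) (b (d z3 z2) (d z3 z2))) (d (a (b (d z3 z3) (d z3 z3)) (b (d z3 z3) (d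 z3 z3))) (a (b (d z3 z2) (d z3 z2)) (b (d z3 z2) (d z3 z2))))))))) _ _ (by decide +kernel)

end Vale.Agent.Lib.P154Q4
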