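import Vale.Agent.Lib.P154Q4.CkBDefs

namespace Vale.Agent.Lib.P154Q4

set_option maxRecDepth 100000
set_option exponentiation.threshold 1000

open Tr

theorem okB240 : CKB ⟨24576, 49152, 11264, 11776⟩ ⟨24576, 49152, 10240, 10752⟩ :=
  ckB_sound (c (b (d (c z2 (b z3 z3)) z2) (d (c z2 (b z3 z3)) z2)) (b (d (b (d (a (b (d (c z3 (a (b z1 z1) z3)) (c z3 (a (b z1 z1) z3))) (d (c z1 (b z1 z1)) (c z1 (b z1 z1)))) (b z3 (d z3 z3))) (c (a z1 z3) (a (b (d (a (b z1 z1) z3) (c z3 (a (b z1 z1) z3))) (d (b z1 z1) (c z1 (b z1 z1)))) (b z3 (d z3 z3))))) (d (b (d (a (c z1 (b z3 z1)) z3) (c z3 (a (b z3 z1) z3))) (d (c z3 (a (b z3 z1) z3)) (c z3 (a (b z3 z1) z3)))) (c (b z3 z3) (b (d (a (b z3 z1) z3) (a (c z1 (b z3 z1)) z3)) (d (a (b z3 z1) z3) (a (c z1 (b z3 z1)) z3)))))) (b (d (c z3 (a (b (d (c z3 (a (b z1 z1)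 z3)) (c z3 (a (b z1 z1) z3))) (d (c z1 (b z1 z1)) (c z1 (b z1 z1)))) (b z3 (d z3 z3)))) (c z3 (a (b (d (c z3 (a (b z1 z1) z3)) (c z3 (a (b z1 z1) z3))) (d (c z1 (b z1 z1)) (c z1 (b z1 z1)))) (b z3 (d z3 z3))))) (d (c z3 (b (d (a (c z1 (b z3 z1)) z3) (c z3 (a (b z3 z1) z3))) (d (a (c z1 (b z3 z1)) z3) (c z3 (a (b z3 z1) z3))))) (c z3 (b (d (a (c z1 (b z3 z1)) z3) (c z3 (a (b z3 z1) z3))) (d (c z3 (a (b z3 z1) z3)) (c z3 (a (b z3 z1) z3)))))))) (d (b (d (b (d (c z3 (a (b z3 z1) z3)) (c z3 (a (b z3 z1) z3))) (d (c z3 (a (b z3 z1) z3)) (c z3 (a (b z3 z1) z3)))) (c (b z3 z3) (b (d (a (b z3 z1) z3) (a (c z1 (b z3 z1)) z3)) (d (a (b z3 z1) z3) (c z3 (a (b z3 z1) z3)))))) (d (b (d (c z3 (b z3 z3)) (c z3 (b z3 z3))) (d z3 z3)) (c (b z3 z3) (b (d (b z3 z3) (c z3 (b z3 z3))) (d z3 z3))))) (b (d (c z3 (b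 (d (a (c z1 (b z3 z1)) z3) (c z3 (a (b z3 z1) z3))) (d (c z3 (a (b z3 z1) z3)) (c z3 (a (b z3 z1) z3))))) (c z3 (b (d (c z3 (a (b z3 z1) z3)) (c z3 (a (b z3 z1) z3))) (d (c z3 (a (b z3 z1) z3)) (c z3 (a (b z3 z1) z3)))))) (d (c z3 (b (d (c z3 (b z3 z3)) (c z3 (b z3 z3))) (d z3 z3))) (c z3 (b (d (c z3 (b z3 z3)) (c z3 (b z3 z3))) (d z3 z3)))))))) _ _ (by decide +kernel)

theorem okB241 : CKB ⟨24576, 49152, 11264, 11776⟩ ⟨24576, 49152, 10752, 11264⟩ :=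
  ckB_sound (b (d (c (b z2 z2) (b (d (a (b (d (a (b z1 z1) z3) (c z3 (a (b z1 z1) z3))) (d (b z1 z1) (c z1 (b z1 z1)))) (b (d z3 z3) (d z3 z3))) (a (c z1 (b (d (a (b z1 z1) z3) (a (b z1 z1) z3)) (d (b z1 z1) (b z1 z1)))) (c z3 (b (d z3 z3) (d z3 z3))))) (d (b (d (a (b z3 z1) z3) (a (c z1 (b z3 z1)) z3)) (d (a (b z3 z1) z3) (c z3 (a (b z3 z1) z3)))) (c z3 (b (d (a (b z3 z1) z3) (a (b z3 z1) z3)) (d (a (b z3 z1) z3) (a (b z3 z1) z3))))))) (b (d (c z2 (a (b (d (a (b z1 z1) z3) (c z3 (a (b z1 z1) z3))) (d (b z1 z1) (c z1 (b z1 z1)))) (b (d z3 z3) (d z3 z3)))) (c z2 (a (b (d (a (b z1 z1) z3) (c z3 (a (b z1 z1) z3))) (d (b z1 z1) (c z1 (b z1 z1)))) (b (d z3 z3) (d z3 z3))))) (d (c z2 (b (d (a (b z3 z1) z3) (a (c z1 (b z3 z1)) z3)) (d (a (b z3 z1) z3) (c z3 (a (b z3 z1) z3))))) (c z2 (b (d (a (b z3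 z1) z3) (a (c z1 (b z3 z1)) z3)) (d (a (b z3 z1) z3) (a (c z1 (b z3 z1)) z3))))))) (d (c (b z2 z2) (b (d (b (d (a (b z3 z1) z3) (c z3 (a (b z3 z1) z3))) (d (a (b z3 z1) z3) (c z3 (a (b z3 z1) z3)))) (c z3 (b (d (a (b z3 z1) z3) (a (b z3 z1) z3)) (d (a (b z3 z1) z3) (a (b z3 z1) z3))))) (d (b (d (b z3 z3) (c z3 (b z3 z3))) (d z3 z3)) (c z3 (b (d (b z3 z3) z3) (d z3 z3)))))) (b (d (c z2 (b (d (a (b z3 z1) z3) (c z3 (a (b z3 z1) z3))) (d (a (b z3 z1) z3) (c z3 (a z1 z3))))) (c z2 (b (d (a (b z3 z1) z3) (c z3 (a (b z3 z1) z3))) (d (a z1 z3) z3)))) (d (c z2 (b (d z3 z3) (d z3 z3))) (c z2 (b (d z3 z3) (d z3 z3))))))) _ _ (by decide +kernel)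

theorem okB242 : CKB ⟨24576, 49152, 11776, 12288⟩ ⟨24576, 49152, 10240, 11264⟩ :=
  ckB_sound (d (c (b (d (c z2 (b z3 z3)) (b z2 z2)) (d (c (b z2 z0) (b z3 z1)) (b z2 z0))) (b (d (b (d (b (d z3 z3) (d z3 z3)) (c z3 (b (d z3 z3) (d z3 z3)))) (d (b z3 z3) (c z3 (b z3 z3)))) (b (d (c z3 (b (d z3 z3) (d z3 z3))) (c z3 (b (d z3 z3) (d z3 z3)))) (d (c z3 (b z3 z3)) (c z3 (b z3 z3))))) (d (b (d (b z3 z3) (c z3 (b z3 z3))) (d z1 z1)) (b (d (c z3 (b z3 z3)) (c z3 (b z3 z3))) (d z1 z1))))) (b (d (c (b z2 z2) (b (d (b (d z3 z3) (d z3 z3)) (c z3 (b (d z3 z3) (d z3 z3)))) (d (b z3 z3) (c z3 (b z3 z3))))) (b (d (c z2 (b (d z3 z3) (d z3 z3))) (c z2 (b (d z3 z3) (d z3 z3)))) (d (c z2 (b z3 z3)) (c z2 (b z3 z3))))) (d (c (b z2 z0) (b (d (b z3 z3) (c z3 (b z3 z3))) (d z1 z1))) (b (d (c z2 (b z3 z3)) (c z2 (b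 z3 z3))) (d z1 z1))))) _ _ (by decide +kernel)

theorem okB243 : CKB ⟨24576, 49152, 11264, 11776⟩ ⟨24576, 49152, 11264, 11776⟩ :=
  ckB_sound (b (d (b (d (a (c z0 (b (d (a (b z1 z1) z3) (a (c z1 (b z1 z1)) z3)) (d (b z1 z1) (c z1 (b z1 z1))))) (c z2 (b (d z3 z3) (d z3 z3)))) (a (b (d (c z2 (a (b z1 z1) z3)) (c z2 (a (b z1 z1) z3))) (d (c z0 (b z1 z1)) (c z0 (b z1 z1)))) (b (d z3 z3) (d z3 z3)))) (d (c z2 (b (d (a (b z3 z1) z3) (a (c z1 (b z3 z1)) z3)) (d (a (b z3 z1) z3) (a (c z1 (b z3 z1)) z3)))) (b (d (a (c z0 (b z3 z1)) z3) (a (c z0 (b z3 z1)) z3)) (d (c z2 (a (b z3 z1) z3)) (a (c z0 (b z3 z1)) z3))))) (b (d (a (b (d (c z2 (a (b z1 z1) z3)) (a (c z0 (b z1 z1)) z3)) (d (c z0 (b z1 z1)) (c z0 (b z1 z1)))) (b (d z3 z3) (d z3 z3))) (a (b (d (a (b z1 z1) z3) (a (b z1 z1) z3)) (d (b z1 z1) (b z1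 z1))) (b (d z3 z3) (d z3 z3)))) (d (b (d (a (c z0 (b z3 z1)) z3) (a (c z0 (b z3 z1)) z3)) (d (a z1 z3) (a z1 z3))) (b (d (a (b z3 z1) z3) (a (b z3 z1) z3)) (d (a z1 z3) (a z1 z3)))))) (d (b (d (c z2 (b (d (a (b z3 z1) z3) (a z1 z3)) (d z3 z3))) (b (d (c z2 (a z1 z3)) (c z2 (a z1 z3))) (d z3 z3))) (d (c z2 (b (d z3 z3) (d z3 z3))) (b (d z3 z3) (d z3 z3)))) (b (d (b (d z3 z3) (d z3 z3)) (b (d z3 z3) (d z3 z3))) (d (b (d z3 z3) (d z3 z3)) (b (d z3 z3) (d z3 z3)))))) _ _ (by decide +kernel)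

theorem okB244 : CKB ⟨24576, 49152, 11264, 11520⟩ ⟨24576, 49152, 11776, 12288⟩ :=
  ckB_sound (d (b (d (a (b (d (a (b z1 z1) z3) (a (b (d z1 z1) z1) z3)) (d (b z1 z1) (b z1 z1))) (b (d z3 z3) (d z3 z3))) (a (b (d (a (b (d z1 z1) (d z1 z1)) z3) (a (b (d z1 z1) (d z1 z1)) (b z3 (d z3 z3)))) (d (b (d z1 z1) (d z1 z1)) (b (d z1 z1) (d z1 z1)))) (b (d z3 z3) (d z3 (a z3 z3))))) (d (b (d (a (b z3 z1) z3) (a (b z3 z1) z3)) (d (a (b z3 z1) z3) (a (b z3 z1) z3))) (b (d (a (b (d z3 z3) z1) z3) (a (b (d z3 z3) (d z1 z1)) z3)) (d (a (b z3 z1) z3) (a (b (d z3 z3) z1) z3))))) (b (d (a (b (d (a (b (d z1 z1) (d z1 z1)) (b (d z3 z3) (d z3 z3))) (a (b (d z1 z1) (d z1 z1)) (b (d z3 z3) (d z3 z3)))) (d (b (d z1 z1) (d z1 z1)) (b (d z1 z1) (d z1 z1)))) (b (d z3 (b z3 (d z3 z3))) (d (a (b z3 (d z3 z3)) z3) (a (b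 (d z3 z3) (d z3 z3)) z3)))) (a (b (d (a (b (d z1 z1) (d z1 z1)) (b (d z3 z3) (d z3 z3))) (a (b (d (a (b z1 z1) z3) (a (b (d z1 z1) z0) z2)) (d (b z1 z1) (b z0 z0))) (b (d z3 z2) (d z3 z2)))) (d (b (d z1 z1) (d z1 z1)) (b (d (a z1 z3) (a (b z0 z0) z2)) (d z1 (b z0 z0))))) (b (d (b (d z3 z3) (d z3 z3)) (b (d z3 z2) (d z3 z2))) (d (a (b (d z3 z3) (d z3 z3)) (b (d z3 z3) (d z3 z3))) (a (b (d z3 z2) (d z3 z2)) (b (d z3 z2) (d z3 z2))))))) (d (b (d (a (b (d z3 z3) (d z1 z1)) z3) (a (b (d z3 z3) (d z1 z1)) (b z3 (d z3 z3)))) (d (a (b (d z3 z3) (d z1 z1)) z3) (a (b (d z3 z3) (d z1 z1)) z3))) (b (d (a (b (d z3 z3) (d z1 z1)) (b (d z3 z3) (d z3 z3))) (a (b (d z3 (a (b z0 z0) z2)) (d z1 (b z2 z0))) (b (d z3 z2) (d z3 z2)))) (d (a (b (d z3 z3) (d z1 z1)) (b (d z3 z3) (d z3 z3))) (a (b (d z3 z2) (d z1 z0))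 (b (d z3 z2) (d z3 z2)))))))) _ _ (by decide +kernel)

theorem okB245 : CKB ⟨24576, 49152, 11520, 11776⟩ ⟨24576, 49152, 11776, 12288⟩ :=
  ckB_sound (d (b (d (b (d z3 (a z1 z3)) (d z3 z3)) (b (d (a (b z3 z1) z3) (a (b z3 z1) z3)) (d z3 (a z1 z3)))) (d (b (d z3 z3) (d z3 z3)) (b (d z3 z3) (d z3 z3)))) (b (d (b (d (a (b (d z3 z3) z1) z3) (a (b (d z3 z3) (d z1 z1)) z3)) (d (a (b z3 z1) z3) (a (b (d z3 z3) z1) z3))) (b (d (a (b (d z3 z3) (d z1 z1)) (b z3 (d z3 z3))) (a (b (d z3 z2) (d z1 z0)) (b (d z3 z2) (d z3 z2)))) (d (a (b (d z3 z3) (d z1 z1)) z3) (a (b (d z3 z2) (d z1 z0)) (b (d z3 z2) (d z3 z2)))))) (d (b (d (b z3 z3) (b z3 z3)) (d z3 z3)) (b (d (b (d z3 z3) (d z3 z3)) (b (d z3 z2) (d z3 z2))) (d (b z3 z3) (b (d z3 z2) (d z3 z2))))))) _ _ (by decide +kernel)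

theorem okB246 : CKB ⟨24576, 49152, 11776, 12288⟩ ⟨24576, 49152, 11264, 12288⟩ :=
  ckB_sound (d (b (d (b (d (c z2 (b (d z3 z3) (d z3 z3))) (b (d z3 z3) z3)) (d (c z2 (b z3 z3)) (b z3 z3))) (b (d (b (d z3 z3) z3) (b (d z3 z3) (d z3 z3))) (d (b z3 z3) (b z3 z3)))) (d (b (d z3 z3) (d z1 z1)) (b (d z3 z3) (d z1 z1)))) (b (d (b (d (b (d z3 z3) (d z3 z3)) (b (d z3 z3) (d z3 z3))) (d (b z3 z3) (b (d z3 z3) z3))) (b (d (b (d z3 z3) (d z3 z3)) (b (d z3 (b z2 z2)) (d z3 z2))) (d (b (d z3 z3) (d z3 z3)) (b (d z3 z2) (d z3 z2))))) (d (b (d z3 z3) (d z1 z1)) (b (d (b z3 z3) (b (d z3 z2) z2)) (d z1 z0))))) _ _ (by decide +kernel)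

end Vale.Agent.Lib.P154Q4
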