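import Vale.Agent.Lib.P154Q4.CkBDefs

namespace Vale.Agent.Lib.P154Q4

set_option maxRecDepth 100000
set_option exponentiation.threshold 1000

open Tr

theorem okB30 : CKB ⟨8193, 49152, 0, 4096⟩ ⟨0, 49152, 0, 4096⟩ :=
  ckB_sound (c (c (b z0 (d (b (d z0 (a z2 z0)) z2) (c (b (d (a z2 z0) (a (c (b z0 z2) (b z0 z2)) z0)) z2) (b (d (a (b z0 z2) z0) (a (b z0 z2) z0)) (d z2 (a z2 (b z0 z2))))))) (b z0 (d (b (d z0 (a (c (b z0 z2) (b z0 z3)) z0)) (d z0 z2)) (b (d (a (c (b z0 z2) (b z0 z3)) z0) (a (c (b z0 z2) (b z0 z2)) z0)) (d (a z2 (c z2 (b z0 z3))) (a z2 (c (b z0 z2) (b z0 z2)))))))) (b z0 (d z0 (b (d (a (c (b z0 z3) z0) z0) (c (a (b z0 z3) z0) (a (b z0 z3) z0))) (d (a z3 (c (b z0 z3) z0)) (a z3 (c (b z0 z3) (b z0 (d z0 (a z3 (c (b z0 z3) (b z0 z3)))))))))))) _ _ (by decide +kernel)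

theorem okB31 : CKB ⟨0, 4097, 0, 4096⟩ ⟨0, 6144, 4096, 8192⟩ :=
  ckB_sound (b (d (c (b z0 (d (c (b z0 z0) (b z0 z0)) (b z0 z0))) (b z0 z0)) (b z0 (d (b z0 z0) z0))) (d z0 (a z0 (b (d z0 z0) (d z0 z0))))) _ _ (by decide +kernel)

theorem okB32 : CKB ⟨4097, 8193, 0, 1024⟩ ⟨0, 3072, 4096, 6144⟩ :=
  ckB_sound z0 _ _ (by decide +kernel)

theorem okB33 : CKB ⟨4097, 6145, 1024, 1536⟩ ⟨0, 1536, 4096, 5120⟩ :=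
  ckB_sound (d (c (b z0 (d (c (a z0 (b (d (c (a (b z0 z2) z0) (a (b z0 z2) z0)) (c (a (b z0 z2) z0) (a (b z0 z2) z0))) z2)) (a z0 (b (d (c (a (b z0 z2) z0) (a (b z0 z2) z0)) (c (a (b z0 z2) z0) (a (b z0 z2) z0))) z2))) (c (a z0 (b (d (c (a (b z0 z2) z0) (a (b z0 z2) z0)) (c (a (b z0 z2) z0) (a (b z0 z2) z0))) (d z2 z2))) (a z0 (b (d (c (a (b z0 z2) z0) (a (b z0 z2) z0)) (c (a (b z0 z2) z0) (a (b z0 z2) z0))) z2))))) (b z0 (d (c (a z0 (b (d (c (a (b z0 z2) z0) (a (b z0 z2) z0)) (c (a (b z0 z2) z0) (a (b z0 z2) z0))) z2)) (a z0 (b (d (c (a (b z0 z2) z0) (a (b z0 z2) z0)) (c (a (b z0 z2) z0) (a (b z0 z2) z0))) z2))) (c (a z0 (b (d (c (a (b z0 z2) z0) (a (b z0 z2) z0)) (c (a (b z0 z2) z0) (a (b z0 z2) z0))) z2)) (a z0 (b (d (c (a (b z0 z2) z0) (a (b z0 z2) z0)) (c (a (b z0 z2) z0) (a (b z0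 z2) z0))) z2)))))) (c (b z0 (d (c (a (b (d z0 z0) z0) (b (d (c (a (b z0 z2) z0) (a (b z0 z2) z0)) (a (b z0 z2) z0)) (d (c (a (b z2 (d z2 z2)) z0) z2) (a (b z2 (d (c (a z0 z2) z2) (c (a z0 z2) (a z0 z2)))) z0)))) (a z0 (b (d (c (a (b z0 z2) z0) (a (b z0 z2) z0)) (c (a (b z0 z2) z0) (a (b z0 z2) z0))) z2))) (a (b (d (c (b z0 z0) z0) (b z0 z0)) z0) (b (d (c (a (b z0 z2) z0) (a (b z0 z2) z0)) (a (b z0 (d z2 (c (a z2 z0) z2))) z0)) (d (c (a (b z2 (d (c (a z0 z2) (a z0 z2)) (a z0 z2))) z0) (a (b z2 (d (c (a z0 z2) z2) (c (a z0 z2) (a z0 z2)))) z0)) (a (b z2 (d (c (a z0 z2) (a z0 z2)) (c (a z0 z2) (a z0 z2)))) z0)))))) (b z0 (d (a z0 (c (b (d (a (c (b z0 z2) (b z0 z2)) z0) (a (c (b z0 z2) (b z0 z2)) z0)) z2) (b (d (a (c (b z0 z2) (b z0 z2)) z0) (a (c (b z0 z2) (b z0 z2)) z0)) z2))) (a z0 (c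 (b (d (a (c (b z0 z2) (b z0 z2)) z0) (a (c (b z0 z2) (b z0 z2)) z0)) (d (a z2 z0) (a (c (b z2 (d (a z0 z2) (a z0 z2))) (b z2 (d (a z0 z2) (a z0 z2)))) z0))) (b (d (a (c (b z0 z2) (b z0 z2)) z0) (a (c (b z0 z2) (b z0 z2)) z0)) (d z2 (a (c (b z2 (d z2 (a z0 z2))) z2) z0))))))))) _ _ (by decide +kernel)

theorem okB34 : CKB ⟨4097, 6145, 1536, 2048⟩ ⟨0, 1536, 4096, 5120⟩ :=
  ckB_sound (d (c (a z0 (b (d (c (b (d (a z0 z2) (a z0 z2)) z0) (b (d (a z0 z2) (a z0 z2)) z0)) (c (b (d (a z0 z2) (a z0 z2)) z0) (b (d (a z0 z2) (a z0 z2)) z0))) z0)) (a z0 (b (d (c (b (d (a z0 z2) (a z0 z2)) z0) (b (d (a z0 z2) (a z0 z2)) z0)) (c (b (d (a z0 z2) (a z0 z2)) z0) (b (d (a z0 z2) (a z0 z2)) z0))) z0))) (c (a z0 (b (d (c (b (d (a z0 z2) (a z0 z2)) (d (a z0 z2) (a z0 (b z2 (d (a z0 z2) (a z0 z2)))))) (b (d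 (a z0 z2) (a z0 z2)) (d z0 (a z0 z2)))) (b (d (a z0 z2) (a z0 z2)) (d (a z0 (c (b z2 (d (a z0 z2) (a z0 z2))) (b z2 (d z2 (a z0 z2))))) (a z0 (b z2 (d (c (a z0 z2) (a z0 z2)) (a z0 z2))))))) z0)) (a z0 (b (d (c (b (d (a z0 z2) (a z0 z2)) (d z0 (a z0 z2))) (b (d (a z0 z2) (a z0 z2)) (d z0 (a z0 z2)))) (c (b (d (a z0 z2) (a z0 z2)) (d (a z0 (c (b z2 (d z2 (a z0 z2))) z2)) (a z0 (c (b z2 (d (a z0 z2) (a z0 z2))) (b z2 (d (a z0 z2) (a z0 z2))))))) (b (d (a z0 z2) (a z0 z2)) (d (a z0 z2) (a z0 (c (b z2 (d z2 (a z0 z2))) (b z2 (d z2 (a z0 z2))))))))) z0)))) _ _ (by decide +kernel)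

theorem okB35 : CKB ⟨6145, 8193, 1024, 2048⟩ ⟨0, 1536, 4096, 5120⟩ :=
  ckB_sound (b z0 (d (c (b z0 z2) (b z0 z2)) (c (b z0 z2) (b z0 z2)))) _ _ (by decide +kernel)

theorem okB36 : CKB ⟨4097, 8193, 1024, 2048⟩ ⟨1536, 3072, 4096, 5120⟩ :=
  ckB_sound (a (b (d (c (b z0 (d (a z0 (c (b (d (a (c (b z0 z2) (b z0 z2)) z0) (a (c (b z0 z2) (b z0 z2)) z0)) z2) (b (d (a (c (b z0 z2) (b z0 z2)) z0) (a (c (b z0 z2) (b z0 z2)) z0)) z2))) (a z0 (c (b (d (a (c (b z0 z2) (b z0 z2)) z0) (a (c (b z0 z2) (b z0 z2)) z0)) z2) (b (d (a (c (b z0 z2) (b z0 z2)) z0) (a (c (b z0 z2) (b z0 z2)) z0)) z2))))) (b z0 (d (a z0 (b (d (c (a (b z0 z2) z0) (a (b z0 z2) z0)) (c (a (b z0 z2) z0) (a (b z0 z2) z0))) z2)) (a z0 (b (d (c (a (b z0 z2) z0) (a (b z0 z2) z0)) (c (a (b z0 z2) z0) (a (b z0 z2) z0))) z2))))) (c (b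 z0 (d (a z0 (c (b (d (a (c (b z0 z2) (b z0 z2)) z0) (a (c (b z0 z2) (b z0 z2)) z0)) z2) (b (d (a (c (b z0 z2) (b z0 z2)) z0) (a (c (b z0 z2) (b z0 z2)) z0)) z2))) (a z0 (c (b (d (a (c (b z0 z2) (b z0 z2)) z0) (a (c (b z0 z2) (b z0 z2)) z0)) z2) (b (d (a (c (b z0 z2) (b z0 z2)) z0) (a (c (b z0 z2) (b z0 z2)) z0)) z2))))) (b z0 (d (a z0 (b (d (c (a (b z0 z2) z0) (a (b z0 z2) z0)) (c (a (b z0 z2) z0) (a (b z0 z2) z0))) z2)) (a z0 (b (d (c (a (b z0 z2) z0) (a (b z0 z2) z0)) (c (a (b z0 z2) z0) (a (b z0 z2) z0))) z2)))))) (d (c (a z0 (b (d (c (b (d (a z0 z2) (a z0 z2)) z0) (b (d (a z0 z2) (a z0 z2)) z0)) (c (b (d (a z0 z2) (a z0 z2)) z0) (b (d (a z0 z2) (a z0 z2)) z0))) z0)) (a z0 (b (d (b (d (c (a z0 z2) (a z0 z2)) (c (a z0 z2) (a z0 z2))) z0) (b (d (c (a z0 z2) (a z0 z2)) (c (a z0 z2) (a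 z0 z2))) z0)) z0))) (c (a z0 (b (d (c (b (d (a z0 z2) (a z0 z2)) z0) (b (d (a z0 z2) (a z0 z2)) z0)) (c (b (d (a z0 z2) (a z0 z2)) (d (a z0 z2) (a z0 z2))) (b (d (a z0 z2) (a z0 z2)) (d (a z0 z2) (a z0 z2))))) z0)) (a z0 (b (d (b (d (c (a z0 z2) (a z0 z2)) (c (a z0 z2) (a z0 z2))) z0) (b (d (c (a z0 z2) (a z0 z2)) (c (a z0 z2) (a z0 z2))) (d z0 (c (a z0 z2) (a z0 z2))))) z0))))) (b z0 (d (c (b z0 z2) (b z0 z2)) (c (b z0 z2) (b z0 z2))))) _ _ (by decide +kernel)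

theorem okB37 : CKB ⟨4097, 6145, 1024, 1536⟩ ⟨0, 1920, 5120, 5632⟩ :=
  ckB_sound (b z0 (d (c (a (b (d (c (b z0 z0) z0) (c (b z0 z0) (b z0 z0))) z0) (b (d (c (a (b z0 (d (c (a z2 z0) z2) (c (a z2 z0) (a z2 z0)))) z0) (a (b z0 z2) z0)) (c (a (b z0 (d (c (a z2 z0) (a z2 z0)) (a z2 z0))) z0) (a (b z0 (d (c (a z2 z0) (a z2 z0)) (c (a z2 z0) (a z2 z0)))) z0))) (d (c (a (b z2 (d (c (a z0 z2) (a z0 z2)) (c (a z0 z2) (a z0 z2)))) z0) (a (b z2 (d (c (a z0 z2) (a z0 z2)) (c (a z0 z2) (a z0 z2)))) z0)) (c (a (b z2 (d (c (a z0 z2) (a z0 z2)) (a z0 z2))) z0) (a (b z2 (d (c (a z0 z2) (a z0 z2)) (c (a z0 z2) (a z0 z2)))) z0))))) (a z0 (b (d (c (a (b z0 z2) z0) (a (b z0 z2) z0)) (c (a (b z0 (d z2 (c (a z2 z0) (a z2 z0)))) z0) (a (b z0 z2) z0))) (d (c (a (b z2 (d (c (a z0 z2) z2) (c (a z0 z2) (a z0 z2))))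 z0) (a z2 z0)) (c (a (b z2 (d (c (a z0 z2) (a z0 z2)) (c (a z0 z2) (a z0 z2)))) z0) (a (b z2 (d (c (a z0 z2) (a z0 z2)) (c (a z0 z2) (a z0 z2)))) z0)))))) (a (c (b (d (c (b z0 z0) (b z0 z0)) (b z0 z0)) z0) (b (d (c (b z0 z0) z0) (c (b z0 z0) (b z0 z0))) z0)) (c (b (d (a (c (b z0 (d (a z2 z0) (a z2 z0))) (b z0 (d (a z2 z0) (a z2 z0)))) z0) (a (b z0 (d (a z2 z0) z0)) z0)) (d (a (c (b z2 (d (a z0 z2) (a z0 z2))) (b z2 (d (a z0 z2) (a z0 z2)))) z0) (a (b z2 (d (a z0 z2) z0)) z0))) (b (d (a (c (b z0 (d (a z2 z0) (a z2 z0))) (b z0 (d (a z2 z0) (a z2 z0)))) z0) (a (c (b z0 (d (a z2 z0) (a z2 z0))) (b z0 (d (a z2 z0) (a z2 z0)))) z0)) (d (a (c (b z2 (d (a z0 z2) (a z0 z2))) (b z2 (d (a z0 z2) (a z0 z2)))) z0) (a (c (b z2 (d (a z0 z2) (a z0 z2))) (b z2 (d (a z0 z2) (a z0 z2)))) z0))))))) _ _ (by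 decide +kernel)

theorem okB38 : CKB ⟨4097, 6145, 1024, 1536⟩ ⟨1920, 3072, 5120, 5632⟩ :=
  ckB_sound (b z0 (d (c (a z0 (b (d (c (a (b z0 z2) z0) (a (b z0 z2) z0)) (c (a (b z0 z2) z0) (a (b z0 z2) z0))) (d z2 (c (a (b z2 (d z2 (c (a z0 z2) z2))) z0) z2)))) (a z0 (b (d (c (a (b z0 z2) z0) (a (b z0 z2) z0)) (c (a (b z0 z2) z0) (a (b z0 z2) z0))) z2))) (c (a (b (d z0 (c (b z0 z0) z0)) z0) (b (d (c (a (b z0 (d z2 (c (a z2 z0) z2))) z0) (a (b z0 z2) z0)) (c (a (b z0 (d (c (a z2 z0) (a z2 z0)) (c (a z2 z0) (a z2 z0)))) z0) (a (b z0 (d (c (a z2 z0) z2) (c (a z2 z0) (a z2 z0)))) z0))) (d (c (a (b z2 (d (c (a z0 z2) (a z0 z2)) (c (a z0 z2) (a z0 z2)))) z0) (a (b z2 (d z2 (c (a z0 z2) z2))) z0)) (c (a (b z2 (d (c (a z0 z2) (a z0 z2)) (c (a z0 z2) (a z0 z2)))) z0) (a (b z2 (d (c (a z0 z2) (a z0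 z2)) (c (a z0 z2) (a z0 z2)))) z0))))) (a z0 (b (d (c (a (b z0 z2) z0) (a (b z0 z2) z0)) (c (a (b z0 (d z2 (c (a z2 z0) z2))) z0) (a (b z0 z2) z0))) (d (c (a z2 z0) z2) (c (a (b z2 (d z2 (c (a z0 z2) (a z0 z2)))) z0) (a z2 z0)))))))) _ _ (by decide +kernel)

theorem okB39 : CKB ⟨4097, 6145, 1024, 1536⟩ ⟨0, 3072, 5632, 6144⟩ :=
  ckB_sound (b z0 (d (c (a (b (d (c (b z0 z0) (b z0 z0)) (b z0 z0)) z0) (b (d (c (a (b z0 (d (c (a z2 z0) (a z2 z0)) (a z2 z0))) z0) (a (b z0 (d (c (a z2 z0) (a z2 z0)) (c (a z2 z0) (a z2 z0)))) z0)) (a (b z0 (d (c (a z2 z0) (a z2 z0)) (a z2 z0))) z0)) (d (c (a (b z2 (d (c (a z0 z2) (a z0 z2)) (a z0 z2))) z0) (a (b z2 (d (c (a z0 z2) (a z0 z2)) (c (a z0 z2) (a z0 z2)))) z0)) (a (b (d z2 z2) (d (c (a z0 z2) (a z0 z2)) (a z0 z2))) z0)))) (a (b (d z0 (c (b z0 z0) z0))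 z0) (b (d (c (a (b z0 (d (c (a z2 z0) (a z2 z0)) (c (a z2 z0) (a z2 z0)))) z0) (a (b z0 (d (c (a z2 z0) z2) (c (a z2 z0) (a z2 z0)))) z0)) (c (a (b z0 (d (c (a z2 z0) (a z2 z0)) (c (a z2 z0) (a z2 z0)))) z0) (a (b z0 (d (c (a z2 z0) (a z2 z0)) (c (a z2 z0) (a z2 z0)))) z0))) (d (c (a (b z2 (d (c (a z0 z2) (a z0 z2)) (c (a z0 z2) (a z0 z2)))) z0) (a (b z2 (d (c (a z0 z2) z2) (c (a z0 z2) (a z0 z2)))) z0)) (c (a (b z2 (d (c (a z0 z2) (a z0 z2)) (c (a z0 z2) (a z0 z2)))) z0) (a (b z2 (d (c (a z0 z2) (a z0 z2)) (c (a z0 z2) (a z0 z2)))) z0)))))) (a (b (d (c (b z0 z0) (b z0 z0)) (b z0 z0)) z0) (b (d (c (a (b z0 (d (c (a z2 z0) (a z2 z0)) (a z2 z0))) z0) (a (b z0 (d (c (a z2 z0) (a z2 z0)) (c (a z2 z0) (a z2 z0)))) z0)) (a (b z0 (d (c (a z2 z0) (a z2 z0)) (a z2 z0))) z0)) (d (c (a (b (d z2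 z2) (d (c (a z0 z2) (a z0 z2)) (a z0 z2))) z0) (a (b z2 (d (c (a z0 z2) (a z0 z2)) (c (a z0 z2) (a z0 z2)))) z0)) (a (b (d z2 z2) (d (c (a z0 z2) (a z0 z2)) (a z0 z2))) z0)))))) _ _ (by decide +kernel)

theorem okB40 : CKB ⟨4097, 6145, 1536, 2048⟩ ⟨0, 3072, 5120, 5632⟩ :=
  ckB_sound (c (a z0 (b (d (c (b (d (c (a z0 z2) (a z0 z2)) (a z0 z2)) (d (c (a z0 (b z2 (d (c (a z0 z2) (a z0 z2)) (a z0 z2)))) (a z0 (b z2 (d (c (a z0 z2) (a z0 z2)) (c (a z0 z2) (a z0 z2)))))) (a z0 (c (b z2 (d (a z0 z2) (a z0 z2))) (b z2 (d (a z0 z2) (a z0 z2))))))) (b (d (a z0 z2) (a z0 z2)) (d (a z0 (c (b z2 (d (c (a z0 z2) (a z0 z2)) (c (a z0 z2) (a z0 z2)))) (b z2 (d z2 (a z0 z2))))) (a z0 (c (b z2 (d (c (a z0 z2) (a z0 z2)) (c (a z0 z2) (a z0 z2)))) (b z2 (d (a z0 z2) (a z0 z2)))))))) (c (b (d (a z0 z2) (a z0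 z2)) (d (a z0 (c (b z2 (d (a z0 z2) (a z0 z2))) (b z2 (d (a z0 z2) (a z0 z2))))) (a z0 (b (d z2 z0) (d (a z0 z2) z0))))) (b (d (a z0 z2) (a z0 z2)) (d (a z0 (c (b z2 (d (a z0 z2) (a z0 z2))) (b z2 (d (a z0 z2) (a z0 z2))))) (a z0 (c (b z2 (d (a z0 z2) (a z0 z2))) (b z2 (d (a z0 z2) (a z0 z2))))))))) (d (c (b (d z0 z0) z0) z0) (c (b (d (a z0 (c (b (d (a z0 z2) (a z0 z2)) (d (a z0 z2) (a z0 z2))) (b (d (a z0 z2) (a z0 z2)) (d (a z0 z2) (a z0 z2))))) (a z0 (b (d (a z0 z2) z0) (d (a z0 z2) z0)))) z0) (b (d z0 (a z0 (c (b (d (a z0 z2) (a z0 z2)) (d (a z0 z2) (a z0 z2))) (b (d (a z0 z2) (a z0 z2)) (d (a z0 z2) (a z0 z2)))))) z0))))) (a z0 (b (d (c (b (d (a z0 z2) (a z0 z2)) (d (a z0 z2) (a z0 (c (b z2 (d (a z0 z2) (a z0 z2))) (b z2 (d z2 (a z0 z2))))))) (b (d (a z0 z2) (a z0 z2)) (d (a z0 z2)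 (a z0 z2)))) (c (b (d (a z0 z2) (a z0 z2)) (d (a z0 (c (b z2 (d (a z0 z2) (a z0 z2))) (b z2 (d (a z0 z2) (a z0 z2))))) (a z0 (c (b z2 (d (a z0 z2) (a z0 z2))) (b z2 (d (a z0 z2) (a z0 z2))))))) (b (d (a z0 z2) (a z0 z2)) (d (a z0 (c (b z2 (d (a z0 z2) (a z0 z2))) z2)) (a z0 (c (b z2 (d (a z0 z2) (a z0 z2))) (b z2 (d (a z0 z2) (a z0 z2))))))))) z0))) _ _ (by decide +kernel)

theorem okB41 : CKB ⟨4097, 6145, 1536, 2048⟩ ⟨0, 3072, 5632, 6144⟩ :=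
  ckB_sound (a z0 (b (d (c (b (d (c (a z0 z2) (a z0 z2)) (a z0 z2)) (d (c (a z0 (b (d z2 z2) (d (c (a z0 z2) (a z0 z2)) (a z0 z2)))) (a z0 (b z2 (d (c (a z0 z2) (a z0 z2)) (c (a z0 z2) (a z0 z2)))))) (a z0 (b (d z2 (a z2 z2)) (d (c (a z0 z2) (a z0 z2)) (a z0 z2)))))) (b (d (a z0 z2) (a z0 z2)) (d (a z0 (c (b z2 (d (a z0 z2) (a z0 z2))) (b z2 (d (a z0 z2) (a z0 z2))))) (a z0 (c (b z2 (d (a z0 z2) (a z0 z2))) (b z2 (d (a z0 z2) (a z0 z2)))))))) (b (d (c (a z0 z2) (a z0 z2)) (a z0 z2)) (d (c (a z0 (b (d (c (a (b z2 (d z2 z2)) z2) z2) (a (b z2 (d z2 z2)) z2)) (d (c (a z0 z2) (a z0 z2)) (a z0 z2)))) (a z0 (b z2 (d (c (a z0 z2) (a z0 z2)) (c (a z0 z2) (a z0 z2)))))) (a z0 (b (d (c (a (b z2 (d z2 z2)) z2) z2) (a (b z2 (d z2 z2)) z2)) (d (c (a z0 z2) (a z0 z2)) (a z0 z2))))))) (d (c (b (d (c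 (a z0 (b (d (c (a z0 z2) (a z0 z2)) (a z0 z2)) (d (c (a z0 z2) (a z0 z2)) (a z0 z2)))) (a z0 (b (d (c (a z0 z2) (a z0 z2)) (c (a z0 z2) (a z0 z2))) (d (c (a z0 z2) (a z0 z2)) (c (a z0 z2) (a z0 z2)))))) (a z0 (b (d (c (a z0 z2) (a z0 z2)) (a z0 z2)) (d (c (a z0 z2) (a z0 z2)) (a z0 z2))))) z0) (b (d z0 (a z0 (c (b (d (a z0 z2) (a z0 z2)) (d (a z0 z2) (a z0 z2))) (b (d (a z0 z2) (a z0 z2)) (d (a z0 z2) (a z0 z2)))))) z0)) (b (d (c (a z0 (b (d (c (a z0 z2) (a z0 z2)) (a z0 z2)) (d (c (a z0 z2) (a z0 z2)) (a z0 z2)))) (a z0 (b (d (c (a z0 z2) (a z0 z2)) (c (a z0 z2) (a z0 z2))) (d (c (a z0 z2) (a z0 z2)) (c (a z0 z2) (a z0 z2)))))) (a z0 (b (d (c (a z0 z2) (a z0 z2)) (a z0 z2)) (d (c (a z0 z2) (a z0 z2)) (a z0 z2))))) (d z0 z0))))) _ _ (by decide +kernel)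

theorem okB42 : CKB ⟨6145, 8193, 1024, 2048⟩ ⟨0, 3072, 5120, 6144⟩ :=
  ckB_sound (b z0 (d (c (b z0 (d (c (a z2 z0) (a z2 z0)) (a z2 z0))) (b z0 (d (a z2 z0) (a z2 z0)))) (b z0 (d (c (a z2 z0) (a z2 z0)) (a z2 z0))))) _ _ (by decide +kernel)

theorem okB43 : CKB ⟨4097, 8193, 0, 1024⟩ ⟨3072, 6144, 4096, 6144⟩ :=
  ckB_sound z0 _ _ (by decide +kernel)

theorem okB44 : CKB ⟨4097, 6145, 1024, 1536⟩ ⟨3072, 6144, 4096, 5120⟩ :=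
  ckB_sound (d (c (b z0 (d (c (a z0 (b (d (c (a (b z0 z2) z0) (a (b z0 z2) z0)) (c (a (b z0 z2) z0) (a (b z0 z2) z0))) z2)) (a z0 (b (d (c (a (b z0 z2) z0) (a (b z0 z2) z0)) (c (a (b z0 z2) z0) (a (b z0 z2) z0))) z2))) (c (a z0 (b (d (c (a (b z0 z2) z0) (a (b z0 z2) z0)) (c (a (b z0 z2) z0) (a (b z0 z2) z0))) z2)) (a z0 (b (d (c (a (b z0 z2) z0) (a (b z0 z2) z0)) (c (a (b z0 z2) z0) (a (b z0 z2) z0))) z2))))) (b z0 (d (c (a z0 (b (d (c (a (b z0 z2) z0) (a (b z0 z2) z0)) (c (a (b z0 z2) z0) (a (b z0 z2) z0))) z2)) (a z0 (b (d (c (a (b z0 z2) z0) (a (b z0 z2) z0)) (c (a (b z0 z2) z0) (a (b z0 z2) z0))) z2))) (c (a z0 (b (d (c (a (b z0 z2) z0) (a (b z0 z2) z0)) (c (a (b z0 z2) z0) (a (b z0 z2) z0))) z2)) (a z0 (b (d (c (a (b z0 z2) z0) (a (b z0 z2) z0)) (c (a (b z0 z2) z0) (a (b z0 z2) z0)))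 z2)))))) (c (b z0 (d (c (a z0 (b (d (c (a (b z0 z2) z0) (a (b z0 z2) z0)) (c (a (b z0 z2) z0) (a (b z0 z2) z0))) z2)) (a z0 (b (d (c (a (b z0 z2) z0) (a (b z0 z2) z0)) (c (a (b z0 z2) z0) (a (b z0 z2) z0))) z2))) (c (a z0 (b (d (c (a (b z0 z2) z0) (a (b z0 z2) z0)) (c (a (b z0 z2) z0) (a (b z0 z2) z0))) z2)) (a z0 (b (d (c (a (b z0 z2) z0) (a (b z0 z2) z0)) (c (a (b z0 z2) z0) (a (b z0 z2) z0))) z2))))) (b z0 (d (c (a z0 (b (d (c (a (b z0 z2) z0) (a (b z0 z2) z0)) (c (a (b z0 z2) z0) (a (b z0 z2) z0))) z2)) (a z0 (b (d (c (a (b z0 z2) z0) (a (b z0 z2) z0)) (c (a (b z0 z2) z0) (a (b z0 z2) z0))) z2))) (c (a z0 (b (d (c (a (b z0 z2) z0) (a (b z0 z2) z0)) (c (a (b z0 z2) z0) (a (b z0 z2) z0))) z2)) (a z0 (b (d (c (a (b z0 z2) z0) (a (b z0 z2) z0)) (c (a (b z0 z2) z0) (a (b z0 z2) z0))) z2)))))))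 _ _ (by decide +kernel)

end Vale.Agent.Lib.P154Q4
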