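import Vale.Agent.Lib.P154Q4.CkBDefs

namespace Vale.Agent.Lib.P154Q4

set_option maxRecDepth 100000
set_option exponentiation.threshold 1000

open Tr

theorem okB45 : CKB ⟨4097, 6145, 1536, 2048⟩ ⟨3072, 6144, 4096, 5120⟩ :=
  ckB_sound (d (c (a z0 (b (d (c (b (d (a z0 z2) (a z0 z2)) z0) (b (d (a z0 z2) (a z0 z2)) z0)) (c (b (d (a z0 z2) (a z0 z2)) z0) (b (d (a z0 z2) (a z0 z2)) z0))) z0)) (a z0 (b (d (c (b (d (a z0 z2) (a z0 z2)) z0) (b (d (a z0 z2) (a z0 z2)) z0)) (c (b (d (a z0 z2) (a z0 z2)) z0) (b (d (a z0 z2) (a z0 z2)) z0))) z0))) (c (a z0 (b (d (c (b (d (a z0 z2) (a z0 z2)) z0) (b (d (a z0 z2) (a z0 z2)) z0)) (c (b (d (a z0 z2) (a z0 z2)) z0) (b (d (a z0 z2) (a z0 z2)) z0))) z0)) (a z0 (b (d (c (b (d (a z0 z2) (a z0 z2)) z0) (b (d (a z0 z2) (a z0 z2)) z0)) (c (b (d (a z0 z2) (a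 z0 z2)) z0) (b (d (a z0 z2) (a z0 z2)) z0))) z0)))) _ _ (by decide +kernel)

theorem okB46 : CKB ⟨6145, 8193, 1024, 2048⟩ ⟨3072, 6144, 4096, 5120⟩ :=
  ckB_sound (b z0 (d (c (b z0 z2) (b z0 z2)) (c (b z0 z2) (b z0 (d z2 (a z2 z0)))))) _ _ (by decide +kernel)

theorem okB47 : CKB ⟨4097, 6145, 1024, 1536⟩ ⟨3072, 6144, 5120, 5632⟩ :=
  ckB_sound (c (b z0 (d (c (a z0 (b (d (c (a (b z0 z2) z0) (a (b z0 z2) z0)) (c (a (b z0 z2) z0) (a (b z0 z2) z0))) z2)) (a z0 (b (d (c (a (b z0 z2) z0) (a (b z0 z2) z0)) (c (a (b z0 z2) z0) (a (b z0 z2) z0))) z2))) (c (a z0 (b (d (c (a (b z0 z2) z0) (a (b z0 z2) z0)) (c (a (b z0 z2) z0) (a (b z0 z2) z0))) (d z2 (c (a z2 z0) z2)))) (a z0 (b (d (c (a (b z0 z2) z0) (a (b z0 z2) z0)) (c (a (b z0 z2) z0) (a (b z0 z2) z0))) z2))))) (b z0 (d (c (a z0 (b (d (c (a (b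 z0 z2) z0) (a (b z0 z2) z0)) (c (a (b z0 z2) z0) (a (b z0 z2) z0))) z2)) (a z0 (b (d (c (a (b z0 z2) z0) (a (b z0 z2) z0)) (c (a (b z0 z2) z0) (a (b z0 z2) z0))) z2))) (c (a z0 (b (d (c (a (b z0 z2) z0) (a (b z0 z2) z0)) (c (a (b z0 z2) z0) (a (b z0 z2) z0))) z2)) (a z0 (b (d (c (a (b z0 z2) z0) (a (b z0 z2) z0)) (c (a (b z0 z2) z0) (a (b z0 z2) z0))) z2)))))) _ _ (by decide +kernel)

theorem okB48 : CKB ⟨4097, 6145, 1024, 1536⟩ ⟨3072, 6144, 5632, 6144⟩ :=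
  ckB_sound (c (b z0 (d (c (a z0 (b (d (c (a (b z0 z2) z0) (a (b z0 z2) z0)) (c (a (b z0 (d (c (a z2 z0) z2) (c (a z2 z0) (a z2 z0)))) z0) (a (b z0 z2) z0))) (d (c (a z2 z0) (a z2 z0)) (c (a (b z2 (d (c (a z0 z2) z2) (c (a z0 z2) (a z0 z2)))) z0) (a z2 z0))))) (a z0 (b (d (c (a (b z0 z2) z0) (a (b z0 z2) z0)) (c (a (b z0 z2) z0) (a (b z0 z2) z0))) (d z2 (c (a z2 z0) (a z2 z0)))))) (c (a (b (d z0 (c (b z0 z0) z0)) z0) (b (d (c (a (b z0 (d (c (a z2 z0) (a z2 z0)) (c (a z2 z0) (a z2 z0)))) z0) (a (b z0 (d (c (a z2 z0) z2) (c (a z2 z0) (a z2 z0)))) z0)) (c (a (b z0 (d (c (a z2 z0) (a z2 z0)) (c (a z2 z0) (a z2 z0)))) z0) (a (b z0 (d (c (a z2 z0) (a z2 z0)) (c (a z2 z0) (a z2 z0)))) z0))) (d (c (a (b z2 (d (c (a z0 z2) (a z0 z2)) (c (a z0 z2) (a z0 z2)))) z0) (a (b z2 (d z2 (c (a z0 z2) z2)))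 z0)) (c (a (b z2 (d (c (a z0 z2) (a z0 z2)) (c (a z0 z2) (a z0 z2)))) z0) (a (b z2 (d (c (a z0 z2) (a z0 z2)) (c (a z0 z2) (a z0 z2)))) z0))))) (a z0 (b (d (c (a (b z0 z2) z0) (a (b z0 z2) z0)) (c (a (b z0 (d (c (a z2 z0) z2) (c (a z2 z0) (a z2 z0)))) z0) (a (b z0 z2) z0))) (d (c (a z2 z0) (a z2 z0)) (c (a (b z2 (d z2 (c (a z0 z2) z2))) z0) (a z2 z0)))))))) (b z0 (d (c (a z0 (b (d (c (a (b z0 z2) z0) (a (b z0 z2) z0)) (c (a (b z0 z2) z0) (a (b z0 z2) z0))) z2)) (a z0 (b (d (c (a (b z0 z2) z0) (a (b z0 z2) z0)) (c (a (b z0 z2) z0) (a (b z0 z2) z0))) z2))) (c (a z0 (b (d (c (a (b z0 z2) z0) (a (b z0 z2) z0)) (c (a (b z0 z2) z0) (a (b z0 z2) z0))) (d (c (a z2 z0) z2) (c (a z2 z0) (a z2 z0))))) (a z0 (b (d (c (a (b z0 z2) z0) (a (b z0 z2) z0)) (c (a (b z0 z2) z0) (a (b z0 z2) z0))) z2))))))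 _ _ (by decide +kernel)

theorem okB49 : CKB ⟨4097, 6145, 1536, 2048⟩ ⟨3072, 6144, 5120, 6144⟩ :=
  ckB_sound (d (c (a z0 (b (d (c (b (d (a z0 z2) (a z0 z2)) (d (a z0 z2) (a z0 z2))) (b (d (a z0 z2) (a z0 z2)) (d z0 (a z0 z2)))) (c (b (d (a z0 z2) (a z0 z2)) (d (a z0 z2) (a z0 (c (b z2 (d z2 (c (a z0 z2) z2))) z2)))) (b (d (a z0 z2) (a z0 z2)) (d (a z0 z2) (a z0 z2))))) z0)) (a z0 (b (d (c (b (d (a z0 z2) (a z0 z2)) z0) (b (d (a z0 z2) (a z0 z2)) z0)) (c (b (d (a z0 z2) (a z0 z2)) (d z0 (a z0 z2))) (b (d (a z0 z2) (a z0 z2)) z0))) z0))) (c (a z0 (b (d (c (b (d (a z0 z2) (a z0 z2)) (d (a z0 (c (b z2 (d (c (a z0 z2) (a z0 z2)) (c (a z0 z2) (a z0 z2)))) (b z2 (d z2 (a z0 z2))))) (a z0 (c (b z2 (d (c (a z0 z2) (a z0 z2)) (c (a z0 z2) (a z0 z2)))) (b z2 (d (a z0 z2) (a z0 z2))))))) (b (d (a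 z0 z2) (a z0 z2)) (d (a z0 z2) (a z0 (c (b z2 (d z2 (a z0 z2))) z2))))) (c (b (d (a z0 z2) (a z0 z2)) (d (a z0 (c (b z2 (d (c (a z0 z2) (a z0 z2)) (c (a z0 z2) (a z0 z2)))) (b z2 (d (a z0 z2) (a z0 z2))))) (a z0 (c (b z2 (d (c (a z0 z2) (a z0 z2)) (c (a z0 z2) (a z0 z2)))) (b z2 (d (a z0 z2) (a z0 z2))))))) (b (d (a z0 z2) (a z0 z2)) (d (a z0 (c (b z2 (d (a z0 z2) (a z0 z2))) (b z2 (d z2 (a z0 z2))))) (a z0 (c (b z2 (d (a z0 z2) (a z0 z2))) (b z2 (d (a z0 z2) (a z0 z2))))))))) (d z0 (c (b (d (a z0 (c (b (d (c (a z0 z2) (a z0 z2)) (c (a z0 z2) (a z0 z2))) (d (c (a z0 z2) (a z0 z2)) (c (a z0 z2) (a z0 z2)))) (b (d (a z0 z2) (a z0 z2)) (d (a z0 z2) (a z0 z2))))) (a z0 (c (b (d (c (a z0 z2) (a z0 z2)) (c (a z0 z2) (a z0 z2))) (d (c (a z0 z2) (a z0 z2)) (c (a z0 z2) (a z0 z2)))) (b (d (a z0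 z2) (a z0 z2)) (d (a z0 z2) (a z0 z2)))))) z0) (b (d z0 (a z0 (c (b (d (a z0 z2) (a z0 z2)) (d (a z0 z2) (a z0 z2))) (b (d (a z0 z2) (a z0 z2)) (d (a z0 z2) (a z0 z2)))))) z0))))) (a z0 (b (d (c (b (d (a z0 z2) (a z0 z2)) (d (a z0 z2) (a z0 z2))) (b (d (a z0 z2) (a z0 z2)) (d (a z0 z2) (a z0 z2)))) (c (b (d (a z0 z2) (a z0 z2)) (d (a z0 z2) (a z0 z2))) (b (d (a z0 z2) (a z0 z2)) (d (a z0 z2) (a z0 z2))))) z0)))) _ _ (by decide +kernel)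

theorem okB50 : CKB ⟨6145, 8193, 1024, 2048⟩ ⟨3072, 6144, 5120, 6144⟩ :=
  ckB_sound (b z0 (d (c (b z0 (d (c (a z2 z0) (a z2 z0)) (c (a z2 z0) (a z2 z0)))) (b z0 (d (a z2 z0) (a z2 z0)))) (c (b z0 (d (c (a z2 z0) (a z2 z0)) (c (a z2 z0) (a z2 z0)))) (b z0 (d (a z2 z0) (a z2 z0)))))) _ _ (by decide +kernel)

theorem okB51 : CKB ⟨4097, 8193, 0, 1024⟩ ⟨0, 6144, 6144, 8192⟩ :=
  ckB_sound z0 _ _ (by decide +kernel)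

theorem okB52 : CKB ⟨4097, 6145, 1024, 1536⟩ ⟨0, 4608, 6144, 6656⟩ :=
  ckB_sound (b z0 (d (c (a (b (d (c (b z0 z0) (b z0 z0)) (b z0 z0)) z0) (b (d (c (a (b z0 (d (c (a z2 z0) (a z2 z0)) (a z2 z0))) z0) (a (b z0 (d (c (a z2 z0) (a z2 z0)) (c (a z2 z0) (a z2 z0)))) z0)) (a (b z0 (d (c (a z2 z0) (a z2 z0)) (a z2 z0))) z0)) (d (c (a (b (d z2 z2) (d (c (a z0 z2) (a z0 z2)) (a z0 z2))) z0) (a (b z2 (d (c (a z0 z2) (a z0 z2)) (c (a z0 z2) (a z0 z2)))) z0)) (a (b (d z2 z2) (d (c (a z0 z2) (a z0 z2)) (a z0 z2))) z0)))) (a (b (d z0 (c (b z0 z0) z0)) z0) (b (d (c (a (b z0 (d (c (a z2 z0) (a z2 z0)) (c (a z2 z0) (a z2 z0)))) z0) (a (b z0 (d (c (a z2 z0) z2) (c (a z2 z0) (a z2 z0)))) z0)) (c (a (b z0 (d (c (a z2 z0) (a z2 z0)) (c (a z2 z0) (a z2 z0)))) z0) (a (b z0 (d (c (a z2 z0) (a z2 z0)) (c (a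 z2 z0) (a z2 z0)))) z0))) (d (c (a (b z2 (d (c (a z0 z2) (a z0 z2)) (c (a z0 z2) (a z0 z2)))) z0) (a z2 z0)) (c (a (b z2 (d (c (a z0 z2) (a z0 z2)) (c (a z0 z2) (a z0 z2)))) z0) (a (b z2 (d (c (a z0 z2) z2) (c (a z0 z2) (a z0 z2)))) z0)))))) (a (b (d (c (b z0 z0) (b z0 z0)) (b z0 z0)) z0) (b (d (c (a (b z0 (d (c (a z2 z0) (a z2 z0)) (a z2 z0))) z0) (a (b z0 (d (c (a z2 z0) (a z2 z0)) (c (a z2 z0) (a z2 z0)))) z0)) (a (b z0 (d (a z2 z0) (a z2 z0))) z0)) (d (c (a (b (d z2 z2) (d (c (a z0 z2) (a z0 z2)) (a z0 z2))) z0) (a (b z2 (d (c (a z0 z2) (a z0 z2)) (c (a z0 z2) (a z0 z2)))) z0)) (a (b (d z2 z2) (d (a z0 z2) (a z0 z2))) z0)))))) _ _ (by decide +kernel)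

theorem okB53 : CKB ⟨4097, 6145, 1024, 1536⟩ ⟨4608, 6144, 6144, 6656⟩ :=
  ckB_sound (b z0 (d (c (a z0 (b (d (c (a (b z0 z2) z0) (a (b z0 z2) z0)) (c (a (b z0 (d (c (a z2 z0) z2) (c (a z2 z0) (a z2 z0)))) z0) (a (b z0 z2) z0))) (d (c (a z2 z0) (a z2 z0)) (c (a z2 z0) (a z2 z0))))) (a z0 (b (d (c (a (b z0 z2) z0) (a (b z0 z2) z0)) (c (a (b z0 z2) z0) (a (b z0 z2) z0))) (d (c (a z2 z0) z2) (c (a z2 z0) (a z2 z0)))))) (c (a (b (d z0 (c (b z0 z0) z0)) z0) (b (d (c (a (b z0 (d (c (a z2 z0) (a z2 z0)) (c (a z2 z0) (a z2 z0)))) z0) (a (b z0 (d (c (a z2 z0) z2) (c (a z2 z0) z2))) z0)) (c (a (b z0 (d (c (a z2 z0) (a z2 z0)) (c (a z2 z0) (a z2 z0)))) z0) (a (b z0 (d (c (a z2 z0) (a z2 z0)) (c (a z2 z0) (a z2 z0)))) z0))) (d (c (a (b z2 (d (c (a z0 z2) z2) (c (a z0 z2) z2))) z0) (a z2 z0)) (c (a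 (b z2 (d (c (a z0 z2) (a z0 z2)) (c (a z0 z2) (a z0 z2)))) z0) (a (b z2 (d z2 (c (a z0 z2) z2))) z0))))) (a z0 (b (d (c (a (b z0 z2) z0) (a (b z0 z2) z0)) (c (a (b z0 (d z2 (c (a z2 z0) z2))) z0) (a (b z0 z2) z0))) (d (c (a z2 z0) (a z2 z0)) (c (a z2 z0) (a z2 z0)))))))) _ _ (by decide +kernel)

theorem okB54 : CKB ⟨4097, 6145, 1024, 1536⟩ ⟨0, 6144, 6656, 7168⟩ :=
  ckB_sound (b z0 (d (a (c (b (d (c (b z0 z0) z0) (b z0 z0)) z0) (b (d z0 (c (b z0 z0) z0)) z0)) (c (b (d (c (a (b z0 (d (c (a z2 z0) (a z2 z0)) (a z2 z0))) z0) (a (b z0 (d (c (a z2 z0) (a z2 z0)) (c (a z2 z0) (a z2 z0)))) z0)) (a (b z0 (d (a z2 z0) z0)) z0)) (d (c (a (b (d z2 z2) (d (c (a z0 z2) (a z0 z2)) (a z0 z2))) z0) (a (b z2 (d (c (a z0 z2) z2) (c (a z0 z2) (a z0 z2)))) z0)) (a (b (d z2 z0) (d (a z0 z2) z0)) z0))) (b (d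 (c (a (b z0 (d (c (a z2 z0) (a z2 z0)) (c (a z2 z0) (a z2 z0)))) z0) (a (b z0 z2) z0)) (c (a (b z0 (d (c (a z2 z0) (a z2 z0)) (a z2 z0))) z0) (a (b z0 (d (a z2 z0) (a z2 z0))) z0))) (d (c (a z2 z0) (a z2 z0)) (c (a (b z2 (d (c (a z0 z2) z2) (a z0 z2))) z0) (a z2 z0)))))) (a (b (d (b z0 z0) z0) z0) (b (d (a (b z0 (d (a z2 z0) (a z2 z0))) z0) z0) (d (a (b (d z2 z2) (d (a z0 z2) (a z0 z2))) z0) z0))))) _ _ (by decide +kernel)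

theorem okB55 : CKB ⟨4097, 6145, 1536, 2048⟩ ⟨0, 4608, 6144, 6656⟩ :=
  ckB_sound (a z0 (b (d (c (b (d (a z0 z2) (a z0 z2)) (d (a z0 (c (b (d (c (a (b z2 (d z2 z2)) z2) z2) (a (b z2 (d z2 z2)) z2)) (d (c (a z0 z2) (a z0 z2)) (a z0 z2))) (b z2 (d (a z0 z2) (a z0 z2))))) (a z0 (b (d (a (c (b z2 (d z2 z2)) z2) z2) (a (b z2 (d z2 z2)) z2)) (d (a z0 z2) (a z0 z2)))))) (b (d (a z0 z2) (a z0 z2)) (d (a z0 (c (b z2 (d (a z0 z2) (a z0 z2))) (b z2 (d (a z0 z2) (a z0 z2))))) (a z0 (c (b z2 (d (a z0 z2) (a z0 z2))) (b z2 (d (a z0 z2) (a z0 z2)))))))) (b (d (a z0 z2) (a z0 z2)) (d (a z0 (c (b (d (a (c (b z2 (d z2 z2)) z2) z2) (a (b z2 (d z2 z2)) z2)) (d (a z0 z2) (a z0 z2))) (b z2 (d (a z0 z2) (a z0 z2))))) (a z0 (b (d (a (c (b z2 (d z2 z2)) z2) z2) (a (b z2 (d z2 z0)) z2)) (d (a z0 z2) (a z0 z2)))))))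 (d (c (b (d (a z0 (c (b (d (c (a z0 z2) (a z0 z2)) (a z0 z2)) (d (c (a z0 z2) (a z0 z2)) (a z0 z2))) (b (d (a z0 z2) (a z0 z2)) (d (a z0 z2) (a z0 z2))))) (a z0 (b (d (a z0 z2) (a z0 z2)) (d (a z0 z2) (a z0 z2))))) (d z0 (a z0 (b (d z0 z0) z0)))) (b (d (a z0 (c (b (d (a z0 z2) (a z0 z2)) (d (a z0 z2) (a z0 z2))) (b (d (a z0 z2) (a z0 z2)) (d (a z0 z2) (a z0 z2))))) (a z0 (c (b (d (a z0 z2) (a z0 z2)) (d (a z0 z2) (a z0 z2))) (b (d (a z0 z2) (a z0 z2)) (d (a z0 z2) (a z0 z2)))))) z0)) (b (d (a z0 (c (b (d (a z0 z2) (a z0 z2)) (d (a z0 z2) (a z0 z2))) (b (d (a z0 z2) (a z0 z2)) (d (a z0 z2) (a z0 z2))))) (a z0 (b (d (a z0 z2) (a z0 z2)) (d (a z0 z2) (a z0 z2))))) (d (a z0 (c (b (d z0 z0) z0) z0)) (a z0 (b (d z0 z0) z0))))))) _ _ (by decide +kernel)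

theorem okB56 : CKB ⟨4097, 6145, 1536, 2048⟩ ⟨4608, 6144, 6144, 6656⟩ :=
  ckB_sound (a z0 (b (d (c (b (d (a z0 z2) (a z0 z2)) (d (a z0 (c (b z2 (d (a z0 z2) (a z0 z2))) z2)) (a z0 (c (b z2 (d (a z0 z2) (a z0 z2))) (b z2 (d (a z0 z2) (a z0 z2))))))) (b (d (a z0 z2) (a z0 z2)) (d (a z0 z2) (a z0 z2)))) (c (b (d (a z0 z2) (a z0 z2)) (d (a z0 (c (b z2 (d (a z0 z2) (a z0 z2))) (b z2 (d (a z0 z2) (a z0 z2))))) (a z0 (c (b (d z2 (a (c (b z2 (d z2 z2)) z2) z2)) (d (a z0 z2) (a z0 z2))) (b z2 (d (a z0 z2) (a z0 z2))))))) (b (d (a z0 z2) (a z0 z2)) (d (a z0 (c (b z2 (d (a z0 z2) (a z0 z2))) z2)) (a z0 (c (b z2 (d (a z0 z2) (a z0 z2))) (b z2 (d z2 (a z0 z2))))))))) (d (c (b (d z0 (a z0 (c (b (d (a z0 z2) (a z0 z2)) (d (a z0 z2) (a z0 z2))) (b (d (a z0 z2) (a z0 z2)) (d (a z0 z2) (a z0 z2))))))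 z0) z0) (c (b (d (a z0 (c (b (d (a z0 z2) (a z0 z2)) (d (a z0 z2) (a z0 z2))) (b (d (a z0 z2) (a z0 z2)) (d (a z0 z2) (a z0 z2))))) (a z0 (c (b (d (a z0 z2) (a z0 z2)) (d (a z0 z2) (a z0 z2))) (b (d (a z0 z2) (a z0 z2)) (d (a z0 z2) (a z0 z2)))))) z0) (b (d (a z0 (c (b (d (a z0 z2) (a z0 z2)) (d (a z0 z2) (a z0 z2))) (b (d (a z0 z2) (a z0 z2)) (d (a z0 z2) (a z0 z2))))) (a z0 (c (b (d (a z0 z2) (a z0 z2)) (d (a z0 z2) (a z0 z2))) (b (d (a z0 z2) (a z0 z2)) (d (a z0 z2) (a z0 z2)))))) z0))))) _ _ (by decide +kernel)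

theorem okB57 : CKB ⟨4097, 6145, 1536, 2048⟩ ⟨0, 6144, 6656, 7168⟩ :=
  ckB_sound (a z0 (b (d (c (b (d (a z0 z2) (a z0 z2)) (d (a z0 (c (b (d (a (c (b z2 (d z2 z2)) z2) z2) (a (b z2 (d z2 z0)) z2)) (d (a z0 z2) (a z0 z2))) (b z2 (d (a z0 z2) (a z0 z2))))) (a z0 (b (d (a (b z2 (d z2 z2)) z2) z0) (d (a z0 z2) z0))))) (b (d (a z0 z2) (a z0 z2)) (d (a z0 (c (b z2 (d (a z0 z2) (a z0 z2))) (b z2 (d (a z0 z2) (a z0 z2))))) (a z0 (c (b (d z2 (a z2 z2)) (d (a z0 z2) (a z0 z2))) (b z2 (d (a z0 z2) (a z0 z2)))))))) (b (d (a z0 z2) z0) (d (a z0 (b (d (a z2 z2) (a z2 z2)) (d (a z0 z2) (a z0 z2)))) z0))) (d (c (b (d (a z0 (c (b (d (a z0 z2) (a z0 z2)) (d (a z0 z2) (a z0 z2))) (b (d (a z0 z2) (a z0 z2)) (d (a z0 z2) (a z0 z2))))) (a z0 (b (d (a z0 z2) z0) (d (a z0 z2) z0)))) (d (a z0 (c (b (d z0 z0)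 z0) z0)) (a z0 (b (d z0 z0) z0)))) (b (d (a z0 (c (b (d (a z0 z2) (a z0 z2)) (d (a z0 z2) (a z0 z2))) (b (d (a z0 z2) (a z0 z2)) (d (a z0 z2) (a z0 z2))))) (a z0 (c (b (d (a z0 z2) (a z0 z2)) (d (a z0 z2) (a z0 z2))) (b (d (a z0 z2) (a z0 z2)) (d (a z0 z2) (a z0 z2)))))) (d z0 (a z0 (c (b (d z0 z0) z0) z0))))) (b (d (a z0 (b (d (a z0 z2) (a z0 z2)) (d (a z0 z2) (a z0 z2)))) z0) (d (a z0 (b (d z0 z0) z0)) z0))))) _ _ (by decide +kernel)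

theorem okB58 : CKB ⟨6145, 8193, 1024, 2048⟩ ⟨0, 6144, 6144, 7168⟩ :=
  ckB_sound (b z0 (d (c (b z0 (d (c (a z2 z0) (a z2 z0)) (a z2 z0))) (b z0 (d (a z2 z0) (a z2 z0)))) (b z0 (d (a z2 z0) (a (b (d z2 z0) z2) z0))))) _ _ (by decide +kernel)

theorem okB59 : CKB ⟨4097, 8193, 1024, 2048⟩ ⟨0, 6144, 7168, 8192⟩ :=
  ckB_sound z0 _ _ (by decide +kernel)

end Vale.Agent.Lib.P154Q4
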