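import Vale.Agent.Lib.P154Q4.CkBDefs

namespace Vale.Agent.Lib.P154Q4

set_option maxRecDepth 100000
set_option exponentiation.threshold 1000

open Tr

theorem okB75 : CKB ⟨4097, 8193, 1024, 2048⟩ ⟨6144, 9216, 5120, 6144⟩ :=
  ckB_sound (a (b (d (c (b z0 (d (a z0 (c (b (d (c (a (b z0 z2) z0) (a z2 z0)) (c (a (b z0 z2) z0) (a z2 z0))) z2) (b (d (a z2 z0) (a z2 z0)) z2))) (a z0 (c (b (d (c (a (b z0 z2) z0) (a (b z0 z2) z0)) (c (a (b z0 z2) z0) (a (b z0 z2) z0))) z2) (b (d (a z2 z0) (a z2 z0)) z2))))) (b z0 (d (a z0 (c (b (d (a z2 z0) (a z2 z0)) z2) (b (d (a z2 z0) (a z2 z0)) z2))) (a z0 (c (b (d (a z2 z0) (a z2 z0)) z2) (b (d (a z2 z0) (a z2 z0)) z2)))))) (c (b z0 (d (a z0 (c (b (d (c (a (b z0 z2) z0) (a (b z0 z2) z0)) (c (a (b z0 z2) z0) (a (b z0 z2) z0))) z2) (b (d (a z2 z0) (a (c (b z0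 z2) z2) z0)) z2))) (a z0 (c (b (d (c (a (b z0 z2) z0) (a (b z0 z2) z0)) (c (a (b z0 z2) z0) (a (b z0 z2) z0))) z2) (b (d (a (c (b z0 z2) z2) z0) (a (c (b z0 z2) z2) z0)) z2))))) (b z0 (d (a z0 (c (b (d (a z2 z0) (a z2 z0)) z2) (b (d (a z2 z0) (a z2 z0)) z2))) (a z0 (c (b (d (a z2 z0) (a z2 z0)) z2) (b (d (a z2 z0) (a z2 z0)) z2))))))) (d (c (a z0 (b (d (c (b (d (a z0 z2) (a z0 z2)) z0) (b (d (a z0 z2) (a z0 z2)) z0)) (c (b (d (a z0 z2) (a z0 z2)) z0) (b (d (a z0 z2) (a z0 z2)) z0))) z0)) (a z0 (b (d (c (b (d (a z0 z2) (a z0 z2)) z0) (b (d (a z0 z2) (a z0 z2)) z0)) (c (b (d (a z0 z2) (a z0 z2)) z0) (b (d (a z0 z2) (a z0 z2)) z0))) z0))) (c (a z0 (b (d (c (b (d (a z0 z2) (a z0 z2)) z0) (b (d (a z0 z2) (a z0 z2)) z0)) (c (b (d (a z0 z2) (a z0 z2)) (d (a z0 z2) (a z0 z2))) (b (d (a z0 z2)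 (a z0 z2)) z0))) z0)) (a z0 (b (d (c (b (d (a z0 z2) (a z0 z2)) z0) (b (d (a z0 z2) (a z0 z2)) z0)) (c (b (d (a z0 z2) (a z0 z2)) z0) (b (d (a z0 z2) (a z0 z2)) z0))) z0))))) (b z0 (d (c (b z0 (d (a z2 z0) (a z2 z0))) (b z0 (d (a z2 z0) (a z2 z0)))) (c (b z0 (d (a z2 z0) (a z2 z0))) (b z0 (d (a z2 z0) (a z2 z0))))))) _ _ (by decide +kernel)

theorem okB76 : CKB ⟨4097, 8193, 1024, 2048⟩ ⟨9216, 12288, 5120, 6144⟩ :=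
  ckB_sound (a (b (d (b z0 (d (c (a z0 (b (d (c (a z2 z0) (a z3 z0)) (c (a z2 z0) (a (b z0 z3) z0))) z2)) z1) (c (a z0 (b (d (c (a z2 z0) (a (b z0 z3) z0)) (c (a z2 z0) (a z2 z0))) z2)) (a z1 (b (d z3 (c (a z3 z0) z3)) z3))))) (b z0 (d (c (a z0 (b (d (c (a z2 z0) (a z2 z0)) (c (a z2 z0) (a z2 z0))) z2)) (a z1 (b (d (c (a z3 z0) z3) (c (a (b z0 z3) z0) z3)) z3))) (c (a z0 (b (d (c (a z2 z0) (a z2 z0)) (c (a z2 z0) (a z2 z0))) z2)) (a (b (d z1 z0) z1) (b (d (c (a z2 z0) (a z3 z0)) (c (a z2 z0) (a z3 z0))) (d (c z2 z3) z2))))))) (d (a z1 (b (d (c (b (d (c (a z0 z2) z1) (c (a z0 z2) (a z1 z3))) z0) z1) (c (b (d (c (a z0 z2) (a z1 z3)) (c (a z0 z2) z0)) z0) z1)) (d (c z0 z1) (c z0 z1)))) (a z0 (b (d (c (b (d (c (a z0 z2) z0) (c (a z0 z2) z0)) z0) (b (d (a z1 z3) (a z1 z3)) (d z1 (a z1 z3))))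 (c (b (d (c (a z0 z2) z0) (c (a z0 z2) z0)) z0) (b (d (a z1 z3) z0) (d (a z1 (c z2 z3)) z0)))) z0)))) (b z0 (d (b z0 (d (c (a z2 z0) (a z3 z0)) (c (a z2 z0) (a z3 z0)))) (b z0 (d (c (a z2 z0) (a z3 z0)) (c (a z2 z0) (a z3 z0))))))) _ _ (by decide +kernel)

theorem okB77 : CKB ⟨4097, 8193, 0, 1024⟩ ⟨6144, 12288, 6144, 8192⟩ :=
  ckB_sound z0 _ _ (by decide +kernel)

theorem okB78 : CKB ⟨4097, 6145, 1024, 1536⟩ ⟨6144, 9216, 6144, 7168⟩ :=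
  ckB_sound (d (c (b z0 (d (a z0 (c (b (d (c (a (b z0 z2) z0) (a (b z0 z2) z0)) (c (a (b z0 z2) z0) (a (b z0 z2) z0))) z2) (b (d (a (c (b z0 z2) (b z0 z2)) z0) (a (c (b z0 z2) (b z0 z2)) z0)) z2))) (a z0 (c (b (d (c (a (b z0 z2) z0) (a (b z0 z2) z0)) (c (a (b z0 z2) z0) (a (b z0 z2) z0))) (d (c (a z2 z0) z2) (c (a z2 z0) (a z2 z0)))) (b (d (a (c (b z0 z2) (b z0 z2)) z0) (a (c (b z0 z2) (b z0 z2)) z0)) z2))))) (b z0 (d (a z0 (c (b (d (a z2 z0) (a z2 z0)) z2) (b (d (a z2 z0) (a z2 z0)) z2))) (a z0 (c (b (d (a (c (b z0 z2) z2) z0) (a (c (b z0 z2) z2) z0)) z2) (b (d (a z2 z0) (a z2 z0)) z2)))))) (c (b z0 (d (a z0 (c (b (d (c (a (b z0 z2) z0) (a (b z0 z2) z0)) (c (a (b z0 z2) z0) (a (b z0 z2) z0))) (d (c (a z2 z0) (a z2 z0)) (c (a z2 z0) (a z2 z0)))) (b (d (a (c (b z0 z2) (b z0 z2)) z0) (a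 (c (b z0 z2) (b z0 z2)) z0)) (d (a z2 z0) (a z2 z0))))) (a (c (b (d z0 (b z0 z0)) z0) z0) (c (b (d (c (a (b z0 (d (c (a z2 z0) z2) (c (a z2 z0) (a z2 z0)))) z0) (a (b z0 z2) z0)) (a (b z0 (d (c (a z2 z0) z2) (a z2 z0))) z0)) (d (c (a (b z2 (d z2 (c (a z0 z2) z2))) z0) (a z2 z0)) (a (b z2 (d (c (a z0 z2) z2) (a z0 z2))) z0))) (b (d (a (c (b z0 z2) (b z0 z2)) z0) (a (c (b z0 z2) (b z0 z2)) z0)) (d (a z2 z0) (a z2 z0))))))) (b z0 (d (a z0 (c (b (d (a (c (b z0 z2) z2) z0) (a (c (b z0 z2) (b z0 z2)) z0)) z2) (b (d (a z2 z0) (a z2 z0)) z2))) (a z0 (c (b (d (a (c (b z0 z2) (b z0 z2)) z0) (a (c (b z0 z2) (b z0 z2)) z0)) (d (a z2 z0) (a z2 z0))) (b (d (a z2 z0) (a (b z0 z2) z0)) z2))))))) _ _ (by decide +kernel)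

theorem okB79 : CKB ⟨4097, 6145, 1536, 2048⟩ ⟨6144, 9216, 6144, 7168⟩ :=
  ckB_sound (d (c (a z0 (b (d (c (b (d (a z0 z2) (a z0 z2)) (d (a z0 z2) (a z0 z2))) (b (d (a z0 z2) (a z0 z2)) (d (a z0 z2) (a z0 z2)))) (c (b (d (a z0 z2) (a z0 z2)) (d (a z0 z2) (a z0 z2))) (b (d (a z0 z2) (a z0 z2)) (d (a z0 z2) (a z0 z2))))) z0)) (a z0 (b (d (c (b (d (a z0 z2) (a z0 z2)) z0) (b (d (a z0 z2) (a z0 z2)) z0)) (c (b (d (a z0 z2) (a z0 z2)) (d z0 (a z0 z2))) (b (d (a z0 z2) (a z0 z2)) z0))) z0))) (c (a z0 (b (d (c (b (d (a z0 z2) (a z0 z2)) (d (a z0 (c (b z2 (d z2 (a z0 z2))) z2)) (a z0 (c (b z2 (d (a z0 z2) (a z0 z2))) z2)))) (b (d (a z0 z2) (a z0 z2)) (d (a z0 z2) (a z0 z2)))) (c (b (d (a z0 z2) (a z0 z2)) (d (a z0 (c (b z2 (d (a z0 z2) (a z0 z2))) (b z2 (d (a z0 z2) (a z0 z2))))) (a z0 (b (d z2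 z2) (d (c (a z0 z2) (a z0 z2)) (a z0 z2)))))) (b (d (a z0 z2) (a z0 z2)) (d (a z0 z2) (a z0 (c (b z2 (d z2 (a z0 z2))) z2)))))) (d (c (b (d (a z0 (c (b (d (a z0 z2) (a z0 z2)) (d (a z0 z2) (a z0 z2))) (b (d (a z0 z2) (a z0 z2)) (d (a z0 z2) (a z0 z2))))) (a z0 (c (b (d (a z0 z2) (a z0 z2)) (d (a z0 z2) (a z0 z2))) (b (d (a z0 z2) (a z0 z2)) (d (a z0 z2) (a z0 z2)))))) z0) z0) (c (b (d (a z0 (c (b (d (a z0 z2) (a z0 z2)) (d (a z0 z2) (a z0 z2))) (b (d (a z0 z2) (a z0 z2)) (d (a z0 z2) (a z0 z2))))) (a z0 (b (d (c (a z0 z2) (a z0 z2)) (a z0 z2)) (d (c (a z0 z2) (a z0 z2)) (a z0 z2))))) (d z0 (a z0 (b (d z0 z0) z0)))) (b (d (a z0 (c (b (d (a z0 z2) (a z0 z2)) (d (a z0 z2) (a z0 z2))) (b (d (a z0 z2) (a z0 z2)) (d (a z0 z2) (a z0 z2))))) (a z0 (c (b (d (a z0 z2) (a z0 z2)) (d (a z0 z2) (a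 z0 z2))) (b (d (a z0 z2) (a z0 z2)) (d (a z0 z2) (a z0 z2)))))) z0))))) (a z0 (b (d (c (b (d (a z0 z2) (a z0 z2)) (d (a z0 z2) (a z0 z2))) (b (d (a z0 z2) (a z0 z2)) z0)) (c (b (d (a z0 z2) (a z0 z2)) (d (a z0 z2) (a z0 z2))) (b (d (a z0 z2) (a z0 z2)) (d (a z0 z2) (a z0 z2))))) z0)))) _ _ (by decide +kernel)

theorem okB80 : CKB ⟨6145, 8193, 1024, 2048⟩ ⟨6144, 9216, 6144, 7168⟩ :=
  ckB_sound (b z0 (d (c (b z0 (d (a z2 z0) (a z2 z0))) (b z0 (d (a z2 z0) (a z2 z0)))) (c (b z0 (d (a z2 z0) (a z2 z0))) (b z0 (d (a z2 z0) (a z2 z0)))))) _ _ (by decide +kernel)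

theorem okB81 : CKB ⟨4097, 8193, 1024, 2048⟩ ⟨9216, 12288, 6144, 7168⟩ :=
  ckB_sound (a (b (d (b z0 (d (c (a z0 (b (d (c (a z2 z0) (a z2 z0)) (c (a z2 z0) (a z2 z0))) z2)) (a z0 (b (d (c (a z2 z0) (a (b z0 z3) z0)) (c (a z2 z0) (a z2 z0))) z2))) (c (a z0 (b (d (c (a z2 z0) (a z2 z0)) (c (a z2 z0) (a z2 z0))) z2)) (a z0 (b (d (c (a z2 z0) (a z2 z0)) (c (a z2 z0) (a z2 z0))) z2))))) (b z0 (d (c (a z0 (b (d (c (a z2 z0) (a z2 z0)) (c (a z2 z0) (a z2 z0))) z2)) (a z0 (b (d (c (a z2 z0) (a z2 z0)) (c (a z2 z0) (a z2 z0))) z2))) (c (a z0 (b (d (c (a z2 z0) (a z2 z0)) (c (a z2 z0) (a z2 z0))) z2)) (a z0 (b (d (c (a z2 z0) (a z2 z0)) (c (a z2 z0) (a z2 z0))) z2)))))) (d (a z0 (b (d (c (b (d (c (a z0 z2) z0) (c (a z0 z2) z0)) z0) z0) (c (b (d (c (a z0 z2) z0) (c (a z0 z2) z0)) z0) z0)) z0)) (a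 z0 (b (d (c (b (d (c (a z0 z2) (a z0 z2)) (c (a z0 z2) (a z0 z2))) z0) z0) (c (b (d (c (a z0 z2) (a z0 z2)) (c (a z0 z2) (a z0 z2))) z0) z0)) z0)))) (b z0 (d (b z0 (d (c (a z2 z0) (a z2 z0)) (c (a z2 z0) (a z2 z0)))) (b z0 (d (c (a z2 z0) (a z2 z0)) (c (a z2 z0) (a z2 z0))))))) _ _ (by decide +kernel)

theorem okB82 : CKB ⟨4097, 6145, 1024, 1536⟩ ⟨6144, 12288, 7168, 8192⟩ :=
  ckB_sound (d (c (b z0 (d (c (a (b (d (c (b z0 z0) z0) z0) z0) (b (d (c (a (b z0 (d (c (a z2 z0) z2) (a z2 z0))) z0) (a (b z0 z2) z0)) (a (c (b z0 (d (a z2 z0) (a z2 z0))) (b z0 z2)) z0)) (d (c (a (b z2 (d (c (a z0 z2) z2) z2)) z0) (a z2 z0)) (a (c (b z2 (d z2 z2)) z2) z0)))) (a z0 (b (d (c (a (b z0 z2) z0) (a z2 z0)) (c (a (b z0 z2) z0) (a z2 z0))) (d (c (a z2 z0) z2) (c (a z2 z0) z2))))) (a (b (d z0 z0) z0) (b (d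 (c (a (b z0 (d z2 z2)) z0) (a (b z0 z2) z0)) (a (c (b z0 (d z2 z2)) (b z0 z2)) z0)) (d (c (a (b z2 (d z2 z2)) z0) z2) (a (c (b z2 (d z2 z2)) z2) z0)))))) (b z0 (d (c (a z0 (b (d (c (a z2 z0) (a z2 z0)) (c (a z2 z0) (a z2 z0))) z2)) (a z0 (b (d (c (a z2 z0) (a z2 z0)) (c (a z2 z0) (a z2 z0))) z2))) (c (a z0 (b (d (c (a z2 z0) (a z2 z0)) (c (a z2 z0) (a z2 z0))) z2)) (a z0 (b (d (c (a z2 z0) (a z2 z0)) (c (a z2 z0) (a z2 z0))) z2)))))) (b z0 (d (c (a (b (d z0 z0) z0) (b (d (c (a (b z0 (d z2 z2)) z0) (a z2 z0)) (a (b z0 z2) z0)) (d (c (a z2 z0) z2) (a z2 z0)))) (a z0 (b (d (c (a z2 z0) (a z2 z0)) (c (a z2 z0) (a z2 z0))) z2))) (a (b (d z0 z0) z0) (b (d (c (a (b z0 z2) z0) (a z2 z0)) (a (b z0 z2) z0)) (d (c (a z2 z0) z2) (a z2 z0))))))) _ _ (by decide +kernel)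

theorem okB83 : CKB ⟨4097, 6145, 1536, 2048⟩ ⟨6144, 12288, 7168, 8192⟩ :=
  ckB_sound (d (c (a z0 (b (d (c (b (d (c (a z0 z2) (a z0 z2)) (a z0 z2)) (d (c (a z0 (b (d z2 z2) (d (c (a z0 z2) z2) (a z0 z2)))) (a z0 z2)) (a z0 (c (b (d z2 z2) (d (a z0 z2) (a z0 z2))) (b z2 (d z2 (a z0 z2))))))) (b (d (a z0 z2) (a z0 z2)) (d (a z0 z2) (a z0 z2)))) (b (d (c (a z0 z2) (a z0 z2)) (a z0 z2)) (d (c (a z0 (b (d z2 z2) (d (c (a z0 z2) z2) (a z0 z2)))) (a z0 z2)) (a z0 (c (b (d z2 z2) (d (a z0 z2) z2)) z2))))) (d (c (b (d (c (a z0 (b (d (c (a z0 z2) (a z0 z2)) (a z0 z2)) (d (c (a z0 z2) (a z0 z2)) (a z0 z2)))) (a z0 (b (d (c (a z0 z2) (a z0 z2)) (c (a z0 z2) (a z0 z2))) (d (c (a z0 z2) (a z0 z2)) (c (a z0 z2) (a z0 z2)))))) (a z0 (c (b (d (a z0 z2) (a z0 z2)) (d (a z0 z2) (a z0 z2))) (b (d (a z0 z2)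 (a z0 z2)) (d (a z0 z2) (a z0 z2)))))) (d (c (a z0 (b (d z0 z0) z0)) z0) (a z0 (c (b (d z0 z0) z0) z0)))) z0) (b (d (c (a z0 (b (d (c (a z0 z2) (a z0 z2)) (a z0 z2)) (d (c (a z0 z2) (a z0 z2)) (a z0 z2)))) z0) (a z0 (c (b (d (a z0 z2) (a z0 z2)) (d (a z0 z2) (a z0 z2))) (b (d z2 (a z0 z2)) (d (a z0 z2) (a z0 z2)))))) (d (c (a z0 (b (d z0 z0) z0)) z0) (a z0 (c (b (d z0 z0) z0) z0))))))) (a z0 (b (d (c (b (d (a z0 z2) (a z0 z2)) z0) z0) (c (b (d (a z0 z2) (a z0 z2)) (d z0 (a z0 z2))) (b (d z0 (a z0 z2)) z0))) z0))) (a z0 (b (d (c (b (d (a z0 z2) (a z0 z2)) (d (a z0 (c (b z2 (d z2 z2)) z2)) (a z0 (b z2 (d z2 z2))))) (b (d (a z0 z2) (a z0 z2)) z0)) (b (d (a z0 z2) (a z0 z2)) (d (a z0 z2) (a z0 z2)))) (d (c (b (d (a z0 (c (b (d (c (a z0 z2) z2) (a z0 z2)) (d (c (a z0 z2) (a z0 z2)) (a z0 z2)))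 z2)) (a z0 (b (d (c (a z0 z2) z2) z2) (d (c (a z0 z2) z2) (a z0 z2))))) (d z0 z0)) z0) (b (d (a z0 (c (b (d z2 z2) (d (a z0 z2) (a z0 z2))) z2)) z0) (d z0 z0)))))) _ _ (by decide +kernel)

theorem okB84 : CKB ⟨6145, 8193, 1024, 2048⟩ ⟨6144, 12288, 7168, 8192⟩ :=
  ckB_sound (b z0 (d (c (b z0 (d (c (a (b (d z2 (a z2 z0)) z2) z0) (a z2 z0)) (a (b (d (c (a z2 z0) z2) (a z2 z0)) z2) z0))) (b z0 (d (a z2 z0) (a z2 z0)))) (b z0 (d (c (a (b (d (c (a z2 z0) z2) (a z2 z0)) z2) z0) (a z2 z0)) (a (b (d (a z2 z0) (a z2 z0)) z2) z0))))) _ _ (by decide +kernel)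

theorem okB85 : CKB ⟨4097, 8193, 2048, 3072⟩ ⟨6144, 12288, 4096, 5120⟩ :=
  ckB_sound (c (a z0 (b (d (c z2 (b z2 (d (a (c z2 z3) z3) (a z2 z2)))) z2) (d (c (b (d (a (c (b (d (a z0 z2) (a z0 z2)) z0) (b (d (a z0 z2) (a z0 z2)) z0)) z2) (a (c (b (d (a z0 z2) (a z0 z2)) z0) (b (d (a z0 z2) (a z0 z2)) z0)) z2)) (d (a z0 z2) (a z0 z2))) (b (d (a (c (b (d (a z0 z2) (a z0 z2)) z0) (b (d (a z1 z3) (a z1 z3)) z1)) z3) (a (c (b (d (a z0 z2) (a z0 z2)) z0) (b (d (a z1 z3) (a z0 z2)) z1)) z2)) (d (a z1 z3) (a z0 z2)))) (c (b (d (a (c (b (d (a z0 z2) (a z0 z2)) z0) (b (d (a z0 z2) (a z0 z2)) z0)) z2) (a (c (b (d (a z0 z2) (a z0 z2)) z0) (b (d (a z0 z2) (a z0 z2)) z0)) z2)) (d (a z0 z2) (a z0 z2))) (b (d (a (c (b (d (a z0 z2) (a z0 z2)) z0) (b (d (a z0 z2) (a z0 z2)) z0)) z2) (a (c (b (d (a z0 z2)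 (a z0 z2)) z0) (b (d (a z0 z2) (a z0 z2)) z0)) z2)) (d (a z0 z2) (a z0 z2))))))) (a z1 (b (d z3 (b z3 (d (c (a z3 z3) z3) (c (a (b (d z3 (c z2 z3)) (d (c (a z1 z3) z3) (c z2 z3))) z3) z3)))) (d (b (d z3 (c (a (b z3 z1) z3) z3)) (d (c (a z1 z3) z3) (c (a z1 z3) z3))) (b (d (c (a (b (d (c (a z1 z3) z3) (c (a z1 z3) z3)) z1) z3) z3) (c (a (b (d (c (a z1 z3) z3) (c (a z0 z2) z3)) z1) z3) z3)) (d (c (a z1 z3) z3) (c (a z1 z3) (a z1 z3)))))))) _ _ (by decide +kernel)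

theorem okB86 : CKB ⟨4097, 8193, 2048, 3072⟩ ⟨6144, 12288, 5120, 6144⟩ :=
  ckB_sound (c (a z0 (b (d (c (b z2 (d (a z2 z2) (a z2 z2))) (b z2 (d z2 (a z2 z2)))) (c (b z2 (d (a (c (b z2 (d (a z0 z2) (a z0 z2))) (b z2 (d z2 (a z0 z2)))) z2) (a (c (b z2 (d (a z0 z2) (a z0 z2))) (b z2 (d (a z0 z2) (a z0 z2)))) z2))) (b z2 (d (a z2 z2) (a (c (b z2 (d z2 (a z0 z2))) z2) z2))))) (d (c (b (d (a (c (b (d (a z0 z2) (a z0 z2)) z0) (b (d (a z0 z2) (a z0 z2)) z0)) z2) (a (c (b (d (a z0 z2) (a z0 z2)) z0) (b (d (a z0 z2) (a z0 z2)) z0)) z2)) (d (a z0 z2) (a z0 z2))) (b (d (a (c (b (d (a z0 z2) (a z0 z2)) z0) (b (d (a z0 z2) (a z0 z2)) z0)) z2) (a (c (b (d (a z0 z2) (a z0 z2)) z0) (b (d (a z0 z2) (a z0 z2)) z0)) z2)) (d (a z0 z2) (a z0 z2)))) (c (b (d (a (c (b (d (a z0 z2) (a z0 z2)) z0) (b (d (a z0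 z2) (a z0 z2)) z0)) z2) (a (c (b (d (a z0 z2) (a z0 z2)) z0) (b (d (a z0 z2) (a z0 z2)) z0)) z2)) (d (a z0 z2) (a z0 z2))) (b (d (a (c (b (d (a z0 z2) (a z0 z2)) z0) (b (d (a z0 z2) (a z0 z2)) z0)) z2) (a (c (b (d (a z0 z2) (a z0 z2)) z0) (b (d (a z0 z2) (a z0 z2)) z0)) z2)) (d (a z0 z2) (a z0 z2))))))) (a z0 (b (d (b (d (c z2 z3) (c z2 z3)) (d (c z2 z3) (c z2 z3))) (b z2 (d z2 (c (a z2 z2) (a (b (d (c z2 z3) z2) (d (c z2 z3) z2)) z3))))) (d (b (d (c (a (b (d (c (a z0 z2) (a z1 z3)) (c (a z0 z2) (a z1 z3))) z0) z2) (a z3 z3)) (c (a (b (d (c (a z0 z2) (a z1 z3)) (c (a z0 z2) (a z0 z2))) z0) z2) (a (b (d z3 (c (a z1 z3) z3)) z1) z3))) (d (c (a z0 z2) (a z1 z3)) (c (a z0 z2) (a z1 z3)))) (b (d (c (a (b (d (c (a z0 z2) (a z0 z2)) (c (a z0 z2) (a z0 z2))) z0) z2) (a (b (d (c (a z1 z3) z3) (c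 (a z1 z3) z3)) z1) z3)) (c (a (b (d (c (a z0 z2) (a z0 z2)) (c (a z0 z2) (a z0 z2))) z0) z2) (a (b (d (c (a z0 z2) (a z1 z3)) (c (a z0 z2) (a z1 z3))) (d (c z0 z1) z0)) z3))) (d (c (a z0 z2) (a z1 z3)) (c (a z0 z2) (a (b (d z1 z0) z1) z3)))))))) _ _ (by decide +kernel)

theorem okB87 : CKB ⟨4097, 8193, 3072, 4096⟩ ⟨6144, 12288, 4096, 6144⟩ :=
  ckB_sound (d (c (a z0 (b (d (c (b (d (a z0 z2) (a z0 z2)) z0) (b (d (a z1 z3) (a z0 z2)) z0)) (c (b (d (a z0 z2) (a z0 z2)) z0) (b (d (a z0 z2) (a z0 z2)) z0))) z0)) (a z1 (b (d (b (d z1 (c (a z1 z3) z1)) z1) (b (d (c (a z1 z3) z1) (c (a z1 z3) z1)) (d z1 (c (a z1 (b z3 (d z3 (c z2 z3)))) z1)))) z1))) (c (a z0 (b (d (c (b (d (a z0 z2) (a z0 z2)) (d z0 (a z0 z2))) (b (d (a z0 z2) (a z0 z2)) (d z0 (a z0 z2)))) (c (b (d (a z0 z2) (a z0 z2)) (d (a z0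 z2) (a z0 z2))) (b (d (a z0 z2) (a z0 z2)) (d (a z0 z2) (a z0 z2))))) z0)) (a z0 (b (d (b (d (c (a z0 z2) (a z1 z3)) (c (a z0 z2) (a z1 z3))) (d (c z0 z1) (c (a z0 z2) z1))) (b (d (c (a z0 z2) (a z1 z3)) (c (a z0 z2) (a z1 z3))) (d (c (a z0 z2) (a z1 z3)) (c (a z0 z2) (a z1 (b (d z3 z2) (d (c z2 z3) z2))))))) z0)))) _ _ (by decide +kernel)

theorem okB88 : CKB ⟨4097, 6145, 2048, 3072⟩ ⟨6144, 9216, 6144, 7168⟩ :=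
  ckB_sound z0 _ _ (by decide +kernel)

theorem okB89 : CKB ⟨6145, 8193, 2048, 2560⟩ ⟨6144, 9216, 6144, 7168⟩ :=
  ckB_sound (d (c (b z2 (d (a (c (b z2 (d (a z0 z2) (a z0 z2))) (b z2 (d (a z0 z2) (a z0 z2)))) z2) (a (c (b z2 (d (a z0 z2) (a z0 z2))) (b z2 (d (a z0 z2) (a z0 z2)))) z2))) (b z2 (d (a (c (b z2 (d (a z0 z2) (a z0 z2))) (b z2 (d z2 (a z0 z2)))) z2) (a (c (b z2 (d (a z0 z2) (a z0 z2))) (b z2 (d (a z0 z2) (a z0 z2)))) z2)))) (c (b (d z2 (a (c (b z2 (d z2 (a z2 z2))) z2) z0)) (d (a (c (b (d (a z2 z2) (a (c (b z2 (d (a z0 z2) (a z0 z2))) z2) z2)) (d (a z0 z2) (a z0 z2))) (b z2 (d (a z0 z2) (a z0 z2)))) z2) (a (c (b (d (a (c (b z2 (d (a z0 z2) (a z0 z2))) (b z2 (d (a z0 z2) (a z0 z2)))) z2) (a (b (d (c (a z2 z2) z2) (a z2 z2)) (d (c (a z0 z2) (a z0 z2)) (a z0 z2))) z2)) (d (a (c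 (b (d (a z0 z2) (a z0 z2)) z0) z0) z2) (a (b (d (c (a z0 z2) (a z0 z2)) (a z0 z2)) (d z0 z0)) z2))) (b (d (a z2 z2) (a (c (b z2 (d (a z0 z2) (a z0 z2))) z2) z2)) (d (a z0 z2) (a z0 z2)))) z2))) (b z2 (d (a (c (b z2 (d (a z0 z2) (a z0 z2))) (b z2 (d (a z0 z2) (a z0 z2)))) z2) (a (c (b (d z2 (a z2 z2)) (d (a z0 z2) (a z0 z2))) (b z2 (d (a z0 z2) (a z0 z2)))) z2))))) _ _ (by decide +kernel)

end Vale.Agent.Lib.P154Q4
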