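import Vale.Agent.Lib.P154Q4.CkBDefs

namespace Vale.Agent.Lib.P154Q4

set_option maxRecDepth 100000
set_option exponentiation.threshold 1000

open Tr

theorem okB90 : CKB ⟨6145, 8193, 2560, 3072⟩ ⟨6144, 9216, 6144, 7168⟩ :=
  ckB_sound (d (c (b (d (a (c (b (d (a z0 z2) (a z0 z2)) (d z0 (a z0 z2))) (b (d (a z0 z2) (a z0 z2)) z0)) z2) (a (c (b (d (a z0 z2) (a z0 z2)) (d (a z0 z2) (a z0 z2))) (b (d (a z0 z2) (a z0 z2)) (d (a z0 z2) (a z0 z2)))) z2)) (d (a z0 z2) (a z0 z2))) (b (d (a (c (b (d (a z0 z2) (a z0 z2)) z0) (b (d (a z0 z2) (a z0 z2)) z0)) z2) (a (c (b (d (a z0 z2) (a z0 z2)) (d z0 (a z0 z2))) (b (d (a z0 z2) (a z0 z2)) z0)) z2)) (d (a z0 z2) (a z0 z2)))) (c (b (d (a (c (b (d (a z0 z2) (a z0 z2)) (d (a z0 z2) (a z0 z2))) (b (d (a z0 z2) (a z0 z2)) (d (a z0 z2) (a z0 z2)))) z2) (a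 (c (b (d (a z0 z2) (a z0 z2)) (d (a z0 z2) (a z0 z2))) (b (d (a z0 z2) (a z0 z2)) (d (a z0 z2) (a z0 z2)))) z2)) (d (a (c (b (d (a z0 z2) (a z0 z2)) z0) (b (d z0 (a z0 z2)) z0)) z2) (a (c (b (d (a z0 (c (b z2 (d z2 (a z0 z2))) z2)) (a z0 (b (d z2 z2) (d (c (a z0 z2) z2) (a z0 z2))))) (d (a z0 (c (b (d (a z0 z2) (a z0 z2)) z0) z0)) (a z0 (b (d (c (a z0 z2) (a z0 z2)) (a z0 z2)) (d z0 z0))))) (b (d (a z0 z2) (a z0 z2)) z0)) z2))) (b (d (a (c (b (d (a z0 z2) (a z0 z2)) (d (a z0 z2) (a z0 z2))) (b (d (a z0 z2) (a z0 z2)) (d (a z0 z2) (a z0 z2)))) z2) (a (c (b (d (a z0 z2) (a z0 z2)) (d (a z0 z2) (a z0 z2))) (b (d (a z0 z2) (a z0 z2)) (d (a z0 z2) (a z0 z2)))) z2)) (d (a z0 z2) (a (c (b (d z0 (a z0 z2)) z0) z0) z2))))) _ _ (by decide +kernel)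

theorem okB91 : CKB ⟨4097, 8193, 2048, 3072⟩ ⟨9216, 12288, 6144, 7168⟩ :=
  ckB_sound (a z0 (b (d (b z2 (d (c (a z2 z2) z2) (c (a z2 z2) (a z2 z2)))) (b z2 (d (c (a (b z2 (d (c (a z0 z2) z2) (c (a z0 z2) z2))) z2) (a z2 z2)) (c (a (b z2 (d (c (a z0 z2) z2) (c (a z0 z2) (a z0 z2)))) z2) (a z2 z2))))) (d (b (d (c (a (b (d (c (a z0 z2) (a z0 z2)) (c (a z0 z2) (a z0 z2))) z0) z2) (a (b (d (c (a z0 z2) (a z1 z3)) (c (a z0 z2) (a z0 z2))) z0) z2)) (c (a (b (d (c (a z0 z2) (a z0 z2)) (c (a z0 z2) (a z0 z2))) z0) z2) (a (b (d (c (a z0 z2) (a z0 z2)) (c (a z0 z2) (a z0 z2))) z0) z2))) (d (c (a z0 z2) (a z0 z2)) (c (a z0 z2) (a z0 z2)))) (b (d (c (a (b (d (c (a z0 z2) (a z0 z2)) (c (a z0 z2) (a z0 z2))) z0) z2) (a (b (d (c (a z0 z2) (a z0 z2)) (c (a z0 z2) (a z0 z2))) z0) z2)) (c (a (b (d (c (a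 z0 z2) (a z0 z2)) (c (a z0 z2) (a z0 z2))) (d (c (a z0 z2) z0) (c (a z0 z2) z0))) z2) (a (b (d (c (a z0 z2) (a z0 z2)) (c (a z0 z2) (a z0 z2))) z0) z2))) (d (c (a z0 z2) (a z0 z2)) (c (a z0 z2) (a z0 z2))))))) _ _ (by decide +kernel)

theorem okB92 : CKB ⟨4097, 6145, 2048, 3072⟩ ⟨6144, 12288, 7168, 8192⟩ :=
  ckB_sound (b (d (c (a z0 (b (d (c (b (d z0 z0) z0) z0) (b (d z0 z0) z0)) (d z0 z0))) z0) (a z0 (b (d (c (b (d z0 z0) z0) z0) (b (d z0 z0) z0)) (d z0 z0)))) (d z0 (a z0 (b (d z0 z0) z0)))) _ _ (by decide +kernel)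

theorem okB93 : CKB ⟨6145, 8193, 2048, 2560⟩ ⟨6144, 12288, 7168, 8192⟩ :=
  ckB_sound (d (c (b (d (c (a (b z2 (d (c (a z2 z2) z2) (a z2 z2))) z0) z2) (a (b z2 (d (c (a z2 z2) z2) (a z2 z2))) z0)) (d (c (a (b (d (c (a (b (d (c (a z2 z2) z2) z2) (d (c (a z0 z2) (a z0 z2)) (a z0 z2))) z2) (a (b z2 (d z2 (c (a z0 z2) z2))) z2)) (a (c (b (d z2 z2) (d (a z0 z2) (a z0 z2))) (b z2 (d z2 (a z0 z2)))) z2)) (d (c (a (b (d (c (a z0 z2) (a z0 z2)) (a z0 z2)) (d z0 z0)) z2) (a z0 z2)) (a (c (b (d (a z0 z2) (a z0 z2)) (d z0 z0)) (b (d (a z0 z2) (a z0 z2)) z0)) z2))) z2) (a (b (d z2 (c (a z2 z2) z2)) (d (c (a z0 z2) (a z0 z2)) (c (a z0 z2) (a z0 z2)))) z2)) (a (b (d (c (a (b (d z2 z2) (d (c (a z0 z2) z2) (a z0 z2))) z2) (a z2 z2)) (a (c (b (d z2 z2) (d (a z0 z2) (a z0 z2))) (b z2 (d z2 (a z0 z2))))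 z2)) (d (c (a (b (d (c (a z0 z2) (a z0 z2)) (a z0 z2)) (d z0 z0)) z2) (a z0 z2)) (a (c (b (d (a z0 z2) (a z0 z2)) (d z0 z0)) z0) z2))) z2))) (b z2 (d (a (c (b z2 (d (a z0 z2) (a z0 z2))) z2) z2) (a (c (b z2 (d (a z0 z2) (a z0 z2))) (b z2 (d (a z0 z2) (a z0 z2)))) z2)))) (b (d (c (a (b (d z2 z2) (d z2 z2)) z0) (a z2 z0)) (a (b (d z2 z2) (d z2 z2)) z0)) (d (c (a (b (d (c (a (b (d z2 z2) (d (c (a z0 z2) z2) (a z0 z2))) z2) z2) (a (b (d z2 z2) (d (c (a z0 z2) z2) z2)) z2)) (d (c (a (b (d (c (a z0 z2) (a z0 z2)) (a z0 z2)) (d z0 z0)) z2) (a z0 z2)) (a (b (d (c (a z0 z2) z2) (a z0 z2)) (d z0 z0)) z2))) z2) (a (b z2 (d (a z0 z2) (a z0 z2))) z2)) (a (b (d (a (c (b z2 (d z2 z2)) z2) z2) (a (b z2 (d z2 z2)) z2)) (d (a (c (b (d (a z0 z2) (a z0 z2)) z0) z0) z2) (a (b (d (a z0 z2) z2) z0) z2))) z2))))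 _ _ (by decide +kernel)

theorem okB94 : CKB ⟨6145, 8193, 2560, 3072⟩ ⟨6144, 12288, 7168, 8192⟩ :=
  ckB_sound (d (c (b (d (c (a (b (d (c (a z0 z2) (a z0 z2)) (a z0 z2)) (d (c (a z0 z2) (a z0 z2)) (a z0 z2))) z2) (a (b (d (c (a z0 z2) (a z0 z2)) (c (a z0 z2) (a z0 z2))) (d (c (a z0 z2) (a z0 z2)) (c (a z0 z2) (a z0 z2)))) z2)) (a (b (d (c (a z0 z2) (a z0 z2)) (a z0 z2)) (d (c (a z0 z2) (a z0 z2)) (a z0 z2))) z2)) (d (c (a (b (d (c (a z0 (b (d z2 z2) (d (c (a z0 z2) z2) (a z0 z2)))) (a z0 z2)) (a z0 (c (b (d z2 z2) (d (a z0 z2) (a z0 z2))) (b z2 (d z2 (a z0 z2)))))) (d (c (a z0 (b (d (c (a z0 z2) (a z0 z2)) (a z0 z2)) (d z0 z0))) z0) (a z0 (c (b (d (a z0 z2) (a z0 z2)) (d z0 z0)) (b (d (a z0 z2) (a z0 z2)) z0))))) z2) (a (b (d (c (a z0 z2) z0) (c (a z0 z2) (a z0 z2))) z0) z2)) (a (b (d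 (c (a z0 (b (d z2 z2) (d (c (a z0 z2) z2) (a z0 z2)))) (a z0 z2)) (a z0 (c (b (d z2 z2) (d (a z0 z2) (a z0 z2))) (b z2 (d z2 (a z0 z2)))))) (d (c (a z0 (b (d (c (a z0 z2) (a z0 z2)) (a z0 z2)) (d z0 z0))) z0) (a z0 (c (b (d (a z0 z2) (a z0 z2)) (d z0 z0)) (b (d (a z0 z2) (a z0 z2)) z0))))) z2))) (b (d (a (c (b (d (a z0 z2) (a z0 z2)) (d (a z0 z2) (a z0 z2))) (b (d (a z0 z2) (a z0 z2)) z0)) z2) (a (c (b (d (a z0 z2) (a z0 z2)) (d (a z0 z2) (a z0 z2))) (b (d (a z0 z2) (a z0 z2)) (d (a z0 z2) (a z0 z2)))) z2)) (d (a z0 z2) (a (c (b (d (a z0 z2) (a z0 z2)) z0) z0) z2)))) (b (d (c (a (b (d (c (a z0 z2) (a z0 z2)) (a z0 z2)) (d (c (a z0 z2) (a z0 z2)) (a z0 z2))) z2) (a (b (d (a z0 z2) (a z0 z2)) (d (a z0 z2) (a z0 z2))) z2)) (a (b (d (a z0 z2) (a z0 z2)) (d (a z0 z2) (a z0 z2))) z2)) (d (c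 (a (b (d (c (a z0 (b (d z2 z2) (d (c (a z0 z2) z2) (a z0 z2)))) (a z0 z2)) (a z0 (b (d z2 z2) (d (c (a z0 z2) z2) z2)))) (d (c (a z0 (b (d (c (a z0 z2) (a z0 z2)) (a z0 z2)) (d z0 z0))) z0) (a z0 (b (d (c (a z0 z2) z2) (a z0 z2)) (d z0 z0))))) z2) (a (b (d z0 (a z0 z2)) z0) z2)) (a (b (d (a z0 (c (b z2 (d z2 z2)) z2)) (a z0 (b z2 (d z2 z2)))) (d (a z0 (c (b (d (c (a z0 z2) z2) (a z0 z2)) (d z0 z0)) z0)) (a z0 (b (d (c (a z0 z2) z2) (a z0 z2)) (d z0 z0))))) z2)))) _ _ (by decide +kernel)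

theorem okB95 : CKB ⟨4097, 8193, 3072, 4096⟩ ⟨6144, 12288, 6144, 7168⟩ :=
  ckB_sound (c (a z0 (b (d (c (b (d (a z0 z2) (a z0 z2)) (d (a z0 (c (b z2 (d z2 (a z0 z2))) z2)) (a z0 (c (b z2 (d (a z0 z2) (a z0 z2))) (b z2 (d (a z0 z2) (a z0 z2))))))) (b (d (a z0 z2) (a z0 z2)) (d (a z0 z2) (a z0 (c (b z2 (d z2 (a z0 z2))) z2))))) (c (b (d (a z0 z2) (a (c (b (d z0 z0) z0) z0) (c (b z2 (d z2 z2)) z2))) (d (a z0 (c (b (d z2 (a z2 z2)) (d (a z0 z2) (a z0 z2))) (b z2 (d (a z0 z2) (a z0 z2))))) (a z0 (c (b (d (a (c (b z2 (d (a z0 z2) (a z0 z2))) z2) z2) (a (b (d z2 z2) (d (c (a z0 z2) (a z0 z2)) (a z0 z2))) z2)) (d (a z0 z2) (a (b (d z0 z0) z0) z2))) (b (d z2 (a (c (b z2 (d z2 (a z0 z2))) z2) z2)) (d (a z0 z2) (a z0 z2))))))) (b (d (a z0 z2) (a z0 z2)) (d (a z0 (c (b z2 (d (a z0 z2) (a z0 z2)))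 (b z2 (d (a z0 z2) (a z0 z2))))) (a z0 (c (b z2 (d (a z0 z2) (a z0 z2))) (b z2 (d (a z0 z2) (a z0 z2))))))))) (d (c (b (d z0 (a z0 (c (b (d (a z0 z2) (a z0 z2)) z0) (b (d (a z0 z2) (a z0 z2)) z0)))) z0) (b (d z0 (a z0 (c (b (d (a z0 z2) (a z0 z2)) z0) z0))) z0)) (c (b (d (a z0 (c (b (d (a z0 z2) (a z0 z2)) (d (a z0 z2) (a z0 z2))) (b (d (a z0 z2) (a z0 z2)) (d z0 (a z0 z2))))) (a z0 (c (b (d (a z0 z2) (a z0 z2)) (d (a z0 z2) (a z0 (b z2 (d (c (a z0 z2) z2) (a z0 z2)))))) (b (d (a z0 z2) (a z0 z2)) (d (a z0 z2) (a z0 z2)))))) (d z0 (a z0 (c (b (d (a z0 (c (b (d (a z0 z2) (a z0 z2)) z0) z0)) (a z0 (b (d (c (a z0 z2) (a z0 z2)) (a z0 z2)) (d z0 z0)))) (d z0 z0)) z0)))) (b (d (a z0 (c (b (d (a z0 z2) (a z0 z2)) z0) (b (d (a z0 z2) (a z0 z2)) z0))) (a z0 (c (b (d (a z0 z2) (a z0 z2)) (d (a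 z0 z2) (a z0 z2))) (b (d (a z0 z2) (a z0 z2)) (d z0 (a z0 z2)))))) z0))))) (a z0 (b (d (b (d (c (a z0 z2) (a z0 z2)) (c (a z0 z2) (a z0 z2))) (d (c (a z0 z2) (a z0 z2)) (c (a z0 z2) (a z0 z2)))) (b (d (c (a z0 z2) (a z0 z2)) (c (a z0 z2) (a z0 z2))) (d (c (a z0 z2) (a z0 z2)) (c (a z0 (b z2 (d (c (a z0 z2) z2) (c (a z0 z2) (a z0 z2))))) (a z0 z2))))) (d z0 (b (d (c (a z0 (b (d (c (a z0 z2) (a z0 z2)) (c (a z0 z2) (a z0 z2))) z0)) z0) (c (a z0 (b (d (c (a z0 z2) (a z0 z2)) (c (a z0 z2) (a z0 z2))) z0)) z0)) z0))))) _ _ (by decide +kernel)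

theorem okB96 : CKB ⟨4097, 6145, 3072, 4096⟩ ⟨6144, 12288, 7168, 8192⟩ :=
  ckB_sound (b (d z0 z0) (d z0 z0)) _ _ (by decide +kernel)

theorem okB97 : CKB ⟨6145, 8193, 3072, 3584⟩ ⟨6144, 12288, 7168, 8192⟩ :=
  ckB_sound (d (c (b (d (c (a (b (d z0 z0) (d z0 z0)) (b z2 (d (c (a z2 z2) z2) (a z2 z2)))) (a z0 z2)) (a (b (d (c (a z0 (b (d z0 z0) z0)) z0) (a z0 (c (b (d z0 z0) z0) z0))) (d z0 z0)) (b (d z2 z2) (d (c (a z2 z2) z2) (a (c (b z2 (d z2 z2)) z2) z2))))) (d (c (a z0 (b (d (c (a (b (d z2 (a z2 z2)) (d (c (a z0 z2) (a z0 z2)) (a z0 z2))) z2) (a (b z2 (d z2 (c (a z0 z2) z2))) z2)) (a (c (b (d (a z2 z2) (a z2 z2)) (d (a z0 z2) (a z0 z2))) (b z2 (d (a z0 z2) (a z0 z2)))) z2)) (d (c (a (b (d (c (a z0 z2) z0) (a z0 z2)) (d z0 z0)) z2) (a z0 z2)) (a (c (b (d (a z0 z2) (a z0 z2)) (d z0 z0))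 z0) z2)))) (a z0 (b (d z2 (c (a (b z2 (d z2 (c (a z0 z2) z2))) z2) z2)) (d (c (a z0 z2) (a z0 z2)) (c (a z0 z2) (a z0 z2)))))) (a z0 (b (d (c (a (b (d (c (a z2 z2) z2) (a z2 z2)) (d (c (a z0 z2) (a z0 z2)) (a z0 z2))) z2) (a (b z2 (d z2 (c (a z0 z2) z2))) z2)) (a (c (b (d (a z2 z2) (a z2 z2)) (d (a z0 z2) (a z0 z2))) (b z2 (d z2 (a z0 z2)))) z2)) (d (c (a (b (d (c (a z0 z2) z0) (a z0 z2)) (d z0 z0)) z2) (a z0 z2)) (a (c (b (d (a z0 z2) (a z0 z2)) (d z0 z0)) z0) z2)))))) (b (d (a z0 z2) (a z0 z2)) (d (a z0 (c (b z2 (d (c (a z0 z2) (a z0 z2)) (c (a z0 z2) (a z0 z2)))) (b z2 (d z2 (a z0 z2))))) (a z0 (c (b (d z2 (c (a z2 z2) z2)) (d (c (a z0 z2) (a z0 z2)) (c (a z0 z2) (a z0 z2)))) (b z2 (d (a z0 z2) (a z0 z2)))))))) (b (d (c (a (b (d (c (a z0 (b (d z0 z0) z0)) z0) z0) (d z0 z0)) (b (d z2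 z2) (d (c (a (b z2 (d z2 z2)) z2) z2) (a (b z2 (d z2 z2)) z2)))) (a z0 z2)) (a (b (d z0 z0) (d z0 z0)) (b (d z2 z2) (d (c (a z2 z2) z2) (a z2 z2))))) (d (c (a z0 (b (d (c (a (b (d (c (a z2 z2) z2) z2) (d (c (a z0 z2) z2) (a z0 z2))) z2) (a z2 z2)) (a (b (d z2 z2) (d (c (a z0 z2) z2) (a z0 z2))) z2)) (d (c (a (b (d (c (a z0 z2) z0) (a z0 z2)) (d z0 z0)) z2) (a z0 z2)) (a (b (d (c (a z0 z2) z0) (a z0 z2)) (d z0 z0)) z2)))) (a z0 (b (d z2 (c (a z2 z2) z2)) (d (c (a z0 z2) (a z0 z2)) (c (a z0 z2) (a z0 z2)))))) (a z0 (b (d (c (a (b (d z2 z2) (d (c (a z0 z2) z2) (a z0 z2))) z2) z2) (a (b (d z2 z2) (d (c (a z0 z2) z2) (a z0 z2))) z2)) (d (c (a (b (d z0 z0) (d z0 z0)) z2) (a z0 z2)) (a (b (d z0 z0) (d z0 z0)) z2))))))) _ _ (by decide +kernel)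

theorem okB98 : CKB ⟨6145, 8193, 3584, 4096⟩ ⟨6144, 12288, 7168, 7680⟩ :=
  ckB_sound (c (b (d (c (a z0 (b (d (c (a z0 z2) (a z0 z2)) (a z0 z2)) (d (c (a z0 (b (d z2 z2) (d (c (a z0 z2) z2) (a z0 z2)))) (a z0 z2)) (a z0 (c (b (d z2 z2) (d (a z0 z2) (a z0 z2))) (b z2 (d z2 (a z0 z2)))))))) (a z0 (b (d (c (a z0 z2) (a z0 z2)) (c (a z0 z2) (a z0 z2))) (d (c (a z0 z2) (a z0 z2)) (c (a z0 z2) (a z0 z2)))))) (a z0 (b (d (c (a z0 z2) (a z0 z2)) (a z0 z2)) (d (c (a z0 (b (d z2 z2) (d (c (a z0 z2) z2) (a z0 z2)))) (a z0 z2)) (a z0 (c (b (d z2 z2) (d (a z0 z2) (a z0 z2))) (b z2 (d z2 (a z0 z2))))))))) (d (c (a z0 (b (d (c (a z0 (b (d (c (a z0 z2) (a z0 z2)) (a z0 z2)) (d z0 z0))) z0) (a z0 (c (b (d (a z0 z2) (a z0 z2)) (d (a z0 z2) (a z0 z2))) (b (d (a z0 z2) (a z0 z2)) z0)))) (d z0 (a z0 (c (b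 (d z0 z0) z0) z0))))) z0) (a z0 (b (d (c (a z0 (b (d (c (a z0 z2) (a z0 z2)) (a z0 z2)) (d (c (a z0 z2) z0) (a z0 z2)))) z0) (a z0 (c (b (d (a z0 z2) (a z0 z2)) (d (a z0 z2) (a z0 z2))) (b (d (a z0 z2) (a z0 z2)) z0)))) (d (c (a z0 (b (d z0 z0) z0)) z0) (a z0 (c (b (d z0 z0) z0) z0))))))) (b (d (a z0 (c (b (d (c (a z0 z2) (a z0 z2)) (c (a z0 z2) (a z0 z2))) (d z0 (c (a z0 z2) z0))) (b (d (a z0 z2) (a z0 z2)) z0))) (a z0 (c (b (d (c (a z0 z2) (a z0 z2)) (c (a z0 z2) (a z0 z2))) (d (c (a z0 z2) (a z0 z2)) (c (a z0 z2) (a z0 z2)))) (b (d (a z0 z2) (a z0 z2)) z0)))) z0)) _ _ (by decide +kernel)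

theorem okB99 : CKB ⟨6145, 8193, 3584, 4096⟩ ⟨6144, 12288, 7680, 8192⟩ :=
  ckB_sound (b (d (c (a z0 (b (d (c (a z0 z2) (a z0 z2)) (a z0 z2)) (d (c (a z0 (b (d z2 z2) (d (c (a z0 z2) z2) (a z0 z2)))) (a z0 z2)) (a z0 (b (d z2 z2) (d (c (a z0 z2) z2) (a z0 z2))))))) (a z0 (b (d (c (a z0 z2) (a z0 z2)) (c (a z0 z2) (a z0 z2))) (d (c (a z0 z2) z0) (c (a z0 z2) (a z0 z2)))))) (a z0 (b (d (c (a z0 z2) (a z0 z2)) (a z0 z2)) (d (c (a z0 (b (d z2 z2) (d (c (a z0 z2) z2) (a z0 z2)))) (a z0 z2)) (a z0 (b (d z2 z2) (d (c (a z0 z2) z2) (a z0 z2)))))))) (d (c (a z0 (b (d (c (a z0 (b (d (c (a z0 z2) (a z0 z2)) (a z0 z2)) (d (c (a z0 z2) z0) (a z0 z2)))) z0) (a z0 (b (d (c (a z0 z2) (a z0 z2)) (a z0 z2)) (d (c (a z0 z2) z0) (a z0 z2))))) (d (c (a z0 (b (d z0 z0) z0)) z0) (a z0 (b (d z0 z0) z0)))))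 z0) (a z0 (b (d (c (a z0 (b (d (c (a z0 z2) z2) (a z0 z2)) (d (c (a z0 z2) z0) z0))) z0) (a z0 (b (d (c (a z0 z2) z2) (a z0 z2)) (d z0 z0)))) (d (c (a z0 (b (d z0 z0) z0)) z0) (a z0 (b (d z0 z0) z0))))))) _ _ (by decide +kernel)

theorem okB100 : CKB ⟨0, 8193, 0, 4096⟩ ⟨0, 12288, 8192, 12288⟩ :=
  ckB_sound (a (b (d (b z0 (d (b z0 (d z0 z0)) z0)) z0) (d (a (b (d z0 z0) (d z0 z0)) (b (d (b (d z0 z0) z0) z0) (d z0 z0))) z0)) (b (d (b z0 (d (a (b (d (b z0 (d (a z0 (b (d (a z2 z0) z0) (d z2 z0))) z0)) z0) (d (a z0 (b (d (b (d (a z0 z2) z0) (d (a z0 z2) z0)) z0) (d (b (d z0 z0) (d z0 z0)) z0))) z0)) (b z0 (d (b z0 (d (a (b (d z2 z0) z2) z0) z0)) z0))) z0)) z0) (d (b (d (a (b (d (a z0 (b (d (b (d z0 z0) z0) z0) (d z0 z0))) z0) (d (a z0 (b (d z0 z0) (d z0 z0))) z0)) (b (d (b (d (a (b (d z2 z0)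 (d z2 z0)) z0) z0) (d (a (b (d (a (b z2 (d z2 z0)) z2) z0) (d (a z0 z2) z0)) z2) z0)) z0) (d (b (d (a (b (d (a z0 z2) z0) (d (a z0 z2) z0)) z2) z0) (d (a (b (d (a z0 (b z2 (d z2 z0))) z0) (d (a z0 (b (d z2 z0) z0)) z0)) z2) z0)) z0))) z0) (d (a (b (d z0 z0) (d z0 z0)) (b (d (b (d (a (b (d z0 z0) (d z0 z0)) (b (d z2 z0) (d (a z2 z2) z0))) z0) (d (a z0 (b (d (a (b (d z2 z0) (d (a z0 z2) z0)) z2) z0) (d (a (b (d z0 z0) z0) z2) z0))) z0)) z0) (d (b (d (a z0 (b (d (a z0 z2) z0) (d (a z0 (b (d z2 z0) (d z2 z0))) z0))) z0) (d (a z0 (b (d (a z0 (b (d (a z0 z2) z0) (d z0 z0))) z0) (d (a z0 (b (d z0 z0) z0)) z0))) z0)) z0))) z0)) z0))) _ _ (by decide +kernel)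

theorem okB101 : CKB ⟨8193, 49152, 0, 4096⟩ ⟨0, 12288, 4096, 12288⟩ :=
  ckB_sound (d (c (b z0 (d (c (b (d (c (a (b z0 z2) z0) (a (b z0 z2) z0)) (a (b z0 (d z2 (a z2 z0))) z0)) (d (c (a z2 (b z0 z2)) (a z2 (b z0 z2))) (a z2 (b z0 z2)))) (b (d (a (b z0 z2) z0) (a (b z0 (d (c (a z2 z0) (a z2 z0)) (c (a z2 z0) (a z2 z0)))) z0)) (d (a z2 (b z0 z2)) (a z2 (b z0 z2))))) (b (d (a (b z0 (d (c (a z2 z0) (a z2 z0)) (a z2 z0))) z0) z0) (d (a (b z2 (d z2 (a (b z2 (d z2 (a z2 z2))) z2))) (b z0 (d (c z2 (a z2 (b z0 z2))) (a z2 (b z0 z2))))) z0)))) (b z0 (d (b (d (c (a (b z0 (d z2 (c (a z2 z0) (a z2 z0)))) z0) (a (b z0 (d z3 (a z3 z0))) z0)) (c (a (b z0 (d (c (a z2 z0) (a z2 z0)) (c (a z2 z0) (a z2 z0)))) z0) (a (b z0 (d (a z3 z0) (a z2 z0))) z0))) (d (a z2 (c (b z0 z2) (b z0 (d (a z3 (b z0 z3)) (a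 z3 (b z0 z3)))))) (a z2 (c (b z0 (d (c z2 (a z2 (b z0 z2))) (c (a z2 (b z0 z2)) (a z2 (b z0 z2))))) (b z0 (d (a z3 (b z0 z3)) (a z2 (b z0 z2)))))))) (b (d (c (a (b z0 (d (c (a z2 z0) (a z2 z0)) (c (a z2 z0) (a z2 z0)))) z0) (a (b z0 (d (a z2 z0) (a z2 z0))) z0)) (a (b z0 (d (c (a z2 z0) (a z2 z0)) (a (b z0 z2) z0))) z0)) (d (a (c (b z2 (d z2 (a z2 z2))) z2) (c (b z0 (d (c (a z2 (b z0 z2)) (a z2 (b z0 z2))) (c (a z2 (b z0 z2)) (a z2 (b z0 z2))))) (b z0 (d (a z2 (b z0 z2)) (a z2 (b z0 z2)))))) (a (b (d z2 (a z2 (b z0 z2))) (d (c (a (b (d z2 z2) (d (c (a (b z2 (d z2 z2)) z2) z2) (a (b z2 (d z2 z2)) z2))) z2) z2) (a (b (d z2 z2) (d (c (a (b (d z2 z2) (d (c (a z2 z2) z2) (a z2 z2))) z2) z2) (a (b (d z2 z2) (d (c (a z2 z2) z2) (a z2 z2))) z2))) z2))) (b z0 (d (c (a z2 (b z0 z2)) (a z2 (b z0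 z2))) (a z2 (b z0 z2)))))))))) (b z0 (d (b (d (a (b z0 (d (a (b z0 z2) z0) z0)) z0) z0) (d (a (b (d (a (b z2 (d z2 z0)) (b z0 z2)) z0) (d (a (b (d z2 z0) (d (a (b (d z2 z0) (d (a z2 z2) z0)) z2) z0)) z2) z0)) (b z0 (d (a z2 (b z0 (d z2 z0))) z0))) z0)) z0))) _ _ (by decide +kernel)

theorem okB102 : CKB ⟨0, 4097, 0, 4096⟩ ⟨12288, 24576, 4096, 8192⟩ :=
  ckB_sound (b (d (b z0 z1) (b z0 (d z1 (c z0 z1)))) z1) _ _ (by decide +kernel)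

theorem okB103 : CKB ⟨4097, 8193, 0, 2048⟩ ⟨12288, 24576, 4096, 8192⟩ :=
  ckB_sound (d (b z0 (d (a z1 (b z0 (d z3 (c (b z0 z3) z3)))) (a (b (d z1 (c (b z0 z1) z1)) z1) (b z0 (d (c (b z0 z3) z3) (c (b z0 (d z3 (c (a z3 z0) z3))) z3)))))) (b z0 (d (c (a (b (d (c (b z0 (d (a z1 (c (b (d z3 (c (a z3 z0) z3)) z3) z3)) (a z1 (c (b (d (c (a z3 z0) z3) (c (a z2 z0) z3)) z3) z3)))) z1) (c (b z0 (d (a (c z0 z1) (c (b (d (c (a z2 z0) (a z3 z0)) z2) z2) z3)) (a z0 z2))) (b z0 z1))) (d (c (a z1 (b (d z1 (c (b (d (a z1 z3) (a z1 z3)) (d z1 (a z1 z3))) z1)) z1)) z1) (c z0 z1))) (b z0 (d (c (b z0 (d (a z3 z0) (a z3 z0))) (b z0 z3)) (c (b z0 (d (a (c z2 z3) z0) (a z2 z0))) (b z0 (d (a z3 z0) (a z3 z0))))))) (a z1 (b z0 (d z3 (b z0 z3))))) (c (a (b (d (c (b z0 (d (c (a z0 z2) z0) (c (a z0 z2) z0))) (b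 z0 (d z1 (c (a z1 z3) z1)))) (c (b z0 (d (c (a z0 (b (d (c (a z2 z0) z2) (c (a z2 z0) z2)) z2)) z0) (c (a z0 (b (d (c (a z2 z0) z2) (c (a z2 z0) z2)) z2)) z0))) (b z0 z0))) z0) (b z0 (d (c (b z0 (d (a z2 z0) (a z2 z0))) (b z0 (d (a z3 z0) (a z3 z0)))) (c (b z0 (d (a z2 z0) (a z2 z0))) (b z0 (d (a z3 z0) (a z2 z0))))))) (a z1 (b z0 (d (b z0 z3) (c (b z0 (d z3 (a z3 z0))) z3)))))))) _ _ (by decide +kernel)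

theorem okB104 : CKB ⟨4097, 8193, 2048, 4096⟩ ⟨12288, 24576, 4096, 6144⟩ :=
  ckB_sound (b (d (a z1 z3) (a z1 (b z3 (d z3 (c (b (d z3 (c (a z3 z3) z3)) (d (c (a z1 z3) z3) (c (a z1 z3) z3))) z3))))) (d z1 (a z1 (b (d z1 (c (b (d z1 (c (a z1 z3) z1)) z1) z1)) z1)))) _ _ (by decide +kernel)

end Vale.Agent.Lib.P154Q4
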