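import Vale.Agent.Lib.P154Q4.CkBDefs

namespace Vale.Agent.Lib.P154Q4

set_option maxRecDepth 100000
set_option exponentiation.threshold 1000

open Tr

theorem okB105 : CKB ⟨4097, 8193, 2048, 4096⟩ ⟨12288, 24576, 6144, 8192⟩ :=
  ckB_sound (b (d (c (a (b (d z1 (c z0 z1)) z1) (b (d (c (b z3 (d z3 (a (c (b z3 (d z3 (a z1 z3))) z3) z3))) z3) (c z2 z3)) (d (c (b (d (a (c (b (d z3 (a z1 z3)) z1) z3) z3) (a (c (b (d (a z1 z3) (a z1 z3)) (d z1 (a z1 z3))) z3) z3)) (d (a z1 z3) (a z1 z3))) z3) (c (b (d (a (c (b (d (a z0 z2) (a z0 z2)) z0) (b z3 z1)) z3) (a (c (b (d (a z0 z2) (a z0 z2)) z0) (b (d (a z1 z3) z2) (d z1 z0))) z2)) (d (a (c z0 z1) z3) (a z0 z2))) (b (d z3 (a z3 z3)) (d (a z1 z3) (a z1 z3))))))) (a z1 z3)) (c (a z0 (b (d (c (b z2 (d z2 (a z2 z2))) (b z3 (d z3 (a z3 z3)))) (c (b z2 (d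 (a z2 z2) (a z2 z2))) z2)) (d (c (b (d (a (c (b (d (a z0 z2) (a z0 z2)) z0) (b z2 z0)) z2) (a (c (b (d (a z0 z2) (a z0 z2)) z0) (b z2 z0)) z2)) (d (a z0 z2) (a z0 z2))) (b (d (a z3 z3) (a (c (b (d z3 (a z1 z3)) z1) z3) z3)) (d (a z1 z3) (a z1 z3)))) (c (b (d (a (c (b (d (a z0 z2) (a z0 z2)) z0) (b z2 z0)) z2) (a (c (b (d (a z0 z2) (a z0 z2)) (d (a z0 z2) (a z0 z2))) (b z2 z0)) z2)) (d (a z0 z2) (a z0 z2))) (b (d (a (c z2 z3) z3) (a z2 z2)) (d (a (c z0 z1) z3) (a z0 z2))))))) (a z1 z3))) (d (c (a z1 (b (d (c (b (d (a z1 z3) (a z1 z3)) (d (a z1 z3) (a z1 (c (b z3 (d z3 (a z1 z3))) z3)))) z1) (c (b (d (a z1 z3) (a z0 z2)) (d (a z1 (c z2 z3)) (a z0 z2))) (b (d z1 (a z1 z3)) z1))) (d (c (b (d z1 (a z1 (c (b (d (a z1 z3) (a z1 z3)) z1) z1))) z1) z1) (c z0 z1)))) z1) (c (a z0 (b (d (c (b (d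 (a z0 z2) (a z0 z2)) (d (a z0 z2) (a z0 z2))) (b (d (a z1 z3) (a z1 z3)) (d z1 (a z1 z3)))) (c (b (d (a z0 z2) (a z0 z2)) (d (a z0 (c (b z2 (d (c (a z0 z2) z2) (c (a z0 z2) z2))) z2)) (a z0 (c (b z2 (d (c (a z0 z2) z2) (c (a z0 z2) (a z0 z2)))) z2)))) (b (d (a z1 z3) (a z0 z2)) (d (a z1 (c z2 z3)) (a z0 z2))))) (d (c (b (d z0 (a z0 (c (b (d (c (a z0 z2) (a z0 z2)) (c (a z0 z2) (a z0 z2))) z0) z0))) z0) z1) (c (b (d (a z0 (c (b (d (c (a z0 z2) (a z0 z2)) (c (a z0 z2) (a z0 z2))) z0) z0)) (a z0 (c (b (d (c (a z0 z2) (a z0 z2)) (c (a z0 z2) (a z0 z2))) (d z0 (c (a z0 z2) z0))) (b (d (a z0 z2) (a z0 z2)) z0)))) z0) z0)))) z1))) _ _ (by decide +kernel)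

theorem okB106 : CKB ⟨0, 4097, 0, 4096⟩ ⟨12288, 24576, 8192, 12288⟩ :=
  ckB_sound (b (d (b z0 (d (c (b z0 (d z0 z0)) z1) (b z0 (d z0 z0)))) z0) (d (a (b (d z0 z0) (d z0 z0)) (b (d (c (b (d z0 z0) z0) z1) (b (d z0 z0) (d z0 z0))) (d z0 (b (d z0 z0) (d z0 z0))))) z0)) _ _ (by decide +kernel)

theorem okB107 : CKB ⟨4097, 8193, 0, 2048⟩ ⟨12288, 24576, 8192, 12288⟩ :=
  ckB_sound (d (b z0 (d (c (a (b (d (c (b z0 (d (c (a z0 (b (d (c (a z2 z0) z2) (a z2 z0)) (d z2 z2))) z0) (a z0 (b (d (c (a z2 z0) z2) (a z2 z0)) (d z2 z2))))) (b z0 z0)) (b z0 (d (a z0 (c (b (d z2 z2) (d z2 z2)) z2)) (a z0 (b (d z2 z2) z2))))) (d (c (a z0 (b (d (c (b (d (a z0 z2) (a z0 z2)) (d (a z0 z2) z0)) z0) (b (d (a z0 z2) z0) (d z0 z0))) (d (c (b (d z0 z0) (d z0 z0)) z0) (b (d z0 z0) (d z0 z0))))) z0) (a z0 (b (d (c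 (b (d z0 z0) (d z0 z0)) z0) (b (d z0 z0) z0)) (d (c (b (d z0 z0) z0) z0) z0))))) (b z0 (d (c (b z0 (d (a (c (b (d z2 z2) z2) z2) z0) (a (b (d z2 z2) z2) z0))) (b z0 (d (a z2 z0) (a z2 z0)))) (b z0 (d (a (c (b (d z2 z2) z2) z2) z0) (a (b (d z2 z2) z2) z0)))))) (a (b (d (c (b z0 z1) z1) z0) (d z1 z0)) (b z0 (d (c (b z0 (d (a z3 z0) (a z3 z0))) (b z0 z3)) (c (b z0 (d (a z2 z0) (a z2 z0))) (b z0 (d z3 (a z3 z0)))))))) (a (b (d (b z0 (d (c (a z0 z2) z0) z0)) (b z0 (d z0 z0))) (d (a z0 (b (d z0 z0) (d z0 z0))) (a z0 (b (d z0 z0) (d z0 z0))))) (b z0 (d (b z0 (d (c (a z2 z0) z2) (a z2 z0))) (b z0 (d (a z2 z0) z0))))))) z0) _ _ (by decide +kernel)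

theorem okB108 : CKB ⟨4097, 8193, 2048, 3072⟩ ⟨12288, 24576, 8192, 10240⟩ :=
  ckB_sound (d (c (a (b (d (c (a z0 (b (d (c (b (d z0 z0) z0) z0) z0) (d z0 z0))) z0) (a z0 (b (d z0 z0) (d z0 z0)))) (d (c (a z0 (b (d z0 z0) (d z0 z0))) z0) (a z0 (b (d z0 z0) (d z0 z0))))) (b (d (c (b (d (a (c (b (d z2 z2) (d z2 z2)) z2) z0) (a (b z2 (d z2 z2)) z0)) (d (a (c (b (d (a (c (b z2 (d z2 z2)) z2) z2) (a z2 z2)) (d (a z0 z2) (a z0 z2))) z2) z2) (a (b (d z2 z2) (d (a z0 z2) (a z0 z2))) z2))) z2) (b (d (a (c (b z2 (d z2 z2)) z2) z0) (a z2 z0)) (d (a (c (b (d z2 z2) (d (a z0 z2) z2)) z2) z2) (a (b (d z2 z2) (d z2 z2)) z2)))) (d (c (b (d (a (c (b (d (a z0 z2) (a z0 z2)) (d (a z0 z2) (a z0 z2))) (b (d z2 (a z0 z2)) z0)) z2) (a (b (d (a z0 z2) (a z0 z2)) (d (a z0 z2) (a z0 z2))) z2)) (d (a (c (b (d (a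 z0 (c (b z2 (d z2 z2)) z2)) (a z0 z2)) (d (a z0 (c (b (d z2 z2) z0) z0)) (a z0 (b (d z2 z2) z0)))) z0) z2) (a (b (d (a z0 z2) (a z0 z2)) (d z0 z0)) z2))) (b (d (a z2 z2) (a (c (b z2 z0) z2) z2)) (d (a z0 z2) (a z0 z2)))) (b (d (a (c (b (d (a z0 z2) (a z0 z2)) (d (a z0 z2) z0)) z2) z2) (a (b (d (a z0 z2) z2) (d z0 z0)) z2)) (d (a (c (b (d z0 z0) (d z0 z0)) z0) z2) (a (b (d z0 z0) (d z0 z0)) z2)))))) (a z1 (b (d (c (b z3 (d z3 (a z3 z3))) z3) z2) (d (c (b (d z3 (a (c z2 z3) z3)) (d (a z1 z3) (a z1 z3))) z3) (c (b (d z2 (a z2 z2)) (d (a z0 z2) (a z0 z2))) z3))))) (a (b (d (a z0 (b (d z0 z0) (d z0 z0))) (a z0 (b (d z0 z0) (d z0 z0)))) (d (a z0 (b (d z0 z0) (d z0 z0))) (a z0 (b (d z0 z0) (d z0 z0))))) (b (d (b (d (c (a z2 z0) z2) (a z2 z0)) (d (c (a (b (d z2 z2) (d z2 z2)) z2) z2) (a z2 z2)))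 (b (d z2 z0) (d (a z2 z2) z0))) (d (b (d (c (a (b (d z2 z2) (d z0 z0)) z2) z2) (a (c (b (d z2 z2) z0) z2) z2)) (d (c (a (b (d z0 z0) z0) z2) z2) (a z0 z2))) (b (d (a z2 z2) z0) (d (a z0 z2) z0)))))) _ _ (by decide +kernel)

theorem okB109 : CKB ⟨4097, 8193, 3072, 4096⟩ ⟨12288, 24576, 8192, 10240⟩ :=
  ckB_sound (d (c (a (b (d z0 z0) (d z0 z0)) (b (d (c (b (d (a (c (b (d z0 z0) (d z0 z0)) z0) (c (b (d z2 z2) (d (c (a z2 z2) z2) (a z2 z2))) z2)) (a (b (d z0 z0) (d z0 z0)) (b (d z2 z2) (d z2 z2)))) (d (a z0 (c (b (d (c (a (b (d z2 z2) (d (c (a z0 z2) z2) z2)) z2) z2) (a (b (d z2 z2) (d z2 z2)) z2)) (d (c (a (b (d z0 z0) z0) z2) (a z0 z2)) (a (b (d z0 z0) z0) z2))) (b z2 (d z2 (a z0 z2))))) (a z0 (b (d (a (c (b z2 (d z2 z2)) z2) z2) (a (b z2 (d z2 z2)) z2)) (d (a z0 z2) (a z0 z2)))))) (b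 (d (a z0 z2) (a z0 z2)) (d (a z0 z2) (a z0 z2)))) (b (d (a (c (b (d z0 z0) z0) z0) (c (b (d z2 z2) (d z2 z2)) z2)) (a z0 (b (d z2 z2) (d z2 z2)))) (d (a z0 (c (b (d (a z2 z2) z2) (d (a z0 z2) (a z0 z2))) z2)) (a z0 (b (d z2 z2) (d (a z0 z2) z2)))))) (d (c (b (d (a z0 (c (b (d (c (a z0 z2) (a z0 z2)) (a z0 z2)) (d (c (a z0 (b (d z2 z2) (d z2 z2))) z0) (a z0 (b z2 (d z2 z2))))) (b (d (a z0 z2) (a z0 z2)) z0))) (a z0 (b (d (a z0 z2) (a z0 z2)) (d (a z0 (c (b z2 (d z2 z2)) z2)) (a z0 (b z2 (d z2 z2))))))) (d (a z0 (c (b (d (c (a z0 (b (d (c (a z0 z2) z2) (a z0 z2)) (d z0 z0))) z0) (a z0 (b (d (c (a z0 z2) z2) (a z0 z2)) (d z0 z0)))) (d (c (a z0 (b (d z0 z0) z0)) z0) z0)) z0)) (a z0 (b (d (a z0 (c (b (d z2 z2) (d z0 z0)) z0)) (a z0 (b (d z2 z2) z0))) (d z0 z0))))) (b (d z0 (a z0 (c (b (d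 (a z0 z2) (a z0 z2)) z0) z0))) z0)) (b (d (a z0 (c (b (d (a z0 z2) (a z0 z2)) (d (a z0 z2) (a z0 z2))) z0)) (a z0 (b (d (a z0 z2) (a z0 z2)) (d z0 z0)))) (d (a z0 (c (b (d z0 z0) (d z0 z0)) z0)) (a z0 (b (d z0 z0) (d z0 z0)))))))) (a z1 (b (d (c (b (d (a z1 z3) (a z1 z3)) (d z1 (a z1 z3))) z1) (c (b (d (a z0 z2) (a z0 z2)) (d z0 (a z0 z2))) z1)) (d z1 z0)))) (a (b (d z0 z0) (d z0 z0)) (b (d (b (d (c (a z0 (b z2 (d z2 z2))) z0) (a z0 z2)) (d (c (a z0 (b (d z2 z2) (d z2 z2))) z0) (a z0 (c (b (d z2 z2) (d z2 z2)) z2)))) (b (d (a z0 z2) z0) (d (a z0 z2) z0))) (d (b (d (c (a z0 (b (d (c (a z0 z2) z2) z2) (d z0 z0))) z0) (a z0 (c (b (d z2 z2) z0) z0))) (d (c (a z0 (b (d z0 z0) z0)) z0) z0)) (b (d z0 z0) (d z0 z0)))))) _ _ (by decide +kernel)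

theorem okB110 : CKB ⟨4097, 8193, 2048, 4096⟩ ⟨12288, 24576, 10240, 12288⟩ :=
  ckB_sound z0 _ _ (by decide +kernel)

theorem okB111 : CKB ⟨8193, 49152, 0, 4096⟩ ⟨12288, 24576, 4096, 8192⟩ :=
  ckB_sound (b z0 (d (b (d (a (b z0 (d z3 (c (a z3 z0) z3))) z0) (a (b z0 (d (c (a z3 z0) (a z3 z0)) (c (a z3 z0) (a z3 z0)))) z0)) (d (a z3 (b z0 (d (c (a z3 (b z0 z3)) (a z3 (b z0 z3))) (c (a z3 (b z0 z3)) (a z3 (b z0 z3)))))) (a z3 (b z0 (d (c (a z3 (b z0 z3)) (a z3 (b z0 z3))) (c (a z3 (b z0 (d (c z3 (b z0 z3)) (c z3 (b z0 z3))))) (a z3 (b z0 (d (c (b z0 z3) (b z0 z3)) (c (b z0 z3) (b z0 z3))))))))))) (b (d (c (a (b z0 (d (c (a z3 z0) (a z3 z0)) (c (a z2 z0) (a z3 z0)))) z0) (a (b z0 (d (a z3 z0) (a z3 z0))) z0)) (c (a (b z0 (d (c (a z2 z0) (a z3 z0)) (c (a z2 z0) (a z2 z0)))) z0) (a (b z0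 (d (a z3 z0) (a z3 z0))) z0))) (d (a (c (b z3 (d z3 (a (c z2 z3) z3))) z3) (c (b z0 (d (c (a z3 (b z0 (d (c (b z0 z3) (b z0 z3)) (c (b z0 z3) (b z0 z3))))) (a z3 (b z0 (d (c (b z0 z3) (b z0 z3)) (c (b z0 z3) (b z0 z3)))))) (c (a z2 (b z0 (d (c (b z0 z2) (b z0 z3)) (c (b z0 z2) (b z0 z3))))) (a z3 (b z0 (d (c (b z0 z3) (b z0 z3)) (c (b z0 z3) (b z0 z3)))))))) (b z0 (d (a z3 (b z0 (d (c (b z0 z3) (b z0 z3)) (c (b z0 z3) (b z0 z3))))) (a z3 (b z0 (d (c (b z0 z3) (b z0 z3)) (c (b z0 z3) (b z0 z3))))))))) (c (a (b z2 (d z2 (c (a z2 z2) z2))) (b z0 (d (c (a z2 (b z0 (d (c (b z0 z2) (b z0 z2)) (c (b z0 z2) (b z0 z2))))) (a z3 (b z0 (d (c (b z0 z3) (b z0 z3)) (c (b z0 z3) (b z0 z3)))))) (c (a z2 (b z0 (d (c (b z0 z2) (b z0 z2)) (c z2 (b z0 z2))))) (a z2 (b z0 (d (c (b z0 z2) (b z0 z3)) (c (b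 z0 z2) (b z0 z3))))))))) (a z3 (b z0 (d (a z3 (b z0 (d (c (b z0 z3) (b z0 z3)) (c (b z0 z3) (b z0 z3))))) (c (a z3 (b z0 (d (c (b z0 z3) (b z0 z3)) (c (b z0 z3) (b z0 z3))))) (a z3 (b z0 (d (b z0 z3) (b z0 z3))))))))))))) _ _ (by decide +kernel)

theorem okB112 : CKB ⟨8193, 49152, 0, 4096⟩ ⟨12288, 24576, 8192, 12288⟩ :=
  ckB_sound (b z0 (d (b (d (c (a (b z0 (d (c (a (b z0 z2) z0) (a z2 z0)) (a (b z0 z2) z0))) z0) (a (b z0 (d (a z3 z0) (a z2 z0))) z0)) (a (b z0 (d (a (b z0 (d z2 z2)) z0) (a (b z0 (d z2 z0)) z0))) z0)) (d (c (a (b (d (c (a (b z2 (d z2 z2)) (b z0 z2)) (a z2 (b z0 z2))) (a (b z2 (d z2 z2)) (b z0 z2))) (d (c (a (b (d z2 (a z2 z2)) (d (c (a (b (d z2 z2) (d (c (a z2 z2) z2) (a z2 z2))) z2) z2) (a (b (d z2 z2) (d z2 z2)) z2))) z2) (a z2 z2)) (a (b (d (a z2 z2) (a z2 z2)) (d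 (a (c (b (d z2 z2) (d z2 z2)) z2) z2) (a (b (d z2 z2) (d z2 z2)) z2))) z2))) (b z0 (d (c (a z2 (b z0 (d z2 z2))) (a z2 (b z0 (d (c (b z0 z2) (b z0 z2)) (c z2 (b z0 z2)))))) (a z2 (b z0 (d z2 z2)))))) (a (b (d z3 z2) (d (a z3 z3) (a z2 z2))) (b z0 (d (c (a z3 (b z0 (d (c (b z0 z3) (b z0 z3)) (c (b z0 z2) (b z0 z3))))) (a z3 (b z0 (d (b z0 z3) z3)))) (c (a z2 (b z0 z2)) (a z3 (b z0 z3))))))) (a (b (d (a (b (d z2 z2) (d z2 z2)) (b z0 z2)) (a (b (d z2 z0) (d z2 z0)) (b z0 z2))) (d (a (b (d z2 z2) (d (c (a (b z2 (d z2 z2)) z2) z2) (a z2 z2))) z2) (a (b (d z2 z0) (d (a z2 z2) z0)) z2))) (b z0 (d (a z2 (b z0 z2)) (a z2 (b z0 z2))))))) z0)) _ _ (by decide +kernel)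

theorem okB113 : CKB ⟨0, 8193, 0, 4096⟩ ⟨24576, 49152, 4096, 12288⟩ :=
  ckB_sound (d (a z1 (b (d z0 (b z0 z1)) z1)) (a (b (d z1 (b z0 (d (b z0 (d z1 z1)) (b z0 (d z0 z0))))) (d z1 (a (b (d z0 z0) (d z0 z0)) (b (d (b (d z1 z1) (d z1 z1)) (b (d z0 z0) (d z0 z0))) (d (b (d z1 z1) (d z1 z1)) (b (d z0 z0) (d z0 z0))))))) (b (d (b z0 (d (a z1 (b z0 z3)) (a (b (d z1 (c (b z0 z0) z1)) z1) (b z0 (d z3 (c (b z0 (d z3 (a z2 z0))) z3)))))) (b z0 (d (a (b (d (c (b z0 (d z0 z0)) z1) (b z0 (d z1 z1))) (d (c (a z0 (b (d z0 z0) (d z0 z0))) z1) (a z1 (b (d z1 z1) (d z1 z1))))) (b z0 (d (c (b z0 (d z2 z2)) z3) (b z0 (d z3 z3))))) (a (b (d (b z0 (d z1 z1)) (b z0 (d z1 z0))) (d (a z0 (b (d z1 z1) (d z1 z1))) (a (b (d z1 z0) (d z1 z0)) (b (d z1 z0) (d z1 z0))))) (b z0 (d (b z0 (d z3 z3)) (b z0 (d z3 z2))))))))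 (d (b (d z1 (a z1 (b (d z3 (c (b (d z3 z2) (d z3 z2)) z3)) (d z3 (c (b (d z3 (a z2 z2)) (d z3 (a z0 z2))) z3))))) (d z1 (a z1 (b (d z1 (c (b (d z1 z0) (d z1 z0)) z1)) (d z1 (c (b (d z1 z0) z0) z1)))))) (b (d (a (b (d (c (a z0 (b (d z0 z0) (d z0 z0))) z1) (a z1 (b (d z1 z1) (d z1 z1)))) (d (c (a z0 (b (d z0 z0) z0)) z1) (a z1 (b (d z1 z1) z1)))) (b (d (c (b (d z2 z2) (d z2 z2)) z3) (b (d z3 z3) (d z3 z3))) (d (c (b (d z2 z2) (d z2 z2)) z3) (b (d z3 z3) (d z3 z3))))) (a (b (d (a z0 (b (d z1 z1) (d z1 z1))) (a z0 (b (d z1 z0) (d z1 z0)))) (d (a z0 (b (d z1 z1) z0)) (a z0 (b (d z1 z0) (d z1 z0))))) (b (d (b (d z3 z3) (d z3 z3)) (b (d z3 z2) (d z3 z2))) (d (b (d z3 z3) (d z3 z3)) (b (d z3 z2) (d z3 z2)))))) (d (a (b (d z1 (a z1 z1)) (d z1 z1)) (b (d (c (b (d z0 z0) (d z0 z0)) z1) (b (d z1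 z1) (d z1 z1))) (d (c (b (d z0 z0) (d z0 z0)) z1) (b (d z1 z1) (d z1 z1))))) (a (b (d (a z0 z0) (a z0 (b (d z1 z0) z0))) (d (a z0 z0) (a z0 z0))) (b (d (b (d z1 z1) (d z1 z1)) (b (d z1 z0) (d z1 z0))) (d (b (d z1 z1) (d z1 z1)) (b (d z1 z0) (d z1 z0))))))))))) _ _ (by decide +kernel)

theorem okB114 : CKB ⟨8193, 49152, 0, 4096⟩ ⟨24576, 49152, 4096, 12288⟩ :=
  ckB_sound (d (b z0 (d z0 (b (d z0 (a (b z0 z3) z0)) (d z0 (a z3 (b z0 (d z0 (a z3 (b z0 z3))))))))) (b z0 (d (b (d (a (b z0 (d z3 (a z3 z0))) z0) (a (b z0 (d (a z3 z0) (c (a (b z0 z2) z0) z3))) z0)) (d (a z3 (b z0 (d (a z3 (b z0 z3)) (a z3 (b z0 z3))))) (a (b (d z3 (a (c (b z2 (d z3 z2)) z3) z3)) (d z3 (a (c (b (d z3 z2) (d z3 z2)) z3) z3))) (b z0 (d (a z3 (b z0 z3)) (c (a z2 (b z0 z2)) z3)))))) (b (d (a (b z0 (d (a (c (b z0 (d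 z2 z2)) z3) z0) (a (b z0 (d z3 z3)) z0))) z0) (a (b z0 (d (a (b z0 (d z3 z3)) z0) (a (b z0 (d z3 z2)) z0))) z0)) (d (a (b (d (a (c (b (d z2 z2) (d z2 z2)) z3) (c (b z0 z2) z3)) (a (b (d z3 z3) (d z3 z3)) (b z0 (d z3 z3)))) (d (a (c (b (d z2 z2) (d z2 z2)) z3) z3) (a (b (d z3 z3) (d z3 z3)) z3))) (b z0 (d z3 z3))) (a (b (d (a (b (d z3 z3) (d z3 z3)) (b z0 (d z3 z3))) (a (b (d z3 z2) (d z3 z2)) (b z0 (d z3 z2)))) (d (a (b (d z3 z3) (d z3 z3)) (b (d z3 z3) (d z3 z3))) (a (b (d z3 z2) (d z3 z2)) (b (d z3 z2) (d z3 z2))))) (b z0 (d (a z2 z2) (a z2 z2))))))))) _ _ (by decide +kernel)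

theorem okB115 : CKB ⟨0, 12288, 4096, 12288⟩ ⟨0, 49152, 0, 4096⟩ :=
  ckB_sound (c (b (a (c (b z0 (d (b (d z0 z0) z0) (c (b z0 z0) (b z0 z0)))) (b z0 (d (b (d z0 z0) z0) (b z0 z0)))) (c (b (d (b (d z0 (a z0 z2)) z0) (c (b (d (a z0 z2) (a z0 z2)) (d z0 (a z0 (c (b (d z2 (c (b z2 (d (a z0 z2) (a z0 z2))) (b z2 (d (a z0 z2) (a z0 z2))))) z0) (b (d (b z2 (d z2 (a z0 z2))) (b z2 (d (a z0 z2) (a z0 z2)))) z0))))) (b (d (a z0 z2) (a z0 z2)) (d (a z0 (b (d z2 (c z2 (b z2 (d (a z0 z2) (a z0 z2))))) z0)) (a z0 (b (d (c (b z2 (d z2 (a z0 z2))) (b z2 (d (a z0 z2) (a z0 z2)))) (c (b z2 (d (a z0 z2) (a z0 z2))) (b z2 (d (a z0 z2) (a z0 z2))))) z0)))))) (d (b z0 (d z0 (b z0 z0))) (c (b z0 z0) (b z0 z0)))) (b (d (b (d z0 (a z0 z2)) (d z0 (a z0 (c z0 (b (d z0 (b z3 (d z0 (a z1 z3)))) z1))))) (b (d (a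 z0 z2) (a z0 z2)) (d (a z0 (c (b (d (c (b z2 (d (a z0 z2) (a z0 z2))) (b z2 (d (a z0 z2) (a z0 z2)))) (c (b z2 (d (a z0 z2) (a z0 z2))) (b z2 (d (a z0 z2) (a z0 z2))))) z0) (b (d (b z3 (d (a z1 z3) (a z1 z3))) (b (d (a z1 z3) (a z1 z3)) (d (a z1 z3) (a z1 z3)))) z1))) (a z0 (c (b (d (c (b z2 (d (a z0 z2) (a z0 z2))) (b z2 (d (a z0 z2) (a z0 z2)))) (c (b z2 (d (a z0 z2) (a z0 z2))) (b z2 (d (a z0 z2) (a z0 z2))))) z0) (b (d (b z2 (d (a z0 z2) (a z0 z2))) (b z2 (d (a z0 z2) (a z0 z2)))) z0)))))) (d (b (d z0 z0) (d z0 (c (b z0 z0) (b z1 z1)))) (b z0 (d (c (b z0 z0) (b z1 z1)) (c z0 (b z0 z0)))))))) (c (b (d (b (d z0 (b (d z0 z0) z0)) z0) (c (b (d (b z0 z0) (c (b z0 z0) (b z0 z0))) z0) (b (d (b z0 z0) (b z0 z0)) z0))) z0) (b (d (b (d z0 (c (b (d (b z0 z0) (c z0 (b z0 z0))) z0) (b (d z0 (b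 z1 z0)) z0))) z0) (b (d (c (b z0 z0) (b (d (b z1 z0) (b z1 z0)) z0)) (c (b z0 z0) (b z0 z0))) z0)) z0))) (b (a (b (d z0 z1) (d z0 (b z1 z0))) (b (d z0 (b (d (a z1 z3) (c (a z1 z3) (a z1 z3))) (d (a z1 (c (b z3 z1) z0)) (c (a z1 (b (d z3 (c (b z3 (d (a z1 z3) (a z1 z3))) z3)) z1)) z1)))) (d z0 (b z1 (d (c z1 z0) (c (b z1 z1) z1)))))) (b (d z0 (b (d (c (b z1 z0) z0) (c (b z1 z0) (b z1 z0))) z0)) z0))) _ _ (by decide +kernel)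

theorem okB116 : CKB ⟨12288, 24576, 4096, 8192⟩ ⟨0, 8193, 0, 4096⟩ :=
  ckB_sound (c (b z2 (d (b (d z0 (a (b z2 (d z0 z2)) z2)) (d z0 (a (b (d z0 (a z0 z2)) z0) z2))) (c (b z2 (d (a (b (d (a z0 z2) (a z0 z2)) z0) z2) (a (c (b (d (a z0 z2) (a z0 z2)) (d z0 (a z0 (c (b z2 z0) (b z2 z0))))) (b (d (a z0 z2) (a z0 z2)) (d z0 (a z0 (b z2 z0))))) (c (b z2 z2) z2)))) (b z2 (d (a (b (d (a z0 z2) (a z0 z2)) z0) z2) (a (b (d (a z0 z2) (a z0 z2)) (d z0 (a z0 (c (b z2 z0) z0)))) z2)))))) (b z2 (d (b (d z0 (a (c (b z2 (d (a z0 z2) (a z0 z2))) (b z3 (d z0 (a z1 z3)))) z2)) (d z0 (a (c (b (d (a z0 z2) (a z0 z2)) z0) (b (d z0 (a z1 z3)) z1)) z2))) (b (d (a (c (b z2 (d (a z0 z2) (a z0 z2))) (b z3 (d (a z1 z3) (a z1 z3)))) z2) (a (c (b z2 (d (a z0 z2) (a z0 z2))) (b z2 (d (a z0 z2) (a z0 z2)))) z2)) (d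 (a (c (b (d (a z0 z2) (a z0 z2)) z0) (b (d (a z1 z3) (a z1 z3)) (d z1 (a z1 (b (d z3 (c z2 z3)) z1))))) z2) (a (c (b (d (a z0 z2) (a z0 z2)) z0) (b (d (a z0 z2) (a z0 z2)) z0)) z2)))))) _ _ (by decide +kernel)

theorem okB117 : CKB ⟨12288, 24576, 8192, 12288⟩ ⟨0, 4097, 0, 4096⟩ :=
  ckB_sound (b (d (b (d z0 (a (b (d z0 z0) (d z0 (b z0 z0))) (b z2 (d z0 (a z0 z2))))) (d z0 (b (d z0 (b (d (a z0 z0) z0) (d (a (b z0 z0) z0) (c (a (b z0 z0) z0) (a (b z0 z0) z0))))) (d z0 (b (d (b z0 z0) (c (b z0 z0) (b z0 z0))) z0))))) (c (b (d (a (b z0 (d (b z0 z0) z0)) (b z2 (d (a z0 z2) (a z0 z2)))) (a (c (b z0 z0) (b z0 z0)) z2)) (d (b (d (b z0 z0) (c (b z0 z0) (b z0 z0))) (d (b (d z0 z0) z0) (c (b z0 z0) (b z0 z0)))) (c (b (d (b z0 z0) (c z0 (b z0 z0))) (d (b z0 z0) (c (b z0 z0) (b z0 z0)))) (b (d (b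 z0 z0) (b z0 z0)) (d (b z0 z0) (b z0 z0)))))) (b (d (a (b z0 (d (c (b z0 z0) (b z0 z0)) (c z0 (b z0 z0)))) (b z2 (d (c (a z0 z2) (a z0 z2)) (c (a z0 z2) (a z0 z2))))) (a (b z0 z0) z2)) (d (b (d (c (b z0 z0) (b z0 z0)) (c (b z0 z0) (b z0 z0))) (d (c (b (d (b z0 z0) z0) z0) (b (d (c (b z0 z0) (b z0 z0)) z0) z0)) (c (b z0 z0) (b z0 z0)))) (b (d (c (b z0 z0) (b z0 z0)) (c (b z0 z0) (b z0 z0))) (d (c (b z0 z0) (b z0 z0)) (c (b z0 z0) (b z0 z0)))))))) z0) _ _ (by decide +kernel)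

theorem okB118 : CKB ⟨12288, 24576, 8192, 12288⟩ ⟨4097, 8193, 0, 4096⟩ :=
  ckB_sound (b (d (b (d z0 (a (c (b (d (a (b z0 z0) z0) (a (c z0 (b z0 z0)) z0)) (d (b z0 (d z0 (c z0 (b z1 z1)))) (c (b z0 z0) (b z0 z0)))) (b (d z0 (a (b z1 z1) z1)) (d z0 (b z1 z1)))) (c (b (d (a (b z2 (d z0 z2)) z2) z2) (d (a z0 z2) (a z0 z2))) (b (d z0 z3) (d z0 (a z1 z3)))))) (d z0 (c (b (d (b (d z0 (a (c (b z0 z0) (b z1 z1)) z0)) (d z0 (c (a (b z0 z0) z0) (a (b z1 z1) z1)))) (c (b (d (a (c z0 (b z0 z0)) z0) z0) (d (a (c (b z0 z0) (b z0 z0)) z0) (a (c (b z0 z0) (b z0 z0)) z0))) (b (d (a (b z0 z0) z0) (a (b z0 z0) z0)) (d (a (b z0 z0) z0) (a (b z0 z0) z0))))) (d (b (d z0 (c (b (d (b z0 z0) z0) (d (b z0 z0) z0)) (b (d (c (b z1 z1) z0) z1) (d (c (b z1 z0) z0) (c (b z1 z0) z0))))) z0) (c (b (d (c (b z0 z0) (b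 z0 z0)) (c (b z0 z0) (b z0 z0))) z0) (b (d (b z0 z0) (b z0 z0)) z0)))) (b (d z0 (b (d z0 z1) (d z0 (c (a (b z1 z1) z1) z0)))) (d z0 (b (d z0 (c (b z1 z1) z0)) z0)))))) (b (d (a (c (b z0 (d (c (b z0 z0) (b z0 z0)) (c (b z0 z0) (b z0 z0)))) (b (d (a (b z1 z1) z1) (a (b z1 z1) z1)) (d (b z1 z1) (b z1 z1)))) (c (b z2 (d (a z0 z2) (a z0 z2))) (b z3 (d (a z1 z3) (a z1 z3))))) (a (c (b z0 (d (c (b z0 z0) (b z0 z0)) z0)) (b z0 (d (b z0 z0) (b z0 z0)))) (c (b z2 (d (a z0 z2) (a z0 z2))) (b z2 (d (a z0 z2) (a z0 z2)))))) (d (c (b (d (c (b z0 (d (a (c z0 (b z0 z0)) z0) z0)) (b z0 (d (a (b z0 z0) z0) (a z0 z0)))) (c (b z0 z0) (b z0 z0))) (d (c (b (d (c (b z0 z0) (b z0 z0)) (c (b z0 z0) (b z0 z0))) z0) (b (d (b z0 z0) (b z0 z0)) z0)) (c (b z0 z0) (b (d (b z0 z0) z0) z0)))) (b (d (b z1 (d (c (a (b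 z1 z1) z1) z0) (c (a (b z1 z1) z1) z1))) (b (d (a (c (b z1 z1) z1) z1) (a (c z0 z1) z1)) (d (c (a (b z1 z1) z1) z1) (c z0 z1)))) (d (b (d (c (b z1 z1) z0) (c (b z1 z1) z1)) z0) (b (d (c (b z1 z1) z1) (c z0 z1)) z0)))) (c (b (d (c (b z0 z0) (b z0 z0)) (c (b z0 z0) (b z0 z0))) (d (c (b z0 z0) (b z0 z0)) (c (b z0 z0) (b z0 z0)))) (b (d (b z0 z0) (b z0 z0)) (d (b z0 z0) (b z0 z0))))))) z0) _ _ (by decide +kernel)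

theorem okB119 : CKB ⟨12288, 24576, 4096, 12288⟩ ⟨8193, 49152, 0, 4096⟩ :=
  ckB_sound (b (b (d z0 (b z3 (d z3 z3))) (d z0 (b (d (a (c (b z3 (d z0 z3)) z0) (c z3 z0)) (c (a (b z3 (d z3 (c (a z1 z3) z3))) z3) (a z3 (b z3 z3)))) (d (a (c (b (d z0 (a z1 z3)) z1) z0) (c z3 z0)) (a (c (b (d (a z1 z3) (a z1 z3)) z1) (b (d z0 (a z1 z3)) (d z0 z1))) (c z3 (b z3 z3))))))) (b (d z0 (b (d (a (c (b z1 (d z0 z1)) z0) (c (b z3 (d z0 (c (a z1 z3) z0))) z0)) (a (c (b z1 z1) (b z1 (d z0 z1))) (c z3 (b z3 (d z0 (a z1 z3)))))) (d (c (b (d z0 (c (b z1 z1) z0)) (d z0 (c (b z1 z0) z0))) z0) (c (b (d (c (b z1 z1) (b z1 z1)) (c (b z1 z1) z1)) (d (c (b z1 z0) (b z1 z0)) (c (b z1 z0) (b z1 z0)))) (b (d z0 (c z1 (b z1 z1))) (d z0 (c (b z1 z0) (b z1 z0)))))))) z0)) _ _ (by decide +kernel)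

end Vale.Agent.Lib.P154Q4
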