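import Vale.Agent.Lib.P154Q4.CkBDefs

namespace Vale.Agent.Lib.P154Q4

set_option maxRecDepth 100000
set_option exponentiation.threshold 1000

open Tr

theorem okB120 : CKB ⟨24576, 49152, 4096, 8192⟩ ⟨0, 8193, 0, 4096⟩ :=
  ckB_sound (c (b z0 (d z2 (c (b z0 (d z2 (c (b z0 z2) z2))) (b z0 z2)))) (b z0 (d z3 (b z0 z2)))) _ _ (by decide +kernel)

theorem okB121 : CKB ⟨24576, 49152, 8192, 10240⟩ ⟨0, 4097, 0, 4096⟩ :=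
  ckB_sound (d (b z2 (d z0 (b (d z0 z2) (d z0 (a (b z2 (d (b z0 (d z0 z0)) (c (b z0 z0) (b z0 z0)))) z2))))) (c (b (d (b z2 z2) (c (b (d z2 (c (b z2 z2) z2)) (d (b z2 z2) (c (b z2 z2) (b z2 z2)))) (b z2 (d z2 (b z2 z2))))) (d (b (d z2 (c (b z2 z2) z2)) (d (a (b z2 (d z0 (b z0 z0))) (b z2 z2)) (a (c (b z2 z0) (b z2 z0)) (c (b z2 z2) (b z2 z2))))) (c (b (d (b z2 z2) (c (b z2 z2) (b z2 z2))) (d (a (b z2 z0) (b z2 z2)) (a z0 (c (b z2 z2) (b z2 z2))))) (b (d (b z2 z2) (b z2 z2)) (d (a (b z2 z0) (b z2 z2)) (a z0 (b z2 z2))))))) (b (d (b z2 z2) (b z2 z2)) (d (b z2 (d (c (a (b z2 (d (b z0 z0) (c (b z0 z0) (b z0 z0)))) z2) (a (b z2 (d (c (b z0 z0) (b z0 z0)) (c (b z0 z0) (b z0 z0)))) z2)) (c (a (b z2 z0) z2) (a (b z2 z0) z2)))) (b (d z2 (c (b z2 z2) z2)) (d (c (a (b z2 z0) z2) (a (b z2 z0) z2)) z2))))))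 _ _ (by decide +kernel)

theorem okB122 : CKB ⟨24576, 49152, 10240, 12288⟩ ⟨0, 4097, 0, 2048⟩ :=
  ckB_sound (b (d z0 (b (d z0 (a (b (d (a (b (d z0 z0) (d z0 z0)) z2) (c (a (b z0 z0) z2) (a (b z0 z0) z2))) (d (b (d z0 z0) (d z0 z0)) (c (b z0 z0) (b z0 z0)))) z2)) (d z0 (b (d (a (b (d z0 z0) (d z0 z0)) z2) (c (a (b z0 z0) z2) (a (b z0 z0) z2))) (d (b z2 z2) (c (b z2 z2) (b z2 z2))))))) (d z0 (b (d z0 (b (d (b z2 z2) (c (b z2 z2) (b z2 z2))) (d (b z2 z2) (c (b z2 z2) (b z2 z2))))) (d z0 (b z2 z0))))) _ _ (by decide +kernel)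

theorem okB123 : CKB ⟨24576, 49152, 10240, 12288⟩ ⟨0, 4097, 2048, 4096⟩ :=
  ckB_sound (c (b (d (b (d (a (b (d z0 (a (b z0 z0) z2)) (d z0 (b z0 z0))) (b z2 z2)) (c (a (b z0 z0) (b z2 z2)) (a (b z0 z0) (b z2 z2)))) (d (b (d z0 (a (b z0 z0) z2)) (d z0 (b z2 z2))) (c (b z2 z2) (b z2 z2)))) (c (b (d (a (b z0 z0) (b z2 z2)) (a (c (b z0 z0) (b z0 z0)) (c (b z2 z2) (b z2 z2)))) (d (b z2 z2) (c (b z2 z2) (b z2 z2)))) (b (d (a (b z0 z0) (b z2 z2)) (a (b z0 z0) z2)) (d (b z2 z2) (b z2 z2))))) (d (b (d (b (d z0 z2) z2) (c (b z2 z2) (b z2 z2))) (d (b z2 z0) (c (b z2 z0) (b z2 z0)))) (c (b (d (b z2 z2) (c (b z2 z2) (b z2 z2))) (d z0 (c (b z2 z0) (b z2 z0)))) (b (d (b z2 z2) (b z2 z2)) (d (b z2 z0) (b z2 z0)))))) (b (d (b (d (c (a (b (d (a (b z0 z0) z2) (c (a (b z0 z0) z2) (a (b z0 z0) z2))) (d (b z0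 z0) (c (b z0 z0) (b z0 z0)))) z2) (a (b (d (c (a (b z0 z0) z2) (a (b z0 z0) z2)) (c (a (b z0 z0) z2) (a (b z0 z0) z2))) (d (c (b z0 z0) (b z0 z0)) (c (b z0 z0) (b z0 z0)))) z2)) (c (a (b z0 (d (c z0 (b z0 z0)) z0)) z2) (a (b (d (c (a (b z0 z0) z2) (a (b z0 z0) z2)) z0) (d (c (b z0 z0) (b z0 z0)) z0)) z2))) (d (c (b (d (a (b z0 z0) z2) (c (a (b z0 z0) z2) (a (b z0 z0) z2))) (d (b z2 z2) (c (b z2 z2) (b z2 z2)))) (b (d (c (a (b z0 z0) z2) (a (b z0 z0) z2)) (c (a (b z0 z0) z2) (a (b z0 z0) z2))) (d (c (b z2 z2) (b z2 z2)) (c (b z2 z2) (b z2 z2))))) (c (b z2 z2) (b (d (c (a (b z0 z0) z2) (a (b z0 z0) z2)) z2) z2)))) (b (d (c (a (b z0 z0) z2) (a (b z0 z0) z2)) (c (a (b z0 z0) z2) (a (b z0 z0) z2))) (d (c (b z2 z2) (b z2 z2)) (c (b z2 z2) (b z2 z2))))) (d (b (d (c (b (d (b z2 z2) z2) z2) (b (d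 (c (b z2 z2) (b z2 z2)) z2) z2)) (c (b z2 z2) (b z2 z2))) (d (c (b z2 z0) (b z2 z0)) (c (b z2 z0) (b z2 z0)))) (b (d (c (b z2 z2) (b z2 z2)) (c (b z2 z2) (b z2 z2))) (d (c (b z2 z0) (b z2 z0)) (c (b z2 z0) (b z2 z0))))))) _ _ (by decide +kernel)

theorem okB124 : CKB ⟨24576, 49152, 8192, 10240⟩ ⟨4097, 8193, 0, 4096⟩ :=
  ckB_sound (d (b z3 (d z0 (c (b (d (b z2 (d z0 z2)) z2) (d (a (b (d z0 (c (a z0 z2) (a z1 z3))) (d z0 (c (b (d (a (b z0 z0) z2) (a (c (b z0 z0) (b z0 z0)) z2)) (d (a (b z0 z0) z0) (c (a (b z0 z0) z0) (a (b z0 z0) z0)))) (b (d (a (c (b z1 z1) z0) z3) (a (c (b z1 z1) z0) z3)) (d (a (c (b z1 z1) z0) z1) (a (c (b z1 z1) z0) z1)))))) z2) (a (c (b z2 (d (c (b z0 (d z0 z0)) (b z0 (d (a (b z0 z0) z0) z0))) (c (b z0 z0) (b z0 z0)))) (b (d (a z0 z2) z2) (d (b (d (a (c z0 z1) z2) z0)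 (d (c (a (b z0 z0) z0) (a (b z1 z1) z1)) z0)) (b z0 z0)))) z2))) (b (d z0 z3) (d z0 (a (b z3 (d z0 (c (b z1 z1) z0))) z3)))))) (b (d z2 (c (b z2 z2) (b z2 z2))) (d (c (b z2 (d (a (c (b z2 (d (c (b z0 z0) (b z0 z0)) (c (b z0 z0) (b z0 z0)))) (b z2 (d (b z0 z0) (b z0 z0)))) z2) (a (c (b z2 (d (c (b z0 z0) (b z0 z0)) z0)) (b z2 (d (b z0 z0) z0))) z2))) (b z3 (d (a (b z3 (d (c (b z1 z1) z0) (c (b z1 z1) z1))) z3) (a (b z3 (d (c (b z1 z1) z1) (c (b z0 z0) z1))) z3)))) (c (b z2 (d (a (c (b z2 z0) (b z2 z0)) z2) (a (c z0 (b z2 z0)) z2))) (b z2 (d (a (b z2 z0) z2) (a (b z2 z0) z2))))))) _ _ (by decide +kernel)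

theorem okB125 : CKB ⟨24576, 49152, 10240, 11264⟩ ⟨4097, 8193, 0, 2048⟩ :=
  ckB_sound (d z0 (c (b (d (a (b (d z0 (c (a (b (d (a (b z0 z0) z0) (c (a (b z0 z0) z0) (a (b z0 z0) z0))) (d (b z0 z0) (c (b z0 z0) (b z0 z0)))) z2) (a (b (d (c (a (b z1 z1) z1) z0) (c (a (b z1 z1) z1) z0)) (d (c (b z1 z1) z0) (c (b z1 z1) z0))) z3))) (d z0 (c (b (d (b z0 z0) (c (b z0 z0) (b z0 z0))) (d (b z0 z0) (c (b z0 z0) (b z0 z0)))) (b (d (c (b z1 z1) z0) (c (b z1 z1) z0)) (d (c (b z1 z0) z0) (c (b z1 z0) z0)))))) (b z2 (d z0 (c (b z2 (d z2 z2)) z3)))) (a (c (b (d (a (c (b (d (a (b z0 z0) z0) z0) (d (b z0 z0) z0)) (b (d (a (b z0 z0) z0) z0) (d (b z0 z0) z0))) z2) (a (c (b z0 z0) (b z0 z0)) z2)) (d (c (b (d (b z0 z0) z0) (d (b z0 z0) z0)) (b (d (b z0 z0) z0) (d (b z0 z0) z0))) (c (b z0 z0) (b z0 z0)))) (b (d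 (a (b (d (c (a (b z0 z0) z0) (a (b z1 z1) z1)) (c z0 (a (b z1 z1) z1))) (d (c (b z0 z0) (b z1 z1)) (c (b z0 z0) (b z1 z1)))) z2) (a (b z0 z0) z2)) (d (b (d (c (b z0 z0) (b z1 z1)) (c (b z0 z0) (b z1 z1))) (d (c (b z0 z0) (b z1 z0)) (c (b z0 z0) (b z1 z0)))) (b z0 z0)))) z2)) (d (b (d z0 (c (a (b (d (a (b z0 z0) z2) (c (a (b z0 z0) z2) (a (b z0 z0) z2))) (d (b z0 z0) (c (b z0 z0) (b z0 z0)))) z2) (a (b (d (c (a (b z1 z1) z3) z0) (c (a (b z1 z1) z3) z0)) (d (c (b z1 z1) z0) (c (b z1 z1) z0))) z3))) (d z0 (c (b (d (a (b z2 z0) z2) (a (c (b z2 z0) (b z2 z0)) z2)) (d (a (b z2 z0) z2) z2)) (b (d (a (c (b z3 z1) z0) z3) (a (c (b z3 z1) z0) z3)) (d (a (c (b z3 z1) z0) z3) z3))))) (c (b (d (a (c (b (d (a (b z0 z0) z2) z0) (d (b z0 z0) z0)) (b (d (a (b z0 z0) z2) z0) (d (b z0 z0) z0))) z2) (a (c (b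 z0 z0) (b z0 z0)) z2)) (d (c (b z2 z2) (b z2 z2)) (c (b z2 z2) (b z2 z2)))) (b (d (a (b (d (c (a (b z0 z0) z2) (a (b z1 z1) z3)) (c z0 (a (b z1 z1) z3))) (d (c (b z0 z0) z1) z0)) z2) (a (b z0 z0) z2)) (d (b z2 z2) (b z2 z2)))))) (b (d z0 (a (b (d z0 (c (a (b z1 z1) z3) z0)) (d z0 (c (b z1 z1) z0))) z3)) (d z0 (b (d z0 (c (a (b z1 z1) z3) z0)) (d z0 (c (b z3 z3) z0))))))) _ _ (by decide +kernel)

theorem okB126 : CKB ⟨24576, 49152, 11264, 12288⟩ ⟨4097, 8193, 0, 2048⟩ :=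
  ckB_sound (d z0 (c (b (d (b (d z0 (c (b (d (a (b z2 z0) z2) z2) z2) (b z3 z3))) (d z0 (c (b z2 z2) (b z3 z3)))) (c (b (d (c (b z2 z2) (b z2 z2)) (c (b z2 z2) (b z2 z2))) (d (c (b z2 z2) (b z2 z2)) (c (b z2 z2) (b z2 z2)))) (b (d (b z2 z2) (b z2 z2)) (d (b z2 z2) (b z2 z2))))) (d (b (d z0 (c (b z2 z2) (b z3 z3))) (d z0 z0)) (c (b (d (c z2 (b z2 z2)) z2) z0) (b (d (b z2 z2) (b z2 z2)) z0)))) (b (d z0 (b (d z0 (c (b z3 z3) z0)) (d z0 (c (b z3 z3) z0)))) (d z0 (b (d z0 z3) z1))))) _ _ (by decide +kernel)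

theorem okB127 : CKB ⟨24576, 49152, 10240, 12288⟩ ⟨4097, 8193, 2048, 4096⟩ :=
  ckB_sound (b (d (c (b (d (a (c (b (d (a (c (b z0 z0) (b z0 z0)) z2) (a (c (b z0 z0) (b z0 z0)) z2)) (d (c (b z0 z0) (b z0 z0)) (c (b z0 z0) (b z0 z0)))) (b (d (a (b z0 z0) z2) (a (b z0 z0) z2)) (d (b z0 z0) (b z0 z0)))) z2) (a (c (b (d (a (c (b z0 z0) (b z0 z0)) z2) z0) (d (c (b z0 z0) (b z0 z0)) z0)) (b (d (a (b z0 z0) z2) (a (b z0 z0) z2)) (d (b z0 z0) (b z0 z0)))) z2)) (d (c (b (d (a (c (b z0 z0) (b z0 z0)) z2) (a (c (b z0 z0) (b z0 z0)) z2)) (d (c (b z2 z2) (b z2 z2)) (c (b z2 z2) (b z2 z2)))) (b (d (a (b z0 z0) z2) (a (b z0 z0) z2)) (d (b z2 z2) (b z2 z2)))) (c (b (d (a (c (b z0 z0) (b z0 z0)) z2) z2) (d (c (b z2 z2) (b z2 z2)) z2)) (b (d (a (b z0 z0) z2) (a (b z0 z0) z2)) (d (b z2 z2) z2))))) (b (d (a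 (b (d (c (a (b z1 z1) z3) z0) (c (a (b z1 z1) z3) z1)) (d (c (b z1 z1) z0) (c (b z1 z1) z1))) z3) (a (b (d (c (a (b z1 z1) z3) z1) (c (a (b z0 z0) z2) z1)) (d (c (b z1 z1) z1) (c (b z0 z0) z1))) z3)) (d (b (d (c (a (b z1 z1) z3) z0) (c (a (b z1 z1) z3) z3)) (d (c (b z3 z3) z0) (c (b z3 z3) z3))) (b (d (c (a (b z1 z1) z3) z3) (c (a (b z0 z0) z2) z3)) (d (c (b z3 z3) z3) (c (b z2 z2) z3)))))) (c (b (d (a (c (b z0 z0) (b z0 z0)) z2) (a (c (b z0 z0) (b z0 z0)) z2)) (d (c (b z2 z2) (b z2 z2)) (c (b z2 z2) (b z2 z2)))) (b (d (a (b (d (c z0 z1) z0) (d (c z0 z1) z0)) z2) (a (b z0 z0) z2)) (d (b (d (c z2 z3) z2) z2) (b z2 z2))))) (d (c (b (d (c (b (d (c (b z2 z2) (b z2 z2)) (c (b z2 z2) (b z2 z2))) (d (c z2 (b z2 z2)) z2)) (b (d (b z2 z2) (b z2 z2)) (d (b z2 z2) (b z2 z2)))) (c (b z2 z2) (b (d (b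 z2 z2) z2) z2))) (d (c (b z2 z0) (b z2 z0)) (c (b z2 z0) (b z2 z0)))) (b (d (b (d (c (b z3 z3) z0) (c (b z3 z3) z3)) (d (c (b z3 z3) z0) (c (b z3 z3) z3))) (b (d (c (b z3 z3) z3) (c z2 z3)) (d (c (b z3 z3) z3) (c z2 z3)))) (d (b z3 z1) (b (d z3 (c z2 z3)) z1)))) (c (b (d (c (b z2 z2) (b z2 z2)) (c (b z2 z2) (b z2 z2))) (d (c (b z2 z0) (b z2 z0)) (c (b z2 z0) (b z2 z0)))) (b (d (b z2 z2) (b z2 z2)) (d (b z2 z0) (b z2 z0)))))) _ _ (by decide +kernel)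

theorem okB128 : CKB ⟨24576, 49152, 4096, 12288⟩ ⟨8193, 49152, 0, 4096⟩ :=
  ckB_sound (b (b z0 (d z0 (b z0 (d (c z3 z0) (c z3 (b z0 z3)))))) (b (d z0 (b (d (c z3 z0) (c (b z3 z3) (b z3 z3))) (d (c (b z3 (d z0 (a (c (b z3 z1) z0) z3))) z0) (c (b z3 z3) (b z3 (d z0 (a (c z1 (b z3 z1)) z3))))))) (d z0 (b (d (c (b (d z0 (c (a (b z1 z1) z3) z0)) (d z0 (c (b z3 z3) z0))) z0) (c (b (d (c (a (b z1 z1) z3) (a (b z1 z1) z3)) (c (a (b z1 z1) z3) (a (b z1 z1) z3))) (d (c (b z3 z3) (b z3 z3)) (c (b z3 z3) (b z3 z3)))) (b (d z0 (a (c (b z1 z1) (b z1 z1)) z3)) (d z0 (c (b z3 z3) (b z3 z3)))))) (d (c (b (d z0 (c (b z3 z3) z0)) (d z0 (c (b z3 z1) z0))) z0) (c (b (d (c (b z3 z3) (b z3 z3)) (c (b z3 z3) (b z3 z3))) (d (c (b z3 z1) (b z3 z1)) (c (b z3 z1) (b z3 z1)))) (b (d z0 (c (b z3 z3) (b z3 z3))) (d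 z0 (c (b z3 z1) (b z3 z1)))))))))) _ _ (by decide +kernel)

theorem okB129 : CKB ⟨0, 6144, 4096, 8192⟩ ⟨0, 12288, 4096, 8192⟩ :=
  ckB_sound (c (b (d z0 (a (b (d z0 z0) (d z0 z0)) (b (d z0 z0) (d z0 z0)))) (d (c (b z0 z0) (b z0 z0)) (b (d (b z0 (d z0 z0)) z0) z0))) (b (d z0 (a (b z0 (d z0 (b z0 (d z0 z0)))) (b (d z0 z0) (d z0 z0)))) (d (b z0 z0) (b (d z0 (b (d z0 (a z0 z0)) (d z0 (b z0 z0)))) z0)))) _ _ (by decide +kernel)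

theorem okB130 : CKB ⟨6144, 12288, 4096, 6144⟩ ⟨0, 3072, 4096, 6144⟩ :=
  ckB_sound (b (d (c (a z0 z2) (a z0 z2)) (a (b (d (c (a z0 (b (d (c (a z0 z2) (a z0 z2)) (c (a z0 z2) (a z0 z2))) z0)) (a z0 (b (d (c (a z0 z2) (a z0 z2)) (c (a z0 z2) (a z0 z2))) z0))) (a z0 (b (d (c (a z0 z2) (a z0 z2)) (a z0 z2)) (d z0 (a z0 (b z2 z0)))))) (d z0 z0)) (b z2 (d z2 (b z2 (d (c (a (b z2 (d z2 z2)) z2) z2) (a (b z2 (d (a z0 z2) (a z0 z2))) z2))))))) (d (c (a z0 (b (d (c (b z2 (d (a z0 z2) (a z0 z2))) (b z2 (d (a z0 z2) (a z0 z2)))) (c (b (d z2 (a z0 z2)) (d (a z0 z2) (a z0 z2))) (b (d z2 (a z0 z2)) (d (a z0 z2) (a z0 z2))))) (d z0 (c (b (d (a z0 z2) (a z0 z2)) z0) (b (d (a z0 z2) (a z0 z2)) z0))))) (a z0 (b (d (c (b z2 (d (a z0 z2) (a z0 z2))) (b z2 (d (a z0 z2) (a z0 z2)))) (c (b (d z2 (a z0 z2)) (d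 (a z0 z2) (a z0 z2))) (b (d z2 (a z0 z2)) (d (a z0 z2) (a z0 z2))))) (d z0 (c (b (d z0 (a z0 z2)) z0) (b (d z0 (a z0 z2)) z0)))))) (a z0 (b (d (c (b (d (c (a z0 z2) (a z0 z2)) (a (c (b (d (a z0 z2) (a z0 z2)) z0) (b (d z2 (a z0 z2)) z0)) z2)) (d (c (a z0 z2) (a z0 z2)) (a z0 z2))) (b (d (a z0 z2) (a z0 z2)) (d (a z0 z2) (a z0 z2)))) (b (d (c (a (b (d (c (a z0 z2) (a z0 z2)) (a z0 z2)) (d z0 z0)) z2) (a (b (d (a z0 z2) (a z0 z2)) z0) z2)) (a (b (d (a z0 z2) (a z0 z2)) (d (a z0 z2) (a z0 z2))) z2)) (d (c (a z0 z2) (a z0 z2)) (a z0 z2)))) (d (c (b (d (c (a z0 z2) (a z0 z2)) (a z0 z2)) (d z0 (a z0 (c (b z2 z0) (b z2 z0))))) (b (d (a z0 z2) (a z0 z2)) z0)) (b (d (c (a z0 z2) (a z0 z2)) (a z0 z2)) (d (c (a z0 (b (d z2 z2) z0)) (a z0 (b z2 z0))) (a z0 (b (d (c (a z0 z2) z2) (a z0 z2)) (d (c (a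 z0 z2) z0) (a z0 z2))))))))))) _ _ (by decide +kernel)

theorem okB131 : CKB ⟨6144, 12288, 4096, 6144⟩ ⟨3072, 6144, 4096, 6144⟩ :=
  ckB_sound (b (d (a z0 z2) (a (b (d (c (a z0 (b (d (c (a z0 z2) (a z0 z2)) (c (a z0 z2) (a z0 z2))) z0)) (a z0 (b (d (c (a z0 z2) (a z0 z2)) (c (a z0 z2) (a z0 z2))) z0))) (c (a z0 (b (d (c (a z0 z2) (a z0 z2)) (c (a z0 z2) (a z0 z2))) z0)) (a z0 (b (d (c (a z0 z2) (a z0 z2)) (c (a z0 z2) (a z0 z2))) z0)))) z0) (b z2 (d z2 (c (b z2 (d z2 (a (c (b z2 (d z2 (a z0 z2))) z2) z2))) z2))))) (d (a z0 (b (d (c (b z2 (d (a z0 z2) (a z0 z2))) (b z2 (d (a z0 z2) (a z0 z2)))) (c (b z2 (d (a z0 z2) (a z0 z2))) (b z2 (d (a z0 z2) (a z0 z2))))) (d z0 (c (b (d z0 (a z0 z2)) z0) (b (d z0 (a z0 z2)) z0))))) (a z0 (b (d (c (b (d (a z0 z2) (a z0 z2)) (d (a z0 z2) (a z0 z2))) (b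 (d (a z0 z2) (a z0 z2)) (d (a z0 z2) (a z0 z2)))) (c (b (d (a (c (b (d (a z0 z2) (a z0 z2)) z0) (b (d z2 (a z0 z2)) z0)) z2) (a (c (b (d (a z0 z2) (a z0 z2)) (d z0 (a z0 z2))) (b (d (a z0 z2) (a z0 z2)) z0)) z2)) (d (a z0 z2) (a z0 z2))) (b (d (a z0 z2) (a (c (b (d (a z0 z2) (a z0 z2)) z0) (b (d (a z0 z2) (a z0 z2)) z0)) z2)) (d (a z0 z2) (a z0 z2))))) (d (c (b (d (a z0 z2) (a z0 z2)) z0) (b (d (a z0 z2) (a z0 z2)) z0)) (c (b (d (a z0 z2) (a z0 z2)) (d (a z0 (c (b z2 z0) (b z2 z0))) (a z0 (c (b (d z2 (c (a z0 z2) z2)) (d z0 (c (a z0 z2) z0))) (b z2 z0))))) (b (d (a z0 z2) (a z0 z2)) (d z0 (a z0 (c (b z2 z0) (b z2 z0))))))))))) _ _ (by decide +kernel)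

theorem okB132 : CKB ⟨6144, 9216, 4096, 5120⟩ ⟨0, 6144, 6144, 7168⟩ :=
  ckB_sound (b (d (c (a z0 (b (d (c (a z0 z2) (a z0 z2)) (a z0 z2)) (d (c (a z0 (b (d z2 z2) (d z0 z0))) (a z0 (b z2 z0))) (a z0 (b (d (c (b z2 (d z2 z2)) z2) (b z2 (d z2 (a z0 z2)))) (d (c (b (d (a z0 z2) (a z0 z2)) z0) z0) (b (d (a z0 z2) (a z0 z2)) (d z0 z0)))))))) (a z0 (b (d (c (a z0 z2) (a z0 z2)) (c (a z0 z2) (a z0 z2))) (d (c (a z0 (b z2 z0)) z0) (c (a z0 (b z2 (d z0 (c (b (d (a z0 z2) (a z0 z2)) z0) z0)))) (a z0 (b z2 z0))))))) (a z0 (b (d (c (a (b (d z0 z0) z0) (b z2 (d z2 z2))) (a z0 z2)) (a (b (d (a z0 (b (d (c (a z0 z2) z2) (a z0 z2)) z0)) z0) (d z0 z0)) (b z2 (d z2 z0)))) (d (c (a z0 (b (d (c (b z2 (d (a z0 z2) (a z0 z2))) (b z2 (d z2 (a z0 z2)))) (b (d z2 z0) (d (a z0 z2) z0))) (d (c (b (d (a z0 z2) (a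 z0 z2)) (d z0 (a z0 z2))) (b (d (a z0 z2) (a z0 z2)) z0)) (b (d (a z0 z2) z0) (d (a z0 z2) z0))))) (a z0 (b (d z2 (c (b z2 (d (a z0 z2) (a z0 z2))) (b z2 (d z2 (a z0 z2))))) (d (c (b (d (a z0 z2) (a z0 z2)) z0) (b (d (a z0 z2) (a z0 z2)) z0)) (c (b (d (a z0 z2) (a z0 z2)) (d z0 (a z0 z2))) (b (d (a z0 z2) (a z0 z2)) z0)))))) (a z0 (b (d (b (d z2 (a z2 z2)) (d (a z0 z2) (a z0 z2))) z0) (d (b (d (a z0 z2) (a z0 z2)) (d (a z0 z2) (a z0 z2))) z0))))))) (d (c (a z0 (b (d z0 (a z0 (b (d z0 z0) z0))) z0)) z0) (a z0 (b (d (c (a z0 (b (d z0 (b (d z0 z0) z0)) z0)) z0) (a z0 (b (d (b (d z0 (a z0 z2)) z0) z0) (d z0 z0)))) (d z0 z0))))) _ _ (by decide +kernel)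

theorem okB133 : CKB ⟨9216, 12288, 4096, 5120⟩ ⟨0, 6144, 6144, 7168⟩ :=
  ckB_sound (b (d z2 z2) (d (c (b (d z2 z2) (d (a (c (b (d z2 z2) (d (a z0 z2) (a z0 z2))) (b z2 (d (a z0 z2) (a z0 z2)))) z2) (a (b (d (a z2 z2) (a (b z2 (d z2 z2)) z2)) (d (a (c (b (d (a z0 z2) (a z0 z2)) z0) z0) z2) (a (b (d (a z0 z2) (a z0 z2)) z0) z2))) z2))) (b z2 (d (a (c (b z2 (d z2 (a z0 z2))) (b z2 (d z2 (a z0 z2)))) z2) (a (c (b (d z2 (a z2 z2)) (d (a z0 z2) (a (c (b (d (a z0 z2) (a z0 z2)) z0) z0) z2))) (b z2 (d (a z0 z2) (a z0 z2)))) z2)))) (b (d (a (c (b z2 (d z2 z2)) z2) z2) (a (b z2 (d z2 z0)) z2)) (d (a (c (b (d (a (c (b z2 (d (a z0 z2) (a z0 z2))) (b z2 (d z2 (a z0 z2)))) z2) (a (b (d z2 z0) (d (a z0 z2) z0)) z2)) (d (a (c (b (d (a z0 z2) (a z0 z2)) (d z0 z0)) (b (d (a z0 z2) (a z0 z2)) z0)) z2) (a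 (b (d (a z0 z2) z0) (d z0 z0)) z2))) (b (d z2 (a (c (b z2 (d (a z0 z2) (a z0 z2))) (b z2 (d z2 (a z0 z2)))) z2)) (d (a z0 z2) (a (c (b (d (a z0 z2) (a z0 z2)) (d z0 (a z0 z2))) (b (d (a z0 z2) (a z0 z2)) z0)) z2)))) z2) (a (b (d (a (b (d z2 (a z2 z2)) (d (a z0 z2) (a z0 z2))) z2) z0) (d (a (b (d (a z0 z2) (a z0 z2)) (d (a z0 z2) (a z0 z2))) z2) z0)) z2))))) _ _ (by decide +kernel)

theorem okB134 : CKB ⟨6144, 12288, 4096, 5120⟩ ⟨0, 6144, 7168, 8192⟩ :=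
  ckB_sound z0 _ _ (by decide +kernel)

end Vale.Agent.Lib.P154Q4
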