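import Vale.Agent.Lib.P154Q4.CkBDefs

namespace Vale.Agent.Lib.P154Q4

set_option maxRecDepth 100000
set_option exponentiation.threshold 1000

open Tr

theorem okB135 : CKB ⟨6144, 9216, 5120, 6144⟩ ⟨0, 6144, 6144, 7168⟩ :=
  ckB_sound (b (d z0 z0) z0) _ _ (by decide +kernel)

theorem okB136 : CKB ⟨9216, 12288, 5120, 5632⟩ ⟨0, 6144, 6144, 7168⟩ :=
  ckB_sound (d (c (b (d (a (c (b (d (a z0 z2) (a z0 z2)) (d (a z0 z2) (a z0 z2))) (b (d (a z0 z2) (a z0 z2)) (d (a z0 z2) (a z0 z2)))) z2) (a (b (d (a z0 z2) (a z0 z2)) (d (a z0 z2) (a z0 z2))) z2)) (d (a (c (b (d z0 (a z0 (b z2 z0))) z0) z0) z2) (a (b (d (a z0 (c (b z2 z0) (b z2 z0))) (a z0 (b (d z2 z2) (d z0 z0)))) (d z0 z0)) z2))) (b (d (a (c (b (d (a z0 z2) (a z0 z2)) (d (a z0 z2) (a z0 z2))) (b (d (a z0 z2) (a z0 z2)) (d z0 (a z0 z2)))) z2)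 (a (c (b (d (a z0 z2) (a z0 z2)) (d (a z0 z2) (a z0 z2))) (b (d (a z0 z2) (a z0 z2)) (d (a z0 z2) (a z0 z2)))) z2)) (d (a z0 z2) (a (c (b (d z0 (a z0 (c (b z2 z0) (b z2 z0)))) z0) z0) z2)))) (b (d (a (c (b (d (a z0 z2) (a z0 z2)) (d (a z0 z2) (a z0 (b z2 (d z2 z0))))) (b (d (a z0 z2) (a z0 z2)) (d (a z0 z2) (a z0 z2)))) z2) (a (b (d (a (b (d z0 z0) z0) z2) z0) (d (a z0 (b z2 (d z2 z2))) z0)) z2)) (d (a (c (b (d (a z0 (c (b (d z2 (a z0 z2)) (d (a z0 z2) (a z0 z2))) (b z2 (d z0 (a z0 z2))))) (a z0 (b (d (a z0 z2) z0) (d (a z0 z2) z0)))) (d z0 (a z0 (b (d z0 z0) z0)))) (b (d (a z0 (c (b z2 z0) (b z2 z0))) (a z0 (c (b (d z2 (a z0 z2)) (d (a z0 z2) (a z0 z2))) (b z2 (d z0 (a z0 z2)))))) z0)) z2) (a (b (d (a z0 (b (d (a z0 z2) (a z0 z2)) (d (a z0 z2) (a z0 z2)))) z0) (d (a z0 (b (d z0 (a z0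 z2)) z0)) z0)) z2)))) _ _ (by decide +kernel)

theorem okB137 : CKB ⟨9216, 12288, 5632, 6144⟩ ⟨0, 6144, 6144, 7168⟩ :=
  ckB_sound (d (c (b (d (a z0 (c (b z2 (d z2 z2)) z2)) (a z0 (b z2 (d (a (c (b z2 (d z2 z2)) z2) z2) (a (b z2 (d z2 (a z0 z2))) z2))))) (d (a z0 (c (b (d (c (a z0 z2) (a z0 z2)) (a z0 z2)) (d (c (a z0 z2) (a z0 z2)) (a z0 z2))) (b (d (a z0 z2) (a z0 z2)) (d (a z0 z2) (a z0 z2))))) (a z0 (b (d (a z0 z2) (a z0 z2)) (d (a z0 z2) (a z0 z2)))))) (b (d (a z0 z2) (a z0 (c (b z2 (d z2 (a z2 z2))) z2))) (d (a z0 (c (b (d z2 (a z0 z2)) (d z0 (a z0 z2))) (b z2 z0))) (a z0 (c (b (d (a z0 z2) (a z0 z2)) (d (a z0 z2) (a z0 z2))) (b (d (a z0 z2) (a z0 z2)) (d (a z0 z2) (a z0 z2)))))))) (b (d (a z0 (c (b (d z2 z2) (d (a (c (b (d z2 z2) (d (a z0 z2) (a z0 z2))) (b z2 (d z2 (a z0 z2))))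 z2) (a (b (d z2 z0) (d (a z0 z2) z0)) z2))) (b z2 (d z2 (a (c (b (d z2 z2) (d (a z0 z2) (a z0 z2))) (b z2 (d z2 (a z0 z2)))) z2))))) (a (b (d z0 z0) z0) (b (d (a z2 z2) z0) (d (a (b (d (a z0 z2) (a z0 z2)) (d (a z0 z2) (a z0 z2))) z2) z0)))) (d (a z0 (c (b (d (a z0 z2) (a (b (d z0 z0) z0) z2)) (d (a z0 z2) (a z0 z2))) (b (d (a z0 z2) (a z0 z2)) (d (a z0 z2) (a z0 z2))))) (a z0 (b (d (a (b (d z0 z0) z0) z2) z0) (d (a z0 z2) z0)))))) _ _ (by decide +kernel)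

theorem okB138 : CKB ⟨6144, 12288, 5120, 6144⟩ ⟨0, 6144, 7168, 8192⟩ :=
  ckB_sound z0 _ _ (by decide +kernel)

theorem okB139 : CKB ⟨6144, 12288, 6144, 8192⟩ ⟨0, 6144, 4096, 8192⟩ :=
  ckB_sound (d (c (b (d z0 (a z0 (b (d z0 (b (d z0 z0) z0)) z0))) (d z0 (b z0 z0))) (b z0 (d z0 (b z0 z0)))) (b (d (a z0 (b (d (c (b (d (a z0 (c (b (d z0 z0) z0) z0)) (a z0 (b (d z0 (a z0 (b z2 z0))) z0))) z0) z0) (b (d (a z0 (c (b (d (a z0 (c (b z2 z0) (b z2 z0))) (a z0 (b (d z2 z0) (d z0 z0)))) (d z0 z0)) (b (d z0 (a z0 (c (b z2 z0) z2))) z0))) (a z0 (b (d (a z0 (b (d z2 z2) (d z0 z0))) z0) (d z0 z0)))) (d z0 z0))) (d z0 z0))) z0) (d (b (d z0 z0) (d z0 z0)) z0))) _ _ (by decide +kernel)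

theorem okB140 : CKB ⟨6144, 12288, 4096, 6144⟩ ⟨6144, 12288, 4096, 6144⟩ :=
  ckB_sound (b (d (a z0 z2) (a (c (b (d z0 (a z0 (c (b (d (c (a z0 z2) (a z0 z2)) (c (a z0 z2) (a z0 z2))) z0) (b (d (a z0 z2) (a z0 z2)) z0)))) z0) (b (d (a z1 (b (d (c (a z0 z2) z3) (c (a z0 z2) (a z1 z3))) (d z1 (c z0 z1)))) (a z0 (b (d (c (a z0 z2) (a z1 z3)) (c (a z0 z2) (a z1 z3))) z0))) z0)) z2)) (d (a z0 (c (b (d (c (b z2 (d (a z0 z2) (a z0 z2))) (b (d (a z1 z3) (a z0 z2)) (d (a z1 z3) (a z0 z2)))) (c (b z2 (d (a z0 z2) (a z0 z2))) (b (d (a z0 z2) (a z0 z2)) (d (a z0 z2) (a z0 z2))))) (d z0 (c (b (d z0 (a z0 z2)) z0) (b (d z0 (a z0 z2)) z0)))) (b (d (b z3 (d (a z1 z3) (a z1 z3))) (b (d (a z1 z3) (a z1 z3)) (d (a z1 z3) (a z1 z3)))) (d z1 (b (d (a z1 z3) (a z1 z3)) z1))))) (a z0 (c (b (d (c (b (d (a z0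 z2) (a z0 z2)) (d (a z0 z2) (a z0 z2))) (b (d (a z0 z2) (a z0 z2)) (d (a z0 z2) (a z0 z2)))) (c (b (d (a z0 z2) (a (c (b (d (a z0 z2) (a z0 z2)) z0) (b (d z2 (a z0 z2)) z0)) z2)) (d (a z0 z2) (a z0 z2))) (b (d (a z0 z2) (a z0 z2)) (d (a z0 z2) (a z0 z2))))) (d (c (b (d (a z0 z2) (a z0 z2)) z0) (b (d (a z0 z2) (a z0 z2)) z0)) (c (b (d (a z0 z2) (a z0 z2)) (d z0 (a z0 (c (b z2 z0) z2)))) (b (d (a z0 z2) (a z0 z2)) z0)))) (b (d (b (d (a (c z0 z1) z3) (a (c z0 z1) z3)) (d (a z1 z3) (a z1 z3))) (b (d (a z0 z2) (a z0 z2)) (d (a z0 z2) (a z0 z2)))) (d (b (d (a z1 z3) (a z1 (c z2 z3))) (d z1 (a z1 (c z2 z3)))) (b (d (a z0 z2) (a z0 z2)) z0))))))) _ _ (by decide +kernel)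

theorem okB141 : CKB ⟨6144, 9216, 4096, 5120⟩ ⟨6144, 12288, 6144, 7168⟩ :=
  ckB_sound (c (b (d (a z0 (c (b (d (c (a z0 z2) (a z0 z2)) (c (a z0 z2) (a z0 z2))) (d z0 (c (a z0 (b z2 z0)) (a z0 (b z2 z0))))) (b (d (a z0 z2) (a z0 z2)) z0))) (a z0 (c (b (d (c (a z0 z2) (a z0 z2)) (c (a (b (d z0 (a z0 (b (d (c (a z0 z2) z2) (a z0 z2)) z0))) z0) (b z2 (d z2 z2))) (a z0 z2))) (d (c (a z0 (b z2 (d z0 (c (b (d (a z0 z2) (a z0 z2)) z0) (b (d (a z0 z2) (a z0 z2)) z0))))) (a z0 (b z2 z0))) (c (a z0 (b (d (c (b z2 (d (a z0 z2) (a z0 z2))) (b z2 (d z2 (a z0 z2)))) (b (d (a z2 z2) (a (b z2 (d z2 z2)) z2)) (d (a z0 z2) (a z0 z2)))) (d (c (b (d (a z0 z2) (a z0 z2)) (d (a z0 z2) (a z0 z2))) (b (d (a z0 z2) (a z0 z2)) (d z0 (a z0 z2)))) (b (d (a z0 z2) (a z0 z2)) (d (a z0 z2) (a z0 z2)))))) (a z0 (b (d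 z2 (c (b z2 (d (a z0 z2) (a z0 z2))) (b z2 (d z2 (a z0 z2))))) (d (c (b (d (a z0 z2) (a z0 z2)) z0) (b (d (a z0 z2) (a z0 z2)) z0)) (c (b (d (a z0 z2) (a z0 z2)) (d (a z0 z2) (a z0 z2))) (b (d (a z0 z2) (a z0 z2)) (d z0 (a z0 z2)))))))))) (b (d (a z0 z2) (a z0 z2)) (d (a z0 (c (b z2 z0) (b z2 z0))) (a z0 (c (b (d z2 (c (b z2 (d z2 (a z0 z2))) z2)) (d z0 (c (b (d (a z0 z2) (a z0 z2)) z0) (b (d (a z0 z2) (a z0 z2)) z0)))) (b z2 z0)))))))) (d z0 (a z0 (c (b (d z0 (c (a z0 (b (d z0 (b (d (a z0 z2) (a z0 (b z2 (d z2 z2)))) (d z0 z0))) z0)) z0)) z0) z0)))) (b (d (a z0 (b (d (c (a z0 z2) (a z0 z2)) (c (a z0 z2) (a z0 z2))) z0)) (a z0 (b (d (c (a z0 z2) (a z0 z2)) (c (a z0 z2) (a z0 z2))) (d z0 (c (a z0 (b z2 z0)) z0))))) z0)) _ _ (by decide +kernel)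

theorem okB142 : CKB ⟨9216, 12288, 4096, 5120⟩ ⟨6144, 12288, 6144, 7168⟩ :=
  ckB_sound (c (b z2 (d (c (b z2 (d (a z2 z2) (a (c (b z2 (d (a z0 z2) (a z0 z2))) (b z2 (d z2 (a z0 z2)))) z2))) (b z2 (d z2 (a z2 z2)))) (c (b (d z2 (a (c (b z2 (d z2 (a z2 z2))) z2) z2)) (d (a (c (b (d z2 (a z2 z2)) (d (a z0 z2) (a (c (b (d (a z0 z2) (a z0 z2)) z0) z0) z2))) (b z2 (d (a z0 z2) (a z0 z2)))) z2) (a (c (b (d (a (c (b z2 (d (a z0 z2) (a z0 z2))) (b z2 (d z2 (a z0 z2)))) z2) (a (b (d (a (c (b z2 (d z2 z2)) z2) z2) (a (b z2 (d z2 z2)) z2)) (d (a z0 z2) (a z0 z2))) z2)) (d (a (c (b (d (a z0 z2) (a z0 z2)) (d z0 (a z0 z2))) (b (d (a z0 z2) (a z0 z2)) z0)) z2) (a (b (d (a z0 z2) (a z0 z2)) (d (a z0 z2) (a z0 z2))) z2))) (b (d (a z2 z2) (a (c (b z2 (d (a z0 z2) (a z0 z2))) (b z2 (d (a z0 z2) (a z0 z2))))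 z2)) (d (a (c (b (d (a z0 z2) (a z0 z2)) z0) z0) z2) (a (c (b (d (a z0 z2) (a z0 z2)) (d z0 (a z0 z2))) (b (d (a z0 z2) (a z0 z2)) z0)) z2)))) z2))) (b z2 (d (a (c (b z2 (d (a z0 z2) (a z0 z2))) (b z2 (d (a z0 z2) (a z0 z2)))) z2) (a (c (b (d z2 (a (c (b z2 (d z2 (a z0 z2))) z2) z2)) (d (a z0 z2) (a (c (b (d (a z0 z2) (a z0 z2)) z0) z0) z2))) (b z2 (d (a z0 z2) (a z0 z2)))) z2)))))) (b z2 (d z2 (b z2 (d (a (c (b z2 (d z2 (a z0 z2))) z2) z2) (a (c (b z2 (d (a z0 z2) (a z0 z2))) (b z2 (d z2 (a z0 z2)))) z2)))))) _ _ (by decide +kernel)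

theorem okB143 : CKB ⟨6144, 9216, 4096, 4608⟩ ⟨6144, 9600, 7168, 7680⟩ :=
  ckB_sound (a z0 (b (d (c (a (b (d (c (a z0 (b (d (c (a z0 z2) z2) (c (a z0 z2) (a z0 z2))) (d z0 z0))) z0) (a z0 (c (b (d (c (a z0 z2) (a z0 z2)) (a z0 z2)) (d z0 z0)) (b (d z2 (a z0 z2)) z0)))) (d z0 z0)) (b z2 (d (c (b z2 (d z2 z2)) z2) (c (b z2 (d z2 z2)) z2)))) (a z0 z2)) (a (b (d (c (a z0 (b (d (c (a z0 z2) z2) (c (a z0 z2) (a z0 z2))) (d z0 z0))) z0) (c (a z0 (b (d (c (a z0 z2) (a z0 z2)) (a z0 z2)) (d z0 z0))) (a z0 (b (d z2 (c (a z0 z2) z2)) z0)))) (d z0 z0)) (b (d z2 z2) (d (c (b z2 (d z2 z2)) z2) (c (b z2 (d z2 (a z2 z2))) z2))))) (d (c (a z0 (b (d (c (b (d (a (c (b z2 (d z2 z2)) z2) z2) (a (c (b z2 (d z2 z2)) z2) z2)) (d (a z0 z2) (a z0 z2))) (b z2 (d (a z0 z2) (a z0 z2)))) (c (b (d (a (c (b z2 (d z2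 (a z0 z2))) z2) z2) (a (b (d z2 z0) (d (a z0 z2) z0)) z2)) (d (a z0 z2) (a z0 z2))) (b (d z2 (a (c (b z2 (d z2 (a z0 z2))) z2) z2)) (d (a z0 z2) (a z0 z2))))) (d (c (b (d (a z0 z2) (a z0 z2)) (d (a z0 z2) (a z0 z2))) (b (d (a z0 z2) (a z0 z2)) (d (a z0 z2) (a z0 z2)))) (c (b (d (a z0 z2) (a z0 z2)) (d (a z0 z2) (a z0 z2))) (b (d (a z0 z2) (a z0 z2)) (d (a z0 z2) (a z0 z2))))))) (a z0 (b (d (c (b z2 (d z2 (a z0 z2))) z2) (c (b z2 (d (a z0 z2) (a z0 z2))) (b z2 (d z2 (a z0 z2))))) (d (c (b (d (a z0 z2) (a z0 z2)) z0) (b (d (a z0 z2) (a z0 z2)) z0)) (c (b (d (a z0 z2) (a z0 z2)) (d (a z0 z2) (a z0 z2))) (b (d (a z0 z2) (a z0 z2)) (d z0 (a z0 z2)))))))) (a (b (d z0 z0) z0) (b (d (c (b (d (a (c (b (d z2 z2) (d (a z0 z2) (a z0 z2))) z2) z2) (a (c (b (d z2 z2) (d (a z0 z2) (a z0 z2))) (b z2 (d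 z2 (a z0 z2)))) z2)) (d (a z0 z2) (a (c (b (d z0 z0) z0) z0) z2))) (b z2 (d (a z0 z2) (a z0 z2)))) (c (b (d (a (c (b (d z2 z2) (d (a z0 z2) (a z0 z2))) (b z2 (d z2 (a z0 z2)))) z2) (a (b (d z2 z0) (d (a z0 z2) z0)) z2)) (d (a (c (b (d z0 z0) z0) z0) z2) (a (b (d z0 z0) z0) z2))) (b (d z2 (a (c (b z2 (d z2 (a z0 z2))) z2) z2)) (d (a z0 z2) (a z0 z2))))) (d (c (b (d (a z0 z2) (a z0 z2)) (d (a z0 z2) (a z0 z2))) (b (d (a z0 z2) (a z0 z2)) (d (a z0 z2) (a z0 z2)))) (c (b (d (a z0 z2) (a z0 z2)) (d (a z0 z2) (a z0 z2))) (b (d (a z0 z2) (a z0 z2)) (d (a z0 z2) (a z0 z2)))))))))) _ _ (by decide +kernel)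

theorem okB144 : CKB ⟨6144, 9216, 4096, 4608⟩ ⟨9600, 12288, 7168, 7680⟩ :=
  ckB_sound (a z0 (b (d (c (a z0 z2) (a z0 z2)) (c (a z0 z2) (a z0 z2))) (d (c (a z0 (b z2 (d z0 (c (b (d (a z0 z2) (a z0 z2)) z0) z0)))) (a z0 (b z2 z0))) (c (a z0 (b (d (c (b z2 (d z2 (a z0 z2))) z2) (c (b z2 (d (a z0 z2) (a z0 z2))) (b z2 (d z2 (a z0 z2))))) (d (c (b (d (a z0 z2) (a z0 z2)) (d z0 (a z0 z2))) (b (d (a z0 z2) (a z0 z2)) z0)) (c (b (d (a z0 z2) (a z0 z2)) (d (a z0 z2) (a z0 z2))) (b (d (a z0 z2) (a z0 z2)) (d z0 (a z0 z2))))))) (a z0 (b z2 (d z0 (c (b (d (a z0 z2) (a z0 z2)) z0) z0)))))))) _ _ (by decide +kernel)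

theorem okB145 : CKB ⟨6144, 9216, 4096, 4608⟩ ⟨6144, 12288, 7680, 8192⟩ :=
  ckB_sound (a (b (d z0 z0) z0) (b (d (c (a (b (d (c (a z0 (b (d (c (a z0 z2) z2) (a z0 z2)) (d z0 z0))) z0) (a z0 (b (d (c (a z0 z2) z2) (a z0 z2)) (d z0 z0)))) (d (c (a z0 (b (d z0 z0) z0)) z0) (a z0 (b (d z0 z0) z0)))) (b (d z2 z2) (d (c (b (d z2 z2) (d (a z2 z2) (a z2 z2))) z2) (b (d z2 z2) (d (a z2 z2) (a z2 z2)))))) (a z0 z2)) (a (b (d (c (a z0 (b (d (c (a z0 z2) z2) (a z0 z2)) (d z0 z0))) z0) (a z0 (b (d (c (a z0 z2) z2) (a z0 z2)) (d z0 z0)))) (d (c (a z0 (b (d z0 z0) z0)) z0) z0)) (b (d z2 z2) (d (c (b (d z2 z2) (d (a z2 z2) (a z2 z2))) z2) (b (d z2 z2) (d z2 z2)))))) (d (c (a (b (d z0 z0) z0) (b (d (c (b (d (a (c (b (d z2 z2) (d (a z0 z2) (a z0 z2))) z2) z2) (a (b (d z2 z2) (d (a z0 z2) (a z0 z2))) z2))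 (d (a (c (b (d z0 z0) z0) z0) z2) (a (b (d z0 z0) z0) z2))) (b z2 (d (a z0 z2) (a z0 z2)))) (b (d (a (c (b (d z2 z2) (d (a z0 z2) (a z0 z2))) z2) z2) (a (b (d z2 z2) (d (a z0 z2) (a z0 z2))) z2)) (d (a (c (b (d z0 z0) z0) z0) z2) (a (b (d z0 z0) z0) z2)))) (d (c (b (d (a z0 z2) (a z0 z2)) (d (a z0 z2) (a z0 z2))) (b (d (a z0 z2) (a z0 z2)) (d (a z0 z2) (a z0 z2)))) (b (d (a z0 z2) (a z0 z2)) (d (a z0 z2) (a z0 z2)))))) (a z0 (b (d (c (b z2 (d z2 (a z0 z2))) z2) (c (b z2 (d (a z0 z2) (a z0 z2))) z2)) (d (c (b (d (a z0 z2) (a z0 z2)) (d z0 (a z0 z2))) (b (d (a z0 z2) (a z0 z2)) z0)) (c (b (d (a z0 z2) (a z0 z2)) (d (a z0 z2) (a z0 z2))) (b (d (a z0 z2) (a z0 z2)) z0)))))) (a (b (d z0 z0) z0) (b (d (c (b (d (a (c (b (d z2 z2) (d (a z0 z2) (a z0 z2))) z2) z2) (a (b (d z2 z2) (d z2 z2)) z2))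 (d (a (c (b (d z0 z0) z0) z0) z2) (a z0 z2))) (b z2 (d (a z0 z2) (a z0 z2)))) (b (d (a (c (b (d z2 z2) (d z2 z2)) z2) z2) (a (b z2 (d z2 z2)) z2)) (d (a z0 z2) (a z0 z2)))) (d (c (b (d (a z0 z2) (a z0 z2)) (d (a z0 z2) (a z0 z2))) (b (d (a z0 z2) (a z0 z2)) (d (a z0 z2) (a z0 z2)))) (b (d (a z0 z2) (a z0 z2)) (d (a z0 z2) (a z0 z2))))))))) _ _ (by decide +kernel)

theorem okB146 : CKB ⟨6144, 9216, 4608, 5120⟩ ⟨6144, 12288, 7168, 8192⟩ :=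
  ckB_sound (d (c (a z0 (b (d (c (a z0 (b (d (c (b (d (a z0 (c (b z2 (d z2 z2)) z2)) (a z0 (c (b z2 (d z2 z2)) z2))) (d z0 z0)) z0) (c (b (d (a z0 (c (b z2 (d z2 z2)) z2)) (a z0 (b z2 (d (a z0 z2) z0)))) (d z0 z0)) (b (d z0 (a z0 (c (b z2 (d z2 (a z0 z2))) z2))) z0))) (d z0 z0))) z0) (a z0 (b (d (c (b (d (a z0 (c (b (d z2 z2) (d (c (a z0 z2) z2) (a z0 z2))) z2)) (a z0 (c (b (d z2 z2) (d (a z0 z2) (a z0 z2))) (b z2 (d z2 (a z0 z2)))))) (d (a z0 (c (b (d z0 z0) z0) z0)) (a z0 (c (b (d z0 z0) z0) z0)))) z0) (c (b (d (a z0 (c (b (d z2 z2) (d (a z0 z2) (a z0 z2))) (b z2 (d z2 (a z0 z2))))) (a z0 (b (d z2 z0) (d (a z0 z2) z0)))) (d (a z0 (c (b (d z0 z0) z0) z0)) (a z0 (b (d z0 z0) z0)))) (b (d z0 (a z0 (c (b z2 (d z2 (a z0 z2))) z2))) z0))) (d (c (b (d z0 z0) z0) z0) (c (b (d z0 z0) z0) z0)))))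 (d z0 (a z0 (b (d z0 z0) z0))))) z0) (a z0 (b (d (c (a z0 (b (d (c (b (d (a z0 (c (b (d z2 z2) (d (a z0 z2) (a z0 z2))) z2)) (a z0 (b (d z2 z2) (d (a z0 z2) (a z0 z2))))) (d (a z0 (c (b (d z0 z0) z0) z0)) (a z0 (b (d z0 z0) z0)))) (b (d z0 (a z0 z2)) z0)) (b (d (a z0 (c (b (d z2 z2) (d (a z0 z2) (a z0 z2))) z2)) (a z0 (b (d z2 z2) (d (a z0 z2) (a z0 z2))))) (d (a z0 (c (b (d z0 z0) z0) z0)) (a z0 (b (d z0 z0) z0))))) (d (c (b (d z0 z0) z0) z0) (b (d z0 z0) z0)))) z0) (a z0 (b (d (c (b (d (a z0 (c (b (d z2 z2) (d (a z0 z2) (a z0 z2))) z2)) (a z0 (b (d z2 z2) (d (a z0 z2) (a z0 z2))))) (d (a z0 (c (b (d z0 z0) z0) z0)) (a z0 (b (d z0 z0) z0)))) z0) (b (d (a z0 (c (b (d z2 z2) (d z2 z2)) z2)) (a z0 (b z2 (d z2 z2)))) (d (a z0 (c (b (d z0 z0) z0) z0)) z0))) (d (c (b (d z0 z0) z0) z0) (b (d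 z0 z0) z0))))) (d (c (a z0 (b (d z0 z0) z0)) z0) (a z0 (b (d z0 z0) z0)))))) _ _ (by decide +kernel)

theorem okB147 : CKB ⟨9216, 12288, 4096, 4608⟩ ⟨6144, 12288, 7168, 8192⟩ :=
  ckB_sound (d (c (b z2 (d z2 z2)) z2) (b (d z2 z2) (d (a z2 z2) (a (b z2 (d z2 z2)) z2)))) _ _ (by decide +kernel)

theorem okB148 : CKB ⟨9216, 12288, 4608, 4864⟩ ⟨6144, 9600, 7168, 7680⟩ :=
  ckB_sound (d (c (a (b (d z2 z2) (d (c (a (b z2 (d z2 z2)) z2) z2) (a (c (b z2 (d z2 z2)) z2) z2))) z2) z2) (a (b (d z2 z2) (d (c (a (b z2 (d z2 (a z2 z2))) z2) z2) (a (c (b (d z2 z2) (d (a z2 z2) (a z2 z2))) z2) z2))) z2)) _ _ (by decide +kernel)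

theorem okB149 : CKB ⟨9216, 12288, 4864, 5120⟩ ⟨6144, 9600, 7168, 7680⟩ :=
  ckB_sound (d (c (a (b (d (c (a (b (d (c (a (b z2 (d z2 z2)) z2) z2) (a (c (b z2 (d (a z0 z2) (a z0 z2))) z2) z2)) (d (c (a z0 z2) (a z0 z2)) (a z0 z2))) z2) (a (b z2 (d (a z0 z2) (a z0 z2))) z2)) (a (c (b (d (a (c (b (d z2 z2) (d (a z0 z2) (a z0 z2))) (b z2 (d z2 (a z0 z2)))) z2) (a (b (d z2 z0) (d (a z0 z2) z0)) z2)) (d (a z0 z2) (a z0 z2))) (b (d z2 (a (c (b z2 (d (a z0 z2) (a z0 z2))) z2) z2)) (d (a z0 z2) (a z0 z2)))) z2)) (d (c (a (b (d (c (a z0 z2) (a z0 z2)) (a z0 z2)) (d (c (a z0 z2) (a z0 z2)) (a z0 z2))) z2) (a (b (d (a z0 z2) (a z0 z2)) (d z0 (a z0 z2))) z2)) (a (c (b (d (a z0 z2) (a z0 z2)) (d (a z0 z2) (a z0 (b z2 (d z2 z0))))) (b (d (a z0 z2) (a z0 z2)) (d (a z0 z2) (a z0 z2)))) z2))) z2) (a (b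 (d (a (c (b z2 (d z2 (a z0 z2))) z2) z2) (a (c (b z2 (d (a z0 z2) (a z0 z2))) (b z2 (d z2 (a z0 z2)))) z2)) (d (a (c (b (d (a z0 z2) (a z0 z2)) z0) z0) z2) (a (c (b (d (a z0 z2) (a z0 z2)) (d z0 (a z0 z2))) (b (d (a z0 z2) (a z0 z2)) z0)) z2))) z2)) (a (b (d (c (a (b (d (c (a (b (d z2 z2) (d (c (a z0 z2) z2) (a z0 z2))) z2) (a z2 z2)) (a (c (b (d z2 z2) (d (a z0 z2) (a z0 z2))) (b z2 (d z2 (a z0 z2)))) z2)) (d (c (a z0 z2) (a z0 z2)) (a (c (b (d z0 z0) z0) z0) z2))) z2) (a (b (d z2 (a z2 z2)) (d (a z0 z2) (a z0 z2))) z2)) (a (c (b (d (a (c (b (d z2 z2) (d (a z0 z2) (a z0 z2))) (b z2 (d z2 (a z0 z2)))) z2) (a (b (d z2 z0) (d (a z0 z2) z0)) z2)) (d (a (c (b (d z0 z0) z0) z0) z2) (a (b (d z0 z0) z0) z2))) (b (d (a z2 z2) (a (c (b (d z2 z2) (d (a z0 z2) (a z0 z2))) (b z2 (d z2 (a z0 z2))))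 z2)) (d (a z0 z2) (a z0 z2)))) z2)) (d (c (a (b (d (c (a z0 z2) (a z0 z2)) (a z0 z2)) (d (c (a z0 (b z2 (d z2 z2))) (a z0 z2)) (a z0 (c (b z2 (d z2 z2)) z2)))) z2) (a (b (d (a z0 z2) (a z0 z2)) (d (a z0 z2) (a z0 z2))) z2)) (a (c (b (d (a z0 z2) (a z0 z2)) (d (a z0 (c (b z2 (d z2 z2)) z2)) (a z0 (b z2 (d z2 z0))))) (b (d (a z0 z2) (a z0 z2)) (d (a z0 z2) (a z0 (c (b z2 (d z2 z2)) z2))))) z2))) z2)) _ _ (by decide +kernel)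

end Vale.Agent.Lib.P154Q4
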