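import Vale.Agent.Lib.P154Q4.CkB0
import Vale.Agent.Lib.P154Q4.CkB1
import Vale.Agent.Lib.P154Q4.CkB2
import Vale.Agent.Lib.P154Q4.CkB3
import Vale.Agent.Lib.P154Q4.CkB4
import Vale.Agent.Lib.P154Q4.CkB5
import Vale.Agent.Lib.P154Q4.CkB6
import Vale.Agent.Lib.P154Q4.CkB7
import Vale.Agent.Lib.P154Q4.CkB8
import Vale.Agent.Lib.P154Q4.CkB9
import Vale.Agent.Lib.P154Q4.CkB10
import Vale.Agent.Lib.P154Q4.CkB11
import Vale.Agent.Lib.P154Q4.CkB12
import Vale.Agent.Lib.P154Q4.CkB13
import Vale.Agent.Lib.P154Q4.CkB14
import Vale.Agent.Lib.P154Q4.CkB15
import Vale.Agent.Lib.P154Q4.CkB16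

namespace Vale.Agent.Lib.P154Q4

set_option maxRecDepth 100000

theorem rootB00 : CKB ⟨0, 49152, 0, 4096⟩ ⟨0, 49152, 0, 4096⟩ :=
  (split1S (split2S (split1S okB0 (split2S (split1T (split2T okB1 (split2S (split1T okB2 (split2T okB3 okB4)) (split1T okB5 (split2T okB6 okB7)))) (split2T okB8 (split2S okB9 okB10))) (split1T (split2T (split1T okB11 (split2T okB12 (split1S (split2S (split1T (split2T okB13 okB14) okB15) okB16) okB17))) (split1T okB18 (split2T (split1S (split2S okB19 okB20) okB21) (split1S (split2S okB22 okB23) okB24)))) (split2T okB25 (split1T (split2T okB26 okB27) okB28))))) okB29) okB30)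

theorem rootB01 : CKB ⟨0, 49152, 0, 4096⟩ ⟨0, 49152, 4096, 12288⟩ :=
  (split2S (split2S (split1S (split2T (split2S (split1S okB31 (split1T (split2T (split2S (split1T okB32 (split2T (split2S (split1S (split1T okB33 okB34) okB35) okB36) (split1S (split1T (split2T (split2S okB37 okB38) okB39) (split2T okB40 okB41)) okB42))) (split1T okB43 (split2T (split1S (split1T okB44 okB45) okB46) (split1S (split1T (split2T okB47 okB48) okB49) okB50)))) (split1T okB51 (split2T (split1S (split1T (split2T (split2S okB52 okB53) okB54) (split2T (split2S okB55 okB56) okB57)) okB58) okB59))) (split2T (split2S (split1T (split2T okB60 okB61) okB62) (split1T (split2T okB63 okB64) okB65)) (split1T (split2T (split1S okB66 (split1T okB67 okB68)) okB69) okB70)))) (split1S okB71 (split1T (split2T (split1T okB72 (split2T (split2S okB73 okB74) (split2S okB75 okB76))) (split1T okB77 (split2T (split2S (split1S (split1T okB78 okB79) okB80) okB81) (split1S (split1T okB82 okB83) okB84)))) (split2T (split1T (split2T okB85 okB86) okB87) (split1T (split2T (split2S (split1S okB88 (split1T okB89 okB90)) okB91) (split1S okB92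 (split1T okB93 okB94))) (split2T okB95 (split1S okB96 (split1T okB97 (split2T okB98 okB99))))))))) okB100) okB101) (split1S (split2T (split1S okB102 (split1T okB103 (split2T okB104 okB105))) (split1S okB106 (split1T okB107 (split2T (split1T okB108 okB109) okB110)))) (split2T okB111 okB112))) (split1S okB113 okB114))

theorem rootB10 : CKB ⟨0, 49152, 4096, 12288⟩ ⟨0, 49152, 0, 4096⟩ :=
  (split1S (split1S okB115 (split2S (split1T okB116 (split2S okB117 okB118)) okB119)) (split2S (split1T okB120 (split2S (split1T okB121 (split2T okB122 okB123)) (split1T okB124 (split2T (split1T okB125 okB126) okB127)))) okB128))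

theorem rootB11 : CKB ⟨0, 49152, 4096, 12288⟩ ⟨0, 49152, 4096, 12288⟩ :=
  (split1S (split2S (split1S (split2S (split1T (split2T (split1S okB129 (split2S (split1T (split2T (split2S okB130 okB131) (split1T (split2T (split1S okB132 okB133) okB134) (split2T (split1S okB135 (split1T okB136 okB137)) okB138))) okB139) (split1T (split2T okB140 (split1T (split2T (split1S okB141 okB142) (split1S (split1T (split2T (split2S okB143 okB144) okB145) okB146) (split1T okB147 (split2T (split2S (split1T okB148 okB149) okB150) okB151)))) (split2T (split1S okB152 (split2S (split1T okB153 okB154) okB155)) (split1S okB156 (split1T (split2T (split2S (split1T okB157 okB158) okB159) (split1T okB160 okB161)) (split2T (split2S okB162 okB163) okB164)))))) okB165))) okB166) okB167) (split1T (split2T (split1S okB168 (split1T (split2T okB169 (split1T okB170 (split2T okB171 okB172))) okB173)) (split1S okB174 (split1T (split2T (split1T (split2T (split2S (split1S okB175 okB176) okB177) okB178) (split2T (split2S (split1S okB179 (split1T okB180 okB181)) okB182) okB183)) okB184) okB185))) okB186)) (split2S (split1T (split2T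 (split2S (split1T okB187 (split2T okB188 okB189)) (split1T okB190 (split2T okB191 (split1T (split2T okB192 okB193) okB194)))) okB195) okB196) (split1T (split2T okB197 okB198) okB199))) (split1S (split1T okB200 okB201) (split1T okB202 (split2T okB203 (split1T (split2T okB204 okB205) okB206))))) (split2S (split2S (split1T okB207 (split2T (split2S (split1T okB208 okB209) okB210) okB211)) (split1T okB212 (split2T okB213 okB214))) (split1T okB215 (split2T okB216 (split1T (split2T okB217 (split1T okB218 (split2T okB219 (split1T okB220 okB221)))) (split2T (split1T (split2T okB222 (split1T okB223 (split2T okB224 okB225))) (split2T okB226 (split1T (split2T okB227 okB228) okB229))) (split1T (split2T (split1T okB230 (split2T okB231 okB232)) (split1T (split2T okB233 (split1S okB234 okB235)) (split2T okB236 (split1T (split2T okB237 okB238) okB239)))) (split2T (split1T (split2T okB240 okB241) okB242) (split1T (split2T okB243 (split1T okB244 okB245)) okB246)))))))))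

end Vale.Agent.Lib.P154Q4
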