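import Vale.Agent.Lib.P154Q4.FormI

namespace Vale.Agent.Lib.P154Q4

set_option maxRecDepth 100000
set_option exponentiation.threshold 1000

open Tr

theorem okI0 : CKI ⟨0, 49152, 0, 4096⟩ ⟨0, 0, 1194, 12800⟩ :=
  ckI_sound (d (a (d (a z0 (b (d z0 (b z0 (d z0 (a z0 (b z0 z0))))) z0)) (a (b (d z2 z0) (d z0 z0)) (b (d (b z0 (d (a z0 (b z0 z0)) z0)) z0) z0))) (d (b z0 (d (b z0 z0) (b (d (a z0 z0) (a (b z0 z0) z0)) (d (a z0 (b z0 z0)) (a z0 (b z0 (d (a z0 (b z0 z0)) (a z0 (b z0 z0))))))))) (b z0 (d (b (d (a (b z0 z0) z0) (a z0 z0)) (d (a z0 (b z0 (d (a z0 (b z0 z0)) z0))) z0)) z0)))) (a (d z0 z0) (d z0 z0))) _ _ (by decide +kernel)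

theorem okI1 : CKI ⟨0, 24576, 4096, 12288⟩ ⟨0, 0, 1194, 12800⟩ :=
  ckI_sound (a (d (b (a (d z0 (b (a (d z0 z0) z0) z0)) (d z0 z0)) (d z0 z0)) (b (a z0 (d z0 z0)) z0)) (d (b (d (b (d z0 (b (d z0 (b z0 z0)) z0)) z0) (b (d (b (d (b z0 z0) z0) z0) z0) z0)) (d z0 z0)) (b (d z0 (b z0 (d (b (d z0 z0) (a z0 (d z0 z0))) z0))) (d z0 (b (d (b (a z0 (d z0 z0)) z0) z0) z0))))) _ _ (by decide +kernel)

theorem okI2 : CKI ⟨24576, 49152, 4096, 12288⟩ ⟨0, 0, 1194, 6997⟩ :=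
  ckI_sound (b (d (b z0 z0) (b z0 z0)) (d (b z0 (d (b z0 (d (b z0 (d (b z0 z0) (b z0 (d z0 (b z0 z0))))) (b z0 (d (b z0 (d (b z0 z0) (b z0 z0))) (b z0 (d (b z0 z0) (b z0 z0))))))) (b z0 (d (b z0 (d (b z0 (d (b z0 z0) (b z0 z0))) (b z0 (d (b z0 (d z0 (b z0 z0))) (b z0 (d (b z0 z0) (b z0 z0))))))) (b z0 (d (b z0 (d (b z0 (d (b z0 z0) (b z0 z0))) (b z0 (d (b z0 z0) z0)))) (b z0 (d (b z0 z0) (b z0 z0))))))))) (b z0 (d (b z0 (d (b z0 (d (b z0 (d (b z0 z0) (b z0 z0))) (b z0 (d (b z0 z0) (b z0 z0))))) (b z0 (d (b z0 z0) (b z0 z0))))) (b z0 (d (b z0 z0) (b z0 z0))))))) _ _ (by decide +kernel)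

theorem okI3 : CKI ⟨24576, 49152, 4096, 8192⟩ ⟨0, 0, 6997, 12800⟩ :=
  ckI_sound (d z0 (b z0 (d (b z0 (d z0 z0)) z0))) _ _ (by decide +kernel)

theorem okI4 : CKI ⟨24576, 49152, 8192, 12288⟩ ⟨0, 0, 6997, 9898⟩ :=
  ckI_sound (b z0 (d (b z0 (d (b z0 (d (b z0 z0) (b z0 z0))) (b (d (b z0 z0) (b z0 z2)) (d (b (d z0 (b z0 z0)) (d (b z0 z0) (b z0 z0))) (b (d (b z0 z0) (b z0 z0)) (d (b z0 z0) (b z0 z0))))))) (b z0 (d (b (d (b z0 (d (b z0 z0) (b z0 z0))) (b z0 (d (b z0 z0) (b z0 z0)))) (d (b (d (b z0 z0) (b (d (b z0 z0) (b z0 z0)) (d (b z0 z0) (b z0 z0)))) (d (b z0 z0) (b z0 z0))) (b (d (b (d (b z0 z0) (b z0 z0)) (d (b z0 z0) (b z0 z0))) (b (d (b z0 z0) (b z0 z0)) (d (b z0 z0) (b z0 z0)))) (d (b z0 z0) (b z2 z0))))) (b (d (b z0 (d (b z0 z0) (b z0 z0))) (b z0 (d (b z0 z0) z0))) (d (b (d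 (b (d (b z0 z0) (b z0 z0)) (d (b z0 z0) (b z0 z0))) (b (d (b z0 z0) (b z0 z0)) (d (b z0 z0) (b z0 z0)))) (d (b (d (b z0 z0) (b z0 z0)) z0) (b (d (b z0 z0) (b z0 z0)) z0))) (b (d (b (d (b z0 z0) (b z0 z0)) (d (b z0 z0) (b z0 z0))) (b z0 (d (b z0 z0) z0))) (d (b z2 z0) (b z0 z0))))))))) _ _ (by decide +kernel)

theorem okI5 : CKI ⟨24576, 49152, 8192, 10240⟩ ⟨0, 0, 9898, 12800⟩ :=
  ckI_sound (d (b (d (b z0 z0) (b z0 (d (b z0 z0) z0))) (d (b z0 (d z0 (a z0 (b z0 z0)))) (b (d (b z0 z2) z0) (d (a z0 (b (d z0 (b z0 z0)) (d z0 (a z0 (b z0 z0))))) (a z0 (b (d (b (d z0 z0) (d z0 z0)) z0) (d (a z0 (b (d z0 (b z0 z0)) (d z0 (b z0 z0)))) (a z0 (b z0 (d (b z0 (a z0 (d z0 z0))) z0)))))))))) z0) _ _ (by decide +kernel)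

theorem okI6 : CKI ⟨24576, 49152, 10240, 11264⟩ ⟨0, 0, 9898, 11349⟩ :=
  ckI_sound (d (b (d z0 (a z0 (b z0 z0))) (d (b z0 z0) (b (d z0 (a z0 (b z0 z0))) (d (b z0 z0) (b z0 z0))))) (b (d (a z0 (b (d z0 (b z0 z0)) (d (b z0 z0) (b z0 z0)))) (a z0 (b (d (b (d z2 (b z0 z0)) (d z2 (a z0 (b z0 z0)))) (b (d (b (d z0 (a z0 (b z0 z0))) (a z0 (d z0 (b z0 z0)))) (b z0 (a z0 (d (b z2 z0) z0)))) (d (a z0 (b (d z0 (b z0 z0)) (d z0 (a z0 (b z0 z0))))) (a z0 (b (d (b z0 z0) (b z0 (a z0 (d z2 z0)))) (d (a z0 (b z0 z0)) (a z0 (b (d z2 (b z0 z0)) (d z2 (a z0 (b z0 z0))))))))))) (d (b (a z0 (d (b z0 z0) (b z0 z0))) (a z0 (d (b z0 z0) (b z0 z0)))) (b (a z0 (d (b (d z0 (a z0 (b z0 z0))) (d z0 (a z0 (b z0 z0)))) (b (d (a z0 (b z0 z0)) (a z0 (b (d z2 (b z0 z0)) z2))) (d (a z0 (b z0 z0)) (a z0 (b z2 z2))))))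 (a z0 (d (b (d z0 (a z0 (b z0 z0))) (a z0 (d z0 (b z0 z0)))) (b (d (a z0 (b z0 z0)) (a z0 (b z2 z2))) (a z0 (d (b z0 z0) (b z0 z0))))))))))) (d (b (d (a z0 (b z0 z0)) (a z0 (b (d z0 (b z0 z0)) (d z0 (a z0 (b z0 z0)))))) (d (b z0 (d z0 (a z0 (b z0 z0)))) (b (d (a z0 (b z0 z0)) (a z0 (b z0 z0))) (d (a z0 (b z0 z0)) (a z0 (b z0 z0)))))) (b (d (a z0 (b (d (b z0 z0) (b z0 z0)) (d (a z0 (b z0 z0)) (a z0 (b z0 z0))))) (a z0 (b (d (b (d z0 (b z0 z0)) (d z0 (a z0 (b z0 z0)))) (b (d (b z0 z0) (b z0 z0)) (d (a z0 (b z0 z0)) (a z0 (b z0 z0))))) (d (a z0 (b (d z0 (b z0 z0)) (d z0 (b z0 z0)))) (a z0 (b (d (b z0 z0) (b z0 z0)) (d (b z0 z0) (b z0 z0)))))))) (d (b (d (a z0 (b z0 z0)) (a z0 (b z0 z0))) (d (a z0 (b z0 z0)) (a z0 (b z0 z0)))) (b (d (a z0 (b (d z0 (b z0 z0)) (d z2 (a z0 (b z0 z0)))))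 (a z0 (b (d (b z0 z0) (b z0 z0)) (d (a z0 (b z0 z0)) (a z0 (b z0 z0)))))) (d (a z0 (b (d z2 (b z0 z0)) (d z2 (a z0 (b z0 z0))))) (a z0 (b (d (b z0 z0) (b z0 z0)) (d (a z0 (b z0 z0)) (a z0 (b z0 z0)))))))))))) _ _ (by decide +kernel)

theorem okI7 : CKI ⟨24576, 49152, 11264, 12288⟩ ⟨0, 0, 9898, 10623⟩ :=
  ckI_sound (b (d (b z0 (d z0 (b z0 z0))) (b (d (b z0 z0) (b z0 (d z2 (b z0 z0)))) (d (b (d z0 (b z0 z0)) (d z0 (b z0 z0))) (b (d (b z0 z0) (b z0 z0)) (d (b z0 z0) (b z0 z0)))))) (d (b (d (b z0 z0) z0) (d (b z0 z0) z0)) (b (d (b z0 z0) (b (d (b z0 z0) (b z0 z0)) (d z0 (b z0 z0)))) z0))) _ _ (by decide +kernel)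

theorem okI8 : CKI ⟨24576, 49152, 11264, 12288⟩ ⟨0, 0, 10623, 11349⟩ :=
  ckI_sound (b (d (b (d (b (d (a z0 (b z0 z0)) (a z0 (b z0 z0))) (d (b z0 z0) (b z0 z0))) (b (d (a z0 (b z0 z0)) (a z0 (b z0 z0))) (d (b z0 z0) (b z0 z0)))) (d (b (d (b z0 z0) (b z0 z0)) (d (b z0 z0) (b z0 z0))) (b (d (b z0 z0) (b z0 z0)) (d (b z0 z0) (b z2 z2))))) (b (d (b (d (a z0 (b z0 z0)) (a z0 (b z0 z0))) (d (b z0 z0) (b z0 z2))) (b (d (a z0 (b (d z2 (b z0 z0)) (d z2 (a z0 (b z0 z0))))) (a z0 (b (d (b z0 z0) (b z0 z0)) (d (a z0 (b z0 z0)) (a z0 (b z0 z0)))))) (d (b (d z2 (a z0 (b z0 z0))) (d z2 (a z0 (b z0 z0)))) (b (d (a z0 (b z0 z0)) (a z0 (b z0 z0))) (d (a z0 (b z0 z0)) (a z0 (b z0 z0))))))) (d (b (d (b z0 z2) (b z2 z2)) (d (b z2 (d (b z0 z0) (b z0 z0))) (b (d (b z0 z0) (b z0 z0)) (d (b z0 z0) (b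 z0 z0))))) (b (d (b (d (a z0 (b z0 z0)) (a z0 (b z0 z0))) (d (a z0 (b z0 z0)) (a z0 (b z0 z0)))) (b (d (a z0 (b z0 z0)) (a z0 (b z0 z0))) (d (a z0 (b z0 z0)) (a z0 (b z0 z0))))) (d (b (d (b z0 z0) (b z0 z0)) (d (b z0 z0) (b z0 z0))) (b (d (b z0 z0) (b z0 z0)) (d (b z0 z0) (b z0 z0)))))))) (d (b (d (b (d (b z0 z0) (b z0 z0)) (d (b z0 z0) (b z0 z0))) (b (d (b z2 z0) (b (d z2 (b z0 z0)) z2)) (d (b z0 z0) (b z0 z0)))) (d (b (d z0 (b z0 z0)) z0) (b (d (b z0 z0) (b z0 z0)) (d z0 (b z0 z0))))) (b (d (b (d (b (d (b z0 z0) (b z0 z0)) (d (b z0 z0) (b z0 z0))) (b (d (b z0 z0) (b z0 z0)) (d (b z0 z0) (b z0 z0)))) (d (b (d z2 (b z0 z0)) z2) (b (d (b z0 z0) (b z0 z0)) (d (b z0 z0) (b z0 z0))))) (b (d (b (d (b z0 z0) (b z0 z0)) (d (b z0 z0) (b z0 z0))) (b (d (b z0 z0) (b z0 z0)) (d (b z0 z0)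 (b z0 z0)))) (d (b (d (b z0 z0) (b z0 z0)) (d (b z0 z0) (b z0 z0))) (b (d (b z0 z0) (b z0 z0)) (d (b z0 z0) (b z0 z0)))))) (d (b (d (b z0 z0) (b (d z2 (b z0 z0)) (d z0 (b z0 z0)))) (d (b z0 z0) (b (d z0 (b z0 z0)) z2))) (b (d (b (d (b z0 z0) (b z0 z0)) (d (b z0 z0) (b z0 z0))) (b (d (b z0 z0) (b z0 z0)) (d (b z0 z0) (b z0 z0)))) (d (b (d (b z0 z0) (b z0 z0)) (d (b z0 z0) (b z0 z0))) (b (d (b z0 z0) (b z0 z0)) (d (b z0 z0) (b z0 z0))))))))) _ _ (by decide +kernel)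

theorem okI9 : CKI ⟨24576, 49152, 10240, 10752⟩ ⟨0, 0, 11349, 12074⟩ :=
  ckI_sound (d (a z0 (b (d (b z0 (d (a z0 (b z0 (d (a z0 (b z0 (d (a z0 (b z0 z2)) z0))) z0))) z0)) z0) (d (b (a z0 (d (b (d (a z0 (b (d (b z0 z0) (b z0 z2)) (d (a z0 (b z0 z0)) (a z0 (b z2 z2))))) (a z0 (b z0 (d (a z0 (b z0 (d z2 z0))) z0)))) (d (a z0 (b (d (a z0 (b z0 z0)) (a z0 (b z2 z2))) (d (a z0 (b z0 z0)) (a z0 (b z2 z0))))) (a z0 (b (d (a z0 (b (d z2 (b z0 z0)) (d z2 (a z0 (b z0 z0))))) z0) (d (a z0 (b z2 z2)) (a z0 (b (d (a z0 (b z2 z2)) z0) (d (a z0 (b z0 z0)) (a z0 (b z2 z2)))))))))) z0)) (a z0 (d (b (d (a z0 (b (d (a z0 (b z0 z0)) (a z0 (b z0 z0))) (d z2 (a z0 (b z0 z0))))) (a z0 (b (d (a z0 (b z2 z2)) (a z0 (b (d z2 (b z2 z2)) (d z2 (a z0 (b z2 z0)))))) (d (a z0 (b z2 z2)) (a z0 (b (d z2 (a z0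 (b z0 z0))) z2)))))) (a z0 (d (b (d z2 (a z0 (b z0 z0))) (a z0 (d z2 (b z0 z0)))) (b (d (a z0 (b z0 z0)) (a z0 (b z2 z2))) (a z0 (d (b z0 z0) (b z2 z2))))))) (b (d (a z0 (b (d (a z0 (b (d (b z2 z2) z0) (d (a z0 (b z2 z2)) (a z0 (b z2 z2))))) z0) (d (a z0 (b (d (a z0 (b z2 z2)) (a z0 (b z2 z2))) (d (a z0 (b z2 z0)) (a z0 (b z2 z2))))) (a z0 (b (d (a z0 (b (d z2 z0) z2)) z0) (d (a z0 (b z2 z2)) (a z0 (b z0 (d z2 z0))))))))) z0) (a z0 (d (b (d (a z0 (b (d (b z0 z0) (b z2 z2)) (d z2 (a z0 (b z2 z0))))) (a z0 (b (d (b z2 z2) (b (a z0 (d z2 (b z2 z2))) z2)) (d (a z0 (b z2 z2)) (a z0 (b z2 z2)))))) (a z0 (d (b (d z2 (a z0 (b z0 z0))) z2) (b (d (a z0 (b z2 z2)) (a z0 (b z2 z2))) (a z0 (d (b z0 z0) (b z2 z2))))))) (b (d (a z0 (b (d (b z0 (a z0 (d (b z2 z2) z0))) z0) (d (a z0 (b (d z2 (b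 z2 z2)) (d z2 (a z0 (b z2 z2))))) (a z0 (b z0 (d (a z0 (b z2 z2)) z0)))))) z0) (a z0 (d (b (d (a z0 (b z2 z2)) (a z0 (b (d (b z2 z2) (b z0 z2)) (d (a z0 (b z2 z2)) (a z0 (b z2 z2)))))) (a z0 (d (b z2 z2) (b (d z2 (a z0 (b z2 z2))) z2)))) (b (d (a z0 (b z0 (d (a z0 (b z0 z2)) z0))) z0) (a z0 (d (b (d (a z0 (b z2 z2)) (a z0 (b z0 z2))) (a z0 (d (b z2 z2) (b z2 z2)))) (b z0 (a z0 (d (b z0 z2) z0))))))))))))))) z0))) z0) _ _ (by decide +kernel)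

theorem okI10 : CKI ⟨24576, 49152, 10752, 11008⟩ ⟨0, 0, 11349, 11530⟩ :=
  ckI_sound (a z0 (b (d (b (d (b (a z0 (d z2 (b z0 z0))) z2) (b (a z0 (d (b z0 z0) (b z0 z0))) (a z0 (d (b z0 z0) (b z0 z0))))) (d (a z0 (b z2 z2)) (a z0 (b (d (b z0 z0) (b z0 z0)) (d z2 (a z0 (b z0 z0))))))) (b (d (b (a z0 (d (b z2 z2) (b (d (a z0 (b z0 z0)) (a z0 (b z2 z0))) (a z0 (d z2 (b z0 z0)))))) (a z0 (d (b z2 z2) (b z2 z2)))) (b (a z0 (d (b (d (a z0 (b z2 z2)) (a z0 (b z2 z2))) (a z0 (d (b z2 z2) (b z2 z2)))) (b (d (a z0 (b (d (b z2 z2) (b z2 z2)) (d z2 (a z0 (b z2 z2))))) (a z0 (b (d (b z2 z2) (b z0 z2)) (d (a z0 (b z2 z2)) (a z0 (b z2 z2)))))) (a z0 (d (b z2 z2) (b (d (a z0 (b z2 z2)) (a z0 (b z2 z2))) (a z0 (d (b z2 z2) (b z2 z2))))))))) (a z0 (d (b (a z0 (d (b z0 z0) (b z2 z2))) (a z0 (d (b z0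 z0) (b z2 z0)))) (b (a z0 (d (b z2 z2) (b (d z2 (a z0 (b z2 z2))) z2))) (a z0 (d (b z2 z2) (b z2 z2)))))))) (d (a z0 (b (d (b z0 z0) (b z2 z2)) (d (a z0 (b z0 z0)) (a z0 (b z2 z0))))) (a z0 (b (d (b (a z0 (d z2 (b z0 z0))) z2) (b (a z0 (d (b z2 z2) (b z2 z2))) (a z0 (d (b z0 z0) (b z2 z2))))) (d (a z0 (b z2 z2)) (a z0 (b (d (b z0 z0) (b z0 z0)) (d z2 (a z0 (b z0 z0))))))))))) (d (a z0 (b (d (b z0 z0) (b (d z2 (b z0 z0)) z2)) (d (b z0 z0) (b z2 z0)))) (a z0 (b (d (b (d (b z0 z0) (b z0 z0)) (d (a z0 (b z0 z0)) (a z0 (b z0 z0)))) (b (d (b z2 z0) (b z2 z2)) (d (a z0 (b z0 z0)) (a z0 (b z2 z0))))) (d (b (a z0 (d z2 (b z0 z0))) (a z0 (d z2 (b z0 z0)))) (b (a z0 (d (b z0 z0) (b z0 z0))) (a z0 (d (b z0 z0) (b z0 z0)))))))))) _ _ (by decide +kernel)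

theorem okI11 : CKI ⟨24576, 34949, 10752, 11008⟩ ⟨0, 0, 11530, 11711⟩ :=
  ckI_sound z0 _ _ (by decide +kernel)

theorem okI12 : CKI ⟨34949, 49152, 10752, 10880⟩ ⟨0, 0, 11530, 11711⟩ :=
  ckI_sound (d (b (d (b (a z0 (d (b z0 (a z0 (d (b (d (a z0 (b z2 z2)) z0) (a z0 (d (b z2 z2) (b z2 z2)))) z0))) z0)) (a z0 (d (b (a z0 (d (b (d (a z0 (b z2 z2)) (a z0 (b z2 z2))) (a z0 (d (b z2 z2) (b z2 z2)))) (b (d (a z0 (b z2 z2)) z0) (a z0 (d (b z2 z2) (b z2 z2)))))) (a z0 (d (b (a z0 (d z2 (b z2 z2))) z2) (b (a z0 (d (b z2 z2) (b z2 z2))) (a z0 (d (b z2 z2) (b z2 z2))))))) (b z0 (a z0 (d (b (a z0 (d (b z2 z2) z0)) (a z0 (d (b z2 z2) (b z2 z2)))) z0)))))) z0) (d (a z0 (b (d (b (a z0 (d (b z2 z2) (b (d z2 (a z0 (b z2 z2))) (a z0 (d z2 (b z2 z2)))))) (a z0 (d (b z2 z2) (b z2 z2)))) (b (a z0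 (d (b (d (a z0 (b z2 z2)) (a z0 (b z2 z2))) (a z0 (d (b z2 z2) (b z2 z2)))) (b (d (a z0 (b z2 z2)) z0) (a z0 (d (b z2 z2) (b (d z2 z0) z2)))))) (a z0 (d (b (a z0 (d (b z2 z2) (b z2 z2))) (a z0 (d z2 (b z2 z2)))) (b (a z0 (d (b z2 z2) (b z2 z2))) (a z0 (d (b z2 z2) (b z2 z2)))))))) (d (a z0 (b (d (b z2 z2) (b z2 z2)) (d (a z0 (b z0 z0)) (a z0 (b z2 z2))))) (a z0 (b (d (b z2 z2) (b (a z0 (d (b z2 z2) (b z2 z2))) (a z0 (d z2 (b z2 z2))))) (d (a z0 (b z2 z2)) (a z0 (b z2 z2)))))))) (a z0 (b (d (b z0 (a z0 (d (b (a z0 (d (b z0 z2) z0)) (a z0 (d (b z2 z2) (b (a z0 (d z2 z0)) z2)))) z0))) z0) (d (a z0 (b (d (b (a z0 (d (b z2 z2) (b z2 z2))) (a z0 (d (b z2 z2) (b z2 z2)))) (b (a z0 (d (b z0 z2) z0)) (a z0 (d (b z2 z2) (b z2 z2))))) (d (a z0 (b (d (b z2 z2) (b z2 z2)) (d z2 (a z0 (b z2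 z2))))) (a z0 (b (d (b z2 z2) (b z2 z2)) (d (a z0 (b z2 z2)) (a z0 (b z2 z2)))))))) (a z0 (b z0 (d (a z0 (b (d (b z0 z2) z0) (d (a z0 (b z2 z2)) (a z0 (b z2 z2))))) z0)))))))) z0) _ _ (by decide +kernel)

theorem okI13 : CKI ⟨34949, 49152, 10880, 11008⟩ ⟨0, 0, 11530, 11620⟩ :=
  ckI_sound (a z0 (b (d (b (d (b (a z0 (d (b z0 z0) (b z0 z0))) (a z0 (d z2 (b z0 z0)))) (b (a z0 (d (b z2 z2) (b z2 z2))) (a z0 (d (b z0 z0) (b z2 z2))))) (d (a z0 (b z2 z2)) (a z0 (b (d (b z0 z0) (b z0 z0)) (d z2 (a z0 (b z0 z0))))))) (b (d (b (a z0 (d (b z2 z2) (b (d (a z0 (b z2 z2)) (a z0 (b z2 z2))) (a z0 (d z2 (b z2 z2)))))) (a z0 (d (b z2 z2) (b z2 z2)))) (b (a z0 (d (b (d (a z0 (b z2 z2)) (a z0 (b z2 z2))) (a z0 (d (b z2 z2) (b z2 z2)))) (b (d (a z0 (b z0 z2)) z0) (a z0 (d (b z2 z2) (b z0 z2))))))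 (a z0 (d (b (a z0 (d z2 (b z2 z2))) z2) (b (a z0 (d (b z2 z2) (b z2 z2))) (a z0 (d (b z2 z2) (b z2 z2)))))))) (d (a z0 (b (d (b z2 z2) (b z2 z2)) (d (a z0 (b z0 z0)) (a z0 (b z2 z0))))) (a z0 (b (d (b z2 z2) (b (a z0 (d z2 (b z2 z2))) z2)) (d (a z0 (b z2 z2)) (a z0 (b z2 z2)))))))) (d (b (a z0 (d (b z2 z0) (b z2 z2))) (a z0 (d (b z0 z0) (b z2 z0)))) (b (a z0 (d (b (d (a z0 (b z0 z0)) (a z0 (b z0 z0))) (a z0 (d z2 (b z0 z0)))) (b (d (a z0 (b z2 z0)) (a z0 (b z2 z2))) (a z0 (d (b z0 z0) (b z0 z0)))))) (a z0 (d (b z2 z2) (b (a z0 (d z2 (b z0 z0))) z2))))))) _ _ (by decide +kernel)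

theorem okI14 : CKI ⟨34949, 49152, 10880, 11008⟩ ⟨0, 0, 11620, 11711⟩ :=
  ckI_sound (a z0 (b (d (b (d (b z0 (a z0 (d (b (a z0 (d (b z0 z2) z0)) (a z0 (d (b z2 z2) (b z0 z2)))) z0))) z0) (d (a z0 (b (d (b (a z0 (d (b z2 z2) (b z2 z2))) (a z0 (d (b z2 z2) (b z2 z2)))) (b (a z0 (d (b z0 z2) z0)) (a z0 (d (b z2 z2) (b z0 z2))))) (d (a z0 (b (d z2 (b z2 z2)) z2)) (a z0 (b (d (b z2 z2) (b z2 z2)) (d z2 (a z0 (b z2 z2)))))))) (a z0 (b z0 (d (a z0 (b (d (b z0 z2) z0) (d (a z0 (b z2 z2)) (a z0 (b z0 z2))))) z0))))) z0) (d (b (a z0 (d (b (d (a z0 (b z2 z2)) (a z0 (b z2 z2))) (a z0 (d (b z2 z2) (b z2 z2)))) (b (d (a z0 (b (d (b z2 z2) (b z2 z2)) z2)) (a z0 (b (d (b z0 z2) z0) (d (a z0 (b z2 z2)) (a z0 (b z0 z2)))))) (a z0 (d (b z2 z2) (b (d z2 (a z0 (b z2 z2))) z2)))))) (a z0 (d (b (a z0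 (d (b z0 z0) (b z2 z0))) (a z0 (d (b z0 z0) (b z0 z0)))) (b (a z0 (d (b z2 z2) (b z2 z2))) (a z0 (d (b z0 z0) (b z2 z2))))))) (b (a z0 (d (b z0 (a z0 (d (b (d (a z0 (b z0 z2)) z0) (a z0 (d z2 (b z0 z2)))) z0))) z0)) (a z0 (d (b (a z0 (d (b z2 z2) (b (d (a z0 (b z0 z2)) z0) z2))) (a z0 (d (b z2 z2) (b z2 z2)))) (b z0 (a z0 (d (b z0 z2) z0))))))))) _ _ (by decide +kernel)

end Vale.Agent.Lib.P154Q4
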