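import Vale.Agent.Lib.P154Q4.FormI

namespace Vale.Agent.Lib.P154Q4

set_option maxRecDepth 100000
set_option exponentiation.threshold 1000

open Tr

theorem okI15 : CKI ⟨24576, 49152, 11008, 11264⟩ ⟨0, 0, 11349, 11711⟩ :=
  ckI_sound (d (b (d (a z0 (b (d (b z0 z0) (b z0 z0)) (d (a z0 (b z0 z0)) (a z0 (b z0 z0))))) (a z0 (b (d (b z2 z2) (b (a z0 (d (b z0 z0) (b z0 z0))) (a z0 (d z2 (b z0 z0))))) (d (a z0 (b z0 z0)) (a z0 (b z2 z0)))))) (d (a z0 (b (d (b z0 z0) (b z0 z0)) (d (a z0 (b z0 z0)) (a z0 (b z0 z0))))) (a z0 (b (d (b z0 z0) (b z0 z0)) (d (a z0 (b z0 z0)) (a z0 (b z0 z0))))))) (b (d (a z0 (b (d (b (a z0 (d (b z0 z0) (b z0 z0))) (a z0 (d (b z0 z0) (b z0 z0)))) (b (a z0 (d (b z0 z0) (b z2 z2))) (a z0 (d (b z0 z0) (b z0 z0))))) (d (a z0 (b (d (b z0 z0) (b z0 z0)) z2)) (a z0 (b (d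 (b z0 z0) (b z0 z0)) (d (a z0 (b z0 z0)) (a z0 (b z0 z0)))))))) (a z0 (b (d (b (a z0 (d (b z2 z2) (b (d (a z0 (b z0 z0)) (a z0 (b z0 z0))) (a z0 (d z2 (b z0 z0)))))) (a z0 (d (b z2 z0) (b z2 z2)))) (b (a z0 (d (b (d (a z0 (b z2 z0)) (a z0 (b z2 z2))) (a z0 (d (b z0 z0) (b z0 z0)))) (b (d (a z0 (b z2 z2)) (a z0 (b z2 z2))) (a z0 (d (b z2 z0) (b z2 z2)))))) (a z0 (d (b (a z0 (d z2 (b z0 z0))) z2) (b (a z0 (d (b z0 z0) (b z0 z0))) (a z0 (d z2 (b z0 z0)))))))) (d (a z0 (b (d (b z0 z0) (b z0 z0)) (d (a z0 (b z0 z0)) (a z0 (b z0 z0))))) (a z0 (b (d (b z2 z0) (b z2 z2)) (d (a z0 (b z0 z0)) (a z0 (b z0 z0))))))))) (d (a z0 (b (d (b z2 z0) (b z2 z2)) (d (a z0 (b z0 z0)) (a z0 (b z0 z0))))) (a z0 (b (d (b (d (a z0 (b z0 z0)) (a z0 (b z0 z0))) z2) (b (d (a z0 (b z0 z0)) (a z0 (b z0 z0))) (a z0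 (d (b z0 z0) (b z0 z0))))) (d (a z0 (b z2 z0)) (a z0 (b z2 z0)))))))) _ _ (by decide +kernel)

theorem okI16 : CKI ⟨24576, 49152, 10752, 11264⟩ ⟨0, 0, 11711, 12074⟩ :=
  ckI_sound (b z0 (d (b (d (a z0 (b (d (b (a z0 (d (b z0 (a z0 (d (b z0 z2) z0))) z0)) (a z0 (d (b (a z0 (d (b z2 z0) (b z2 z2))) (a z0 (d (b z0 z0) (b z0 z0)))) (b z0 (a z0 (d (b z2 z0) z0)))))) z0) (d (a z0 (b (d (b (a z0 (d z2 (b z0 z0))) z2) (b (a z0 (d (b z0 z0) (b z0 z0))) z2)) (d (a z0 (b z2 z0)) (a z0 (b z2 z0))))) (a z0 (b (d (b z0 (a z0 (d (b z0 z0) z0))) z0) (d (a z0 (b z2 z2)) (a z0 (b z0 z2)))))))) z0) (d (a z0 (b (d (b (d (a z0 (b z0 z0)) (a z0 (b z0 z0))) (a z0 (d (b z0 z0) (b z0 z0)))) (b (d (a z0 (b z0 z0)) (a z0 (b z2 z0))) (a z0 (d (b z0 z0) (b z0 z0))))) (d (a z0 (b (d (b z0 z0) (b z0 z0)) z2)) (a z0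 (b (d (b z0 z0) (b z0 z0)) z2))))) (a z0 (b (d (b (d (a z0 (b z0 z0)) z0) (a z0 (d (b z0 z0) (b z0 z0)))) z0) (d (a z0 (b (d (b z0 z0) (b z0 z0)) (d (a z0 (b z0 z0)) (a z0 (b z0 z0))))) (a z0 (b (d (b z0 z0) z0) (d (a z0 (b z0 z0)) (a z0 (b z0 z0)))))))))) z0)) _ _ (by decide +kernel)

theorem okI17 : CKI ⟨24576, 49152, 10240, 11264⟩ ⟨0, 0, 12074, 12800⟩ :=
  ckI_sound z0 _ _ (by decide +kernel)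

theorem okI18 : CKI ⟨24576, 49152, 11264, 11776⟩ ⟨0, 0, 11349, 11711⟩ :=
  ckI_sound (b (d (b (d (a z0 (b (d (b z0 z0) (b z0 z0)) (d (a z0 (b z0 z0)) (a z0 (b z0 z0))))) (a z0 (b (d (b z0 z0) (b z0 z0)) (d (a z0 (b z0 z0)) (a z0 (b z0 z0)))))) (d (b (d (a z0 (b z0 z0)) (a z0 (b z0 z0))) (d (a z0 (b z0 z0)) (a z0 (b z0 z0)))) (b (d (a z0 (b z0 z0)) (a z0 (b z0 z0))) (d (a z0 (b z0 z0)) (a z0 (b z0 z0)))))) (b (d (a z0 (b (d (b z0 z0) (b z0 z0)) (d (a z0 (b z0 z0)) (a z0 (b z0 z0))))) (a z0 (b (d (b z0 z0) (b z0 z0)) (d (a z0 (b z0 z0)) (a z0 (b z0 z0)))))) (d (b (d (a z0 (b z0 z0)) (a z0 (b z0 z0))) (d (a z0 (b z0 z0)) (a z0 (b z0 z0)))) (b (d (a z0 (b z0 z0)) (a z0 (b z0 z0))) (d (a z0 (b z0 z0)) (a z0 (b z0 z0))))))) (d (b (d (b (d (a z0 (b z0 z0)) (a z0 (b z0 z0))) (d (a z0 (b z0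 z0)) (a z0 (b z0 z0)))) (b (d (a z0 (b z0 z0)) (a z0 (b z0 z0))) (d (a z0 (b z0 z0)) (a z0 (b z0 z0))))) (d (b (d (b z0 z0) (b z0 z0)) (d (b z0 z0) (b z0 z0))) (b (d (b z0 z0) (b z0 z0)) (d (b z0 z0) (b z0 z0))))) (b (d (b (d (a z0 (b z0 z0)) (a z0 (b z0 z0))) (d (a z0 (b z0 z0)) (a z0 (b z0 z0)))) (b (d (a z0 (b z0 z0)) (a z0 (b z0 z0))) (d (a z0 (b z0 z0)) (a z0 (b z0 z0))))) (d (b (d (b z0 z0) (b z0 z0)) (d (b z0 z0) (b z0 z0))) (b (d (b z0 z0) (b z0 z0)) z2))))) _ _ (by decide +kernel)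

theorem okI19 : CKI ⟨24576, 49152, 11264, 11776⟩ ⟨0, 0, 11711, 12074⟩ :=
  ckI_sound (b (d (b (d (a z0 (b (d (b z0 z0) (b z0 z0)) (d (a z0 (b z0 z0)) (a z0 (b z0 z0))))) (a z0 (b (d (b z2 z0) (b z2 z0)) (d (a z0 (b z0 z0)) (a z0 (b z0 z0)))))) (d (b (d (a z0 (b z0 z0)) (a z0 (b z0 z0))) (d (a z0 (b z0 z0)) (a z0 (b z0 z0)))) (b (d (a z0 (b z0 z0)) (a z0 (b z0 z0))) (d (a z0 (b z0 z0)) (a z0 (b z0 z0)))))) (b (d (a z0 (b (d (b (d z2 z0) z0) z0) (d (a z0 (b z0 z0)) (a z0 (b z0 z0))))) z0) (d (b (d (a z0 (b z0 z0)) (a z0 (b z0 z0))) (d (a z0 (b z0 z0)) (a z0 (b z0 z0)))) (b (d (a z0 (b z0 z0)) (a z0 (b z0 z0))) (d (a z0 (b z0 z0)) (a z0 (b z0 z0))))))) (d (b (d (b (d (a z0 (b z0 z0)) (a z0 (b z0 z0))) (d (a z0 (b z0 z0)) (a z0 (b z0 z0)))) (b (d (a z0 (b z0 z0)) (a z0 (b z0 z0))) (d (a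 z0 (b z0 z0)) (a z0 (b z0 z0))))) (d (b z2 z2) (b z2 z2))) (b (d (b (d (a z0 (b z0 z0)) (a z0 (b z0 z0))) (d (a z0 (b z0 z0)) (a z0 (b z0 z0)))) (b (d (a z0 (b z0 z0)) (a z0 (b z0 z0))) (d (a z0 (b z0 z0)) z2))) (d (b z2 z0) (b z0 z0))))) _ _ (by decide +kernel)

theorem okI20 : CKI ⟨24576, 49152, 11776, 12288⟩ ⟨0, 0, 11349, 11711⟩ :=
  ckI_sound (b (d (b (d (b (d (b z0 z0) (b z0 z0)) (d (b z0 z0) (b z0 z0))) (b (d (b z0 z0) (b z0 z0)) (d (b z0 z0) (b z0 z0)))) (d (b (d (b z0 z0) (b z0 z0)) (d (b z0 z0) (b z0 z0))) (b (d (b z0 z0) (b z0 z0)) (d (b z0 z0) (b z0 z0))))) (b (d (b (d (b z0 z0) (b z0 z0)) (d (b z0 z0) (b z0 z0))) (b (d (b z0 z0) z2) (d (b z0 z0) (b z0 z0)))) (d (b (d (b z0 z0) (b z0 z0)) (d (b z0 z0) (b z0 z0))) (b (d (b z0 z0) (b z0 z0)) (d (b z0 z0) (b z0 z0)))))) (d (b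 (d (b (d (b z0 z0) (b z0 z0)) (d (b z0 z0) (b z0 z0))) (b (d (b z0 z0) (b z0 z0)) (d (b z0 z0) (b z0 z0)))) (d (b (d (b z0 z0) (b z0 z0)) (d (b z0 z0) (b z0 z0))) (b (d (b z0 z0) (b z0 z0)) (d (b z0 (d z0 (b z0 z0))) (b z0 (d (b z0 z0) (b z0 z0))))))) (b (d (b (d (b z0 z0) (b z0 z0)) (d (b z0 z0) (b z0 z0))) (b (d (b z0 z0) (b z0 z0)) (d (b z0 z0) (b z0 z0)))) (d (b (d (b z0 z0) (b z0 z0)) (d (b (d z2 (b z0 z0)) (d (b z0 z0) (b z0 z0))) (b (d (b z0 z0) (b z0 z0)) (d (b z0 z0) (b z0 z0))))) (b (d (b z0 z0) (b z0 z2)) (d (b (d (b z0 z0) (b z0 z0)) (d (b z0 z0) (b z0 z0))) (b (d (b z0 z0) (b z0 z0)) (d (b z0 z0) (b z0 z0))))))))) _ _ (by decide +kernel)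

theorem okI21 : CKI ⟨24576, 49152, 11776, 12288⟩ ⟨0, 0, 11711, 12074⟩ :=
  ckI_sound (b (d (b (d (b z2 (d (b z0 z0) (b z0 z0))) (b z2 z2)) (d (b (d (b z0 z0) (b z0 z0)) (d (b z0 z0) (b z0 z0))) (b (d (b z0 z0) (b z0 z0)) (d (b z0 z0) (b z0 z0))))) (b (d (b z0 z2) (b z0 z0)) (d (b (d (b z0 z0) (b z0 z0)) (d (b z0 z0) (b z0 z0))) (b (d (b z0 z0) (b z0 z0)) (d (b z0 z0) (b z0 z0)))))) (d (b (d (b (d (b z0 z0) (b z0 z0)) (d (b z0 z0) (b z0 z0))) (b (d (b z0 z0) (b z0 z0)) (d (b z0 z0) (b z0 z0)))) (d (b (d (b z0 (d (b z0 z0) (b z0 z0))) (b z0 (d (b z0 z0) (b z0 z0)))) (d (b (d (b z0 z0) (b z0 z0)) (d (b z0 z0) (b z0 z0))) (b (d (b z0 z0) (b z0 z0)) (d (b z0 z0) (b z0 z2))))) (b (d (b z0 (d (b z0 z0) (b z0 z0))) (b z0 (d (b z0 z0) (b z0 z0)))) (d (b (d (b z0 z0) (b z0 z0)) (d (b z0 (d (b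 z0 z0) (b z0 z0))) (b z0 (d (b z0 z0) (b z0 z0))))) (b (d (b z0 z0) (b z0 z0)) (d (b z0 (d (b z0 z0) (b z0 z0))) (b z0 (d (b z0 z0) (b z0 z0))))))))) (b (d (b (d (b z0 z0) (b z0 z0)) (d (b z0 z0) (b z0 z0))) (b (d (b z0 z0) (b z0 z0)) (d (b z0 z0) (b z0 z0)))) (d (b (d (b z0 (d (b z0 z0) (b z0 z0))) (b z0 (d (b z0 z0) (b z0 z0)))) (d (b (d (b z0 z0) (b z0 z0)) (d (b z0 (d (b z0 z0) (b z0 z0))) (b z0 (d (b z0 z0) (b z0 z0))))) (b (d (b z0 z0) (b z0 z0)) (d (b z0 (d (b z0 z0) (b z0 z0))) (b (d z2 (b z0 z0)) (d (b z0 z0) (b z0 z0))))))) (b (d (b z0 (d (b z0 z0) (b z0 z0))) (b z0 (d (b z0 z0) (b z0 z0)))) (d (b (d (b z0 z0) (b z0 z0)) (d (b (d (b z0 z0) (b z0 z0)) (d (b z0 z0) (b z0 z0))) (b (d (b z0 z0) (b z0 z0)) (d (b z0 z0) (b z0 z0))))) (b (d (b z0 z0) (b z0 z0)) (d (b (d (b z0 z0)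 (b z0 z0)) (d (b z0 z0) (b z0 z0))) (b (d (b z0 z0) (b z0 z0)) (d (b z0 z0) (b z0 z0))))))))))) _ _ (by decide +kernel)

theorem okI22 : CKI ⟨24576, 49152, 11264, 11776⟩ ⟨0, 0, 12074, 12800⟩ :=
  ckI_sound (d (b (d (b z0 (d (b z0 (d (a z0 (b z0 z0)) z0)) z0)) z0) (d (b (d (b (d (a z0 (b z0 z0)) (a z0 (b z0 z0))) z2) (b z0 z2)) (d (b z0 z0) (b z0 z0))) (b z0 (d (b z0 z0) z0)))) z0) _ _ (by decide +kernel)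

theorem okI23 : CKI ⟨24576, 49152, 11776, 12032⟩ ⟨0, 0, 12074, 12437⟩ :=
  ckI_sound (d (b (d (b z0 z0) (b z0 z0)) (d (b z2 (d (b z0 z0) (b z0 z0))) (b z2 (d (b z0 z0) (b z0 z0))))) (b (d (b z0 z0) (b z0 z0)) (d (b z0 (d (b z0 z0) (b z0 z0))) (b z0 (d (b z0 z0) (b z0 z0)))))) _ _ (by decide +kernel)

theorem okI24 : CKI ⟨24576, 49152, 12032, 12288⟩ ⟨0, 0, 12074, 12437⟩ :=
  ckI_sound (d (b (d (b (d (b z0 z0) (b z0 z0)) (d (b z0 z0) (b z0 z0))) (b (d (b z0 z0) (b z0 z0)) (d (b z0 z0) (b z0 z0)))) (d (b (d (b z0 (d (b z0 z0) (b z0 z0))) (b z0 (d (b z0 z0) (b z0 z0)))) (d (b (d (b z0 z0) (b z0 z0)) (d (b (d (b z0 z0) (b z0 z0)) (d (b z0 z0) (b z0 z0))) (b (d (b z0 z0) (b z0 z0)) (d (b z0 z0) (b z0 z0))))) (b (d (b z0 z0) (b z0 z0)) (d (b (d (b z0 z0) (b z0 z0)) (d (b z0 z0) (b z0 z0)))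 (b (d (b z0 z0) (b z0 z0)) (d (b z0 z0) (b z0 z0))))))) (b (d (b z0 (d (b z0 z0) (b z0 z0))) (b z0 (d (b z0 z0) (b z0 z0)))) (d (b (d (b z0 z0) (b z0 z0)) (d (b (d (b z0 z0) (b z0 z0)) (d (b z0 z0) (b z0 z0))) (b (d (b z0 z0) (b z0 z0)) (d (b z0 z0) (b z0 z0))))) (b (d (b z0 z0) (b z0 z0)) (d (b (d (b z0 z0) (b z0 z0)) (d (b z0 z0) (b z0 z0))) (b (d (b z0 z0) (b z0 z0)) (d (b z0 z0) (b z0 z2))))))))) (b (d (b (d (b z0 z0) (b z0 z0)) (d (b z0 z0) (b z0 z0))) (b (d (b z0 z0) (b z0 z0)) (d (b z0 z0) (b z0 z0)))) (d (b (d (b z0 (d (b z0 z0) (b z0 z0))) (b z0 (d (b z0 z0) (b z0 z0)))) (d (b (d (b z0 z0) (b z0 z0)) (d (b (d (b z0 z0) (b z0 z0)) (d (b z0 (d z2 (b z0 z0))) (b z0 (d (b z0 z0) (b z0 z0))))) (b (d (b z0 z0) (b z0 z0)) (d (b z0 (d (b z0 z0) (b z0 z0))) (b z0 (d (b z0 z0) (b z0 z0)))))))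 (b (d (b z0 z0) (b z0 z0)) (d (b (d (b z0 z0) (b z0 z0)) (d (b z0 (d (b z0 z0) (b z0 z0))) (b z0 (d (b z0 z0) (b z0 z0))))) (b (d (b z0 z0) (b z0 z0)) (d (b z0 (d (b z0 z0) (b z0 z0))) (b z0 (d (b z0 z0) (b z0 z0))))))))) (b (d (b z0 (d (b z0 z0) (b z0 z0))) (b z0 (d (b z0 z0) (b z0 z0)))) (d (b (d (b z0 z0) (b z0 z0)) (d (b (d (b z0 z0) (b z0 z0)) (d (b z0 (d (b z0 z0) (b z0 z0))) (b z0 (d (b z0 z0) (b z0 z0))))) (b (d (b z0 z0) (b z0 z0)) (d (b z0 (d (b z0 z0) (b z0 z0))) (b z0 (d (b z0 z0) (b z0 z0))))))) (b (d (b z0 z0) (b z0 z0)) (d (b (d (b z0 z0) (b z0 z0)) (d (b z0 (d (b z0 z0) (b z0 z0))) (b z0 (d (b z0 z0) (b z0 z0))))) (b (d (b z0 z0) (b z0 z0)) (d (b z0 (d (b z0 z0) (b z0 z0))) (b z0 (d (b z0 z0) (b z0 z0)))))))))))) _ _ (by decide +kernel)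

theorem okI25 : CKI ⟨24576, 49152, 11776, 12032⟩ ⟨0, 0, 12437, 12800⟩ :=
  ckI_sound (d (b z0 (d (b z0 (d (b z0 z0) (b z0 z0))) (b z0 (d (b z0 z0) z0)))) z0) _ _ (by decide +kernel)

theorem okI26 : CKI ⟨24576, 49152, 12032, 12288⟩ ⟨0, 0, 12437, 12618⟩ :=
  ckI_sound (b (d (b (d (b z0 z0) (b z0 z0)) (d (b z0 z0) (b z0 z0))) (b (d (b z0 z0) (b z0 z0)) (d (b z0 z0) (b z0 z0)))) (d (b (d (b z0 (d (b z0 z0) (b z0 z0))) (b z0 (d (b z0 z0) (b z0 z0)))) (d (b (d (b z0 z0) (b z0 z0)) (d (b (d (b z0 z0) (b z0 z0)) (d (b z0 (d (b z0 z0) (b z0 z0))) (b z0 (d (b z0 z0) (b z0 z0))))) (b (d (b z0 z0) (b z0 z0)) (d (b z0 (d (b z0 z0) (b z0 z0))) (b z0 (d (b z0 z0) (b z0 z0))))))) (b (d (b z0 z0) (b z0 z0)) (d (b (d (b z0 z0) (b z0 z0)) (d (b z0 (d (b z0 z0) (b z0 z0))) (b z0 (d (b z0 z0) (b z0 z0)))))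 (b (d (b z0 z0) (b z0 z0)) (d (b z0 (d (b z0 z0) (b z0 z0))) (b z0 (d (b z0 z0) (b z0 z0))))))))) (b (d (b z0 (d (b z0 z0) (b z0 z0))) (b z0 (d (b z0 z0) (b z0 z0)))) (d (b (d (b z0 z0) (b z0 z0)) (d (b (d (b z0 z0) (b z0 z0)) (d (b z0 (d (b z0 z0) (b z0 z0))) (b z0 (d (b z0 z0) (b z0 z0))))) (b (d (b z0 z0) (b z0 z0)) (d (b z0 (d (b z0 z0) (b z0 z0))) (b z0 (d (b z0 z0) (b z0 z0))))))) (b (d (b z0 z0) (b z0 z0)) (d (b (d (b z0 z0) (b z0 z0)) (d (b z0 (d (b z0 z0) (b z0 z0))) (b z0 (d (b z0 z0) (b z0 z0))))) (b (d (b z0 z0) (b z0 z0)) (d (b z0 (d (b z0 z0) (b z0 z0))) (b z0 (d (b z0 z0) (b z0 z0))))))))))) _ _ (by decide +kernel)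

theorem okI27 : CKI ⟨24576, 49152, 12032, 12288⟩ ⟨0, 0, 12618, 12800⟩ :=
  ckI_sound (b (d (b z0 (d (b z0 z0) (b z0 z0))) z0) (d (b (d (b z0 (d (b z0 z0) (b z0 z0))) (b z0 (d (b z0 z0) (b z0 z0)))) (d (b (d (b z0 z0) (b z0 z0)) (d (b (d (b z0 z0) (b z0 z0)) (d (b z0 (d (b z0 z0) (b z0 z0))) (b z0 (d (b z0 z0) (b z0 z0))))) (b (d (b z0 z0) (b z0 z0)) (d (b z0 (d (b z0 z0) (b z0 z0))) (b z0 (d (b z0 z0) (b z0 z0))))))) (b (d (b z0 z0) (b z0 z0)) (d (b (d (b z0 z0) (b z0 z0)) (d (b z0 (d (b z0 z0) (b z0 z0))) (b z0 (d (b z0 z0) (b z0 z0))))) (b (d (b z0 z0) (b z0 z0)) (d (b z0 (d (b z0 z0) (b z0 z0))) (b z0 (d (b z0 z0) (b z0 z0))))))))) (b (d (b z0 (d (b z0 z0) (b z0 z0))) z0) (d (b (d (b z0 z0) (b z0 z0)) (d (b (d (b z0 z0) (b z0 z0)) (d (b z0 (d (b z0 z0) (b z0 z0))) (b z0 (d (b z0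 z0) (b z0 z0))))) (b (d (b z0 z0) (b z0 z0)) (d (b z0 (d (b z0 z0) (b z0 z0))) (b z0 (d (b z0 z0) (b z0 z0))))))) (b (d (b z0 z0) z0) (d (b (d (b z0 z0) (b z0 z0)) (d (b z0 (d (b z0 z0) (b z0 z0))) (b z0 (d (b z0 z0) (b z0 z0))))) (b (d (b z0 z0) z0) (d (b z0 (d (b z0 z0) (b z0 z0))) (b z0 (d (b z0 z0) (b z0 z0))))))))))) _ _ (by decide +kernel)

end Vale.Agent.Lib.P154Q4
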