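import Vale.Agent.Lib.P154Q4.Leaf

namespace Vale.Agent.Lib.P154Q4

set_option maxRecDepth 100000
set_option exponentiation.threshold 1000

/-- positive part of the contraction -/
def ctPA (v : V) : V :=
  ⟨Nat.add (Nat.mul 308144839680000 v.a0) (Nat.add (Nat.mul 229967379210240 v.a1) (Nat.add (Nat.mul 39437892074880 v.a2) (Nat.mul 1035539251200 v.a7))),
   Nat.add (Nat.mul 206426120232960 v.a0) (Nat.add (Nat.mul 150903957381120 v.a1) (Nat.add (Nat.mul 22660017929856 v.a2) (Nat.mul 621323550720 v.a7))),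
   Nat.add (Nat.mul 66758824623240 v.a0) (Nat.add (Nat.mul 35220189420216 v.a1) (Nat.add (Nat.mul 177689774968 v.a2) (Nat.add (Nat.mul 4756388967168 v.a6) (Nat.add (Nat.mul 194792741792 v.a7) (Nat.mul 613300402080 v.a8))))),
   Nat.add (Nat.mul 218613841920 v.a3) (Nat.add (Nat.mul 989515284480 v.a4) (Nat.mul 139797798912 v.a5)),
   Nat.add (Nat.mul 1270756568528 v.a2) (Nat.add (Nat.mul 572542940160 v.a3) (Nat.add (Nat.mul 5750916001792 v.a4) (Nat.add (Nat.mul 795139100352 v.a5) (Nat.mul 4356455360 v.a9)))),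
   Nat.add (Nat.mul 70141603968 v.a3) (Nat.add (Nat.mul 839967356160 v.a4) (Nat.add (Nat.mul 707790362400 v.a6) (Nat.add (Nat.mul 189425628 v.a7) (Nat.mul 167701815900 v.a8)))),
   Nat.add (Nat.mul 4668858644736 v.a2) (Nat.add (Nat.mul 690952528800 v.a5) (Nat.mul 86394122400 v.a9)),
   Nat.add (Nat.mul 519567436800 v.a0) (Nat.add (Nat.mul 311740462080 v.a1) (Nat.add (Nat.mul 111950212064 v.a2) (Nat.mul 3760115420 v.a9))),
   Nat.add (Nat.mul 680849828640 v.a2) (Nat.add (Nat.mul 160756209540 v.a5) (Nat.mul 19679218020 v.a9)),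
   Nat.add (Nat.mul 17265461120 v.a4) (Nat.add (Nat.mul 82465294560 v.a6) (Nat.add (Nat.mul 3549642500 v.a7) (Nat.mul 19679218020 v.a8)))⟩

/-- negative part of the contraction -/
def ctNA (v : V) : V :=
  ⟨Nat.add (Nat.mul 8408003420160 v.a3) (Nat.add (Nat.mul 39763353600000 v.a4) (Nat.mul 5591911956480 v.a5)),
   Nat.add (Nat.mul 5583282462720 v.a3) (Nat.add (Nat.mul 23565624606720 v.a4) (Nat.mul 3355147173888 v.a5)),
   Nat.add (Nat.mul 1533352727709 v.a3) (Nat.add (Nat.mul 437031517576 v.a4) (Nat.add (Nat.mul 880572836448 v.a5) (Nat.mul 136934349920 v.a9))),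
   Nat.add (Nat.mul 8040171248640 v.a0) (Nat.add (Nat.mul 5951114634240 v.a1) (Nat.add (Nat.mul 945690265584 v.a2) (Nat.mul 25888481280 v.a7))),
   Nat.add (Nat.mul 25083900840960 v.a0) (Nat.add (Nat.mul 11558847329280 v.a1) (Nat.add (Nat.mul 523453816320 v.a6) (Nat.add (Nat.mul 131831590208 v.a7) (Nat.mul 123680255040 v.a8)))),
   Nat.add (Nat.mul 2805664158720 v.a0) (Nat.add (Nat.mul 1683398495232 v.a1) (Nat.add (Nat.mul 468115828128 v.a2) (Nat.add (Nat.mul 37142456868 v.a5) (Nat.mul 24730568100 v.a9)))),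
   Nat.add (Nat.mul 759209899008 v.a4) (Nat.add (Nat.mul 2237796193536 v.a6) (Nat.add (Nat.mul 112516818528 v.a7) (Nat.mul 535803919200 v.a8))),
   Nat.add (Nat.mul 12989185920 v.a3) (Nat.add (Nat.mul 130993000064 v.a4) (Nat.add (Nat.mul 1494357732 v.a5) (Nat.add (Nat.mul 113639340768 v.a6) (Nat.add (Nat.mul 590994596 v.a7) (Nat.mul 18957596580 v.a8))))),
   Nat.add (Nat.mul 196281031680 v.a4) (Nat.add (Nat.mul 517282302240 v.a6) (Nat.add (Nat.mul 19168069500 v.a7) (Nat.mul 143888308380 v.a8))),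
   Nat.add (Nat.mul 132444260960 v.a2) (Nat.add (Nat.mul 23257257660 v.a5) (Nat.mul 3038493980 v.a9))⟩

/-- the form over the reals -/
def bRA (x : VR) : VR :=
  ⟨(308144839680000 : ℝ) * x.a0 + (229967379210240 : ℝ) * x.a1 + (39437892074880 : ℝ) * x.a2 + (-8408003420160 : ℝ) * x.a3 + (-39763353600000 : ℝ) * x.a4 + (-5591911956480 : ℝ) * x.a5 + (1035539251200 : ℝ) * x.a7,
   (206426120232960 : ℝ) * x.a0 + (150903957381120 : ℝ) * x.a1 + (22660017929856 : ℝ) * x.a2 + (-5583282462720 : ℝ) * x.a3 + (-23565624606720 : ℝ) * x.a4 + (-3355147173888 : ℝ) * x.a5 + (621323550720 : ℝ) * x.a7,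
   (66758824623240 : ℝ) * x.a0 + (35220189420216 : ℝ) * x.a1 + (177689774968 : ℝ) * x.a2 + (-1533352727709 : ℝ) * x.a3 + (-437031517576 : ℝ) * x.a4 + (-880572836448 : ℝ) * x.a5 + (4756388967168 : ℝ) * x.a6 + (194792741792 : ℝ) * x.a7 + (613300402080 : ℝ) * x.a8 + (-136934349920 : ℝ) * x.a9,
   (-8040171248640 : ℝ) * x.a0 + (-5951114634240 : ℝ) * x.a1 + (-945690265584 : ℝ) * x.a2 + (218613841920 : ℝ) * x.a3 + (989515284480 : ℝ) * x.a4 + (139797798912 : ℝ) * x.a5 + (-25888481280 : ℝ) * x.a7,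
   (-25083900840960 : ℝ) * x.a0 + (-11558847329280 : ℝ) * x.a1 + (1270756568528 : ℝ) * x.a2 + (572542940160 : ℝ) * x.a3 + (5750916001792 : ℝ) * x.a4 + (795139100352 : ℝ) * x.a5 + (-523453816320 : ℝ) * x.a6 + (-131831590208 : ℝ) * x.a7 + (-123680255040 : ℝ) * x.a8 + (4356455360 : ℝ) * x.a9,
   (-2805664158720 : ℝ) * x.a0 + (-1683398495232 : ℝ) * x.a1 + (-468115828128 : ℝ) * x.a2 + (70141603968 : ℝ) * x.a3 + (839967356160 : ℝ) * x.a4 + (-37142456868 : ℝ) * x.a5 + (707790362400 : ℝ) * x.a6 + (189425628 : ℝ) * x.a7 + (167701815900 : ℝ) * x.a8 + (-24730568100 : ℝ) * x.a9,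
   (4668858644736 : ℝ) * x.a2 + (-759209899008 : ℝ) * x.a4 + (690952528800 : ℝ) * x.a5 + (-2237796193536 : ℝ) * x.a6 + (-112516818528 : ℝ) * x.a7 + (-535803919200 : ℝ) * x.a8 + (86394122400 : ℝ) * x.a9,
   (519567436800 : ℝ) * x.a0 + (311740462080 : ℝ) * x.a1 + (111950212064 : ℝ) * x.a2 + (-12989185920 : ℝ) * x.a3 + (-130993000064 : ℝ) * x.a4 + (-1494357732 : ℝ) * x.a5 + (-113639340768 : ℝ) * x.a6 + (-590994596 : ℝ) * x.a7 + (-18957596580 : ℝ) * x.a8 + (3760115420 : ℝ) * x.a9,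
   (680849828640 : ℝ) * x.a2 + (-196281031680 : ℝ) * x.a4 + (160756209540 : ℝ) * x.a5 + (-517282302240 : ℝ) * x.a6 + (-19168069500 : ℝ) * x.a7 + (-143888308380 : ℝ) * x.a8 + (19679218020 : ℝ) * x.a9,
   (-132444260960 : ℝ) * x.a2 + (17265461120 : ℝ) * x.a4 + (-23257257660 : ℝ) * x.a5 + (82465294560 : ℝ) * x.a6 + (3549642500 : ℝ) * x.a7 + (19679218020 : ℝ) * x.a8 + (-3038493980 : ℝ) * x.a9⟩

/-- the transposed form over the reals -/
def bTA (x : VR) : VR :=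
  ⟨(308144839680000 : ℝ) * x.a0 + (206426120232960 : ℝ) * x.a1 + (66758824623240 : ℝ) * x.a2 + (-8040171248640 : ℝ) * x.a3 + (-25083900840960 : ℝ) * x.a4 + (-2805664158720 : ℝ) * x.a5 + (519567436800 : ℝ) * x.a7,
   (229967379210240 : ℝ) * x.a0 + (150903957381120 : ℝ) * x.a1 + (35220189420216 : ℝ) * x.a2 + (-5951114634240 : ℝ) * x.a3 + (-11558847329280 : ℝ) * x.a4 + (-1683398495232 : ℝ) * x.a5 + (311740462080 : ℝ) * x.a7,
   (39437892074880 : ℝ) * x.a0 + (22660017929856 : ℝ) * x.a1 + (177689774968 : ℝ) * x.a2 + (-945690265584 : ℝ) * x.a3 + (1270756568528 : ℝ) * x.a4 + (-468115828128 : ℝ) * x.a5 + (4668858644736 : ℝ) * x.a6 + (111950212064 : ℝ) * x.a7 + (680849828640 : ℝ) * x.a8 + (-132444260960 : ℝ) * x.a9,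
   (-8408003420160 : ℝ) * x.a0 + (-5583282462720 : ℝ) * x.a1 + (-1533352727709 : ℝ) * x.a2 + (218613841920 : ℝ) * x.a3 + (572542940160 : ℝ) * x.a4 + (70141603968 : ℝ) * x.a5 + (-12989185920 : ℝ) * x.a7,
   (-39763353600000 : ℝ) * x.a0 + (-23565624606720 : ℝ) * x.a1 + (-437031517576 : ℝ) * x.a2 + (989515284480 : ℝ) * x.a3 + (5750916001792 : ℝ) * x.a4 + (839967356160 : ℝ) * x.a5 + (-759209899008 : ℝ) * x.a6 + (-130993000064 : ℝ) * x.a7 + (-196281031680 : ℝ) * x.a8 + (17265461120 : ℝ) * x.a9,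
   (-5591911956480 : ℝ) * x.a0 + (-3355147173888 : ℝ) * x.a1 + (-880572836448 : ℝ) * x.a2 + (139797798912 : ℝ) * x.a3 + (795139100352 : ℝ) * x.a4 + (-37142456868 : ℝ) * x.a5 + (690952528800 : ℝ) * x.a6 + (-1494357732 : ℝ) * x.a7 + (160756209540 : ℝ) * x.a8 + (-23257257660 : ℝ) * x.a9,
   (4756388967168 : ℝ) * x.a2 + (-523453816320 : ℝ) * x.a4 + (707790362400 : ℝ) * x.a5 + (-2237796193536 : ℝ) * x.a6 + (-113639340768 : ℝ) * x.a7 + (-517282302240 : ℝ) * x.a8 + (82465294560 : ℝ) * x.a9,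
   (1035539251200 : ℝ) * x.a0 + (621323550720 : ℝ) * x.a1 + (194792741792 : ℝ) * x.a2 + (-25888481280 : ℝ) * x.a3 + (-131831590208 : ℝ) * x.a4 + (189425628 : ℝ) * x.a5 + (-112516818528 : ℝ) * x.a6 + (-590994596 : ℝ) * x.a7 + (-19168069500 : ℝ) * x.a8 + (3549642500 : ℝ) * x.a9,
   (613300402080 : ℝ) * x.a2 + (-123680255040 : ℝ) * x.a4 + (167701815900 : ℝ) * x.a5 + (-535803919200 : ℝ) * x.a6 + (-18957596580 : ℝ) * x.a7 + (-143888308380 : ℝ) * x.a8 + (19679218020 : ℝ) * x.a9,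
   (-136934349920 : ℝ) * x.a2 + (4356455360 : ℝ) * x.a4 + (-24730568100 : ℝ) * x.a5 + (86394122400 : ℝ) * x.a6 + (3760115420 : ℝ) * x.a7 + (19679218020 : ℝ) * x.a8 + (-3038493980 : ℝ) * x.a9⟩

theorem ctPA_lin : LinV ctPA := by
  constructor
  · simp only [ctPA, V.zero, Nat.add_eq, Nat.mul_eq, Nat.mul_zero, Nat.add_zero]
  · intro x y
    ext <;> simp only [ctPA, V.add, Nat.add_eq, Nat.mul_eq] <;> ring
  · intro c x
    ext <;> simp only [ctPA, V.smul, Nat.add_eq, Nat.mul_eq] <;> ring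

theorem ctNA_lin : LinV ctNA := by
  constructor
  · simp only [ctNA, V.zero, Nat.add_eq, Nat.mul_eq, Nat.mul_zero, Nat.add_zero]
  · intro x y
    ext <;> simp only [ctNA, V.add, Nat.add_eq, Nat.mul_eq] <;> ring
  · intro c x
    ext <;> simp only [ctNA, V.smul, Nat.add_eq, Nat.mul_eq] <;> ring

theorem bRA_tr (a y : VR) : dotR (bRA a) y = dotR (bTA y) a := by
  simp only [dotR, bRA, bTA]
  ring

theorem bRA_link (v w : V) : dotR (bRA v.r) w.r = (dot (ctPA v) w : ℝ) - (dot (ctNA v) w : ℝ) := by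
  simp only [dotR, bRA, V.r, dot_eq, ctPA, ctNA, Nat.add_eq, Nat.mul_eq]
  push_cast
  ring

theorem ctPA_mono {v w : V} {K : Nat} (h : Bd K v) (k : Bd K w) :
    dot (ctPA v) w ≤ dot (ctPA ⟨K, K, K, K, K, K, K, K, K, K⟩) ⟨K, K, K, K, K, K, K, K, K, K⟩ := by
  obtain ⟨h0, h1, h2, h3, h4, h5, h6, h7, h8, h9⟩ := h
  obtain ⟨k0, k1, k2, k3, k4, k5, k6, k7, k8, k9⟩ := k
  simp only [dot_eq, ctPA, Nat.add_eq, Nat.mul_eq]
  gcongr

theorem ctNA_mono {v w : V} {K : Nat} (h : Bd K v) (k : Bd K w) :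
    dot (ctNA v) w ≤ dot (ctNA ⟨K, K, K, K, K, K, K, K, K, K⟩) ⟨K, K, K, K, K, K, K, K, K, K⟩ := by
  obtain ⟨h0, h1, h2, h3, h4, h5, h6, h7, h8, h9⟩ := h
  obtain ⟨k0, k1, k2, k3, k4, k5, k6, k7, k8, k9⟩ := k
  simp only [dot_eq, ctNA, Nat.add_eq, Nat.mul_eq]
  gcongr

/-- the form for the first inequality -/
def fA : Form := ⟨266, fun _ v => ctPA v, fun _ v => ctNA v⟩

theorem vmA_P : dot (ctPA ⟨8388608 * 4096 ^ 7, 8388608 * 4096 ^ 7, 8388608 * 4096 ^ 7, 8388608 * 4096 ^ 7, 8388608 * 4096 ^ 7, 8388608 * 4096 ^ 7, 8388608 * 4096 ^ 7, 8388608 * 4096 ^ 7, 8388608 * 4096 ^ 7, 8388608 * 4096 ^ 7⟩) ⟨8388608 * 4096 ^ 7, 8388608 * 4096 ^ 7, 8388608 * 4096 ^ 7, 8388608 * 4096 ^ 7, 8388608 * 4096 ^ 7, 8388608 * 4096 ^ 7, 8388608 * 4096 ^ 7, 8388608 * 4096 ^ 7, 8388608 * 4096 ^ 7, 8388608 * 4096 ^ 7⟩ < 2 ^ (266 - 1) := by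
  decide +kernel

theorem vmA_N : dot (ctNA ⟨8388608 * 4096 ^ 7, 8388608 * 4096 ^ 7, 8388608 * 4096 ^ 7, 8388608 * 4096 ^ 7, 8388608 * 4096 ^ 7, 8388608 * 4096 ^ 7, 8388608 * 4096 ^ 7, 8388608 * 4096 ^ 7, 8388608 * 4096 ^ 7, 8388608 * 4096 ^ 7⟩) ⟨8388608 * 4096 ^ 7, 8388608 * 4096 ^ 7, 8388608 * 4096 ^ 7, 8388608 * 4096 ^ 7, 8388608 * 4096 ^ 7, 8388608 * 4096 ^ 7, 8388608 * 4096 ^ 7, 8388608 * 4096 ^ 7, 8388608 * 4096 ^ 7, 8388608 * 4096 ^ 7⟩ < 2 ^ (266 - 1) := by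
  decide +kernel

theorem fA_ok : fA.OK 4096 (fun _ => bRA) (fun _ => bTA) where
  hb := by decide
  linP := fun _ => ctPA_lin
  linN := fun _ => ctNA_lin
  tr := fun _ a y => bRA_tr a y
  link := fun _ v w => bRA_link v w
  bdP := fun _ _ _ _ h k => lt_of_le_of_lt (ctPA_mono h k) vmA_P
  bdN := fun _ _ _ _ h k => lt_of_le_of_lt (ctNA_mono h k) vmA_N

end Vale.Agent.Lib.P154Q4
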